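import Vale.Agent.P098.Check6.Masks

/-!
P098, checker for `d = 6`: a packed tensor stands, in offset form and up to a counted error, for a
tensor of Bernstein coefficients, and so does each of its halves.
-/

namespace Vale.Agent.P098.Check6

/-- The number of coefficients. -/
def size : List ℕ → ℕ
  | [] => 1
  | d :: ds => (d + 1) * size ds

/-- The lane of an index, the first axis outermost. -/
def flat : List ℕ → List ℕ → ℕ
  | _ :: ds, i :: r => i * size ds + flat ds r
  | _, _ => 0

/-- The stride of an axis. -/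
def stride (ds : List ℕ) (a : ℕ) : ℕ := size (ds.drop (a + 1))

/-- The number of periods of an axis. -/
def periods (ds : List ℕ) (a : ℕ) : ℕ := size (ds.take a)

lemma size_pos : ∀ ds, 0 < size ds
  | [] => Nat.one_pos
  | d :: ds => Nat.mul_pos d.succ_pos (size_pos ds)

lemma flat_lt : ∀ {ds r : List ℕ}, InRange ds r → flat ds r < size ds
  | [], r, h => by cases h; simp [flat, size]
  | d :: ds, _, ⟨i, r, rfl, hi, hr⟩ => by
    have := flat_lt hr
    rw [flat, size]
    calc i * size ds + flat ds r < (i + 1) * size ds := by rw [add_one_mul]; omega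
      _ ≤ (d + 1) * size ds := Nat.mul_le_mul_right _ (by omega)

lemma size_split : ∀ {ds : List ℕ} {a : ℕ}, a < ds.length →
    size ds = periods ds a * ((ds.getD a 0 + 1) * stride ds a)
  | [], _, h => by simp at h
  | d :: ds, 0, _ => by simp [periods, stride, size]
  | d :: ds, a + 1, h => by
    have ih := size_split (ds := ds) (a := a) (by simpa using h)
    simp only [periods, stride] at ih
    simp only [periods, stride, List.take_succ_cons, List.drop_succ_cons, List.getD_cons_succ, size]
    rw [ih]
    ring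

lemma inRange_set : ∀ {ds r : List ℕ} {a j : ℕ}, InRange ds r → j ≤ ds.getD a 0 →
    InRange ds (r.set a j)
  | [], _, _, _, h, _ => by cases h; simp [InRange]
  | d :: ds, _, 0, j, ⟨i, r, rfl, _, hr⟩, hj => ⟨j, r, rfl, hj, hr⟩
  | d :: ds, _, a + 1, j, ⟨i, r, rfl, hi, hr⟩, hj => ⟨i, r.set a j, rfl, hi, inRange_set hr hj⟩

lemma getD_le : ∀ {ds r : List ℕ} {a : ℕ}, InRange ds r → r.getD a 0 ≤ ds.getD a 0
  | [], _, _, h => by cases h; simp
  | d :: ds, _, 0, ⟨i, r, rfl, hi, _⟩ => by simpa using hi
  | d :: ds, _, a + 1, ⟨i, r, rfl, _, hr⟩ => by simpa using getD_le hr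

lemma flat_set : ∀ {ds r : List ℕ} {a j : ℕ}, InRange ds r → a < ds.length →
    flat ds (r.set a j) + r.getD a 0 * stride ds a = flat ds r + j * stride ds a
  | [], _, _, _, _, h => by simp at h
  | d :: ds, _, 0, j, ⟨i, r, rfl, _, _⟩, _ => by
    simp only [List.set_cons_zero, flat, stride, List.getD_cons_zero, List.drop_succ_cons,
      List.drop_zero]
    ring
  | d :: ds, _, a + 1, j, ⟨i, r, rfl, _, hr⟩, h => by
    have := flat_set (j := j) hr (by simpa using h)
    simp only [stride] at this
    simp only [List.set_cons_succ, flat, stride, List.getD_cons_succ, List.drop_succ_cons]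
    linarith

lemma axisIdx_flat : ∀ {ds r : List ℕ} {a : ℕ}, InRange ds r → a < ds.length →
    axisIdx (stride ds a) (ds.getD a 0) (flat ds r) = r.getD a 0
  | [], _, _, _, h => by simp at h
  | d :: ds, _, 0, ⟨i, r, rfl, hi, hr⟩, _ => by
    simp only [axisIdx, stride, List.drop_succ_cons, List.drop_zero, List.getD_cons_zero, flat]
    rw [add_comm, Nat.add_mul_div_right _ _ (size_pos ds), Nat.div_eq_of_lt (flat_lt hr), zero_add,
      Nat.mod_eq_of_lt (by omega)]
  | d :: ds, _, a + 1, ⟨i, r, rfl, _, hr⟩, h => by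
    have ha : a < ds.length := by simpa using h
    have e := size_split ha
    have ih := axisIdx_flat hr ha
    simp only [axisIdx, stride] at ih e
    simp only [axisIdx, stride, List.drop_succ_cons, List.getD_cons_succ, flat]
    rw [e, show i * (periods ds a * ((ds.getD a 0 + 1) * size (ds.drop (a + 1)))) + flat ds r =
        flat ds r + size (ds.drop (a + 1)) * ((ds.getD a 0 + 1) * (i * periods ds a)) by ring,
      Nat.add_mul_div_left _ _ (size_pos _), Nat.add_mul_mod_self_left, ih]

lemma halfB_apply : ∀ {ds r : List ℕ} {a : ℕ} (side : Bool) (b : List ℕ → ℝ), InRange ds r →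
    a < ds.length → halfB ds a side b r =
      (if side then upperHalf (ds.getD a 0) else lowerHalf) (fun j => b (r.set a j)) (r.getD a 0)
  | [], _, _, _, _, _, h => by simp at h
  | d :: ds, _, 0, side, b, ⟨i, r, rfl, _, _⟩, _ => by
    cases side <;> simp [halfB]
  | d :: ds, _, a + 1, side, b, ⟨i, r, rfl, _, hr⟩, h => by
    rw [halfB, halfB_apply side _ hr (by simpa using h)]
    simp

noncomputable section

lemma dc_const (c : ℝ) : ∀ (n i : ℕ), dc (1 / 2) (1 / 2) n (fun _ => c) i = c
  | 0, _ => rfl
  | n + 1, i => by rw [dc, dc_const c n i, dc_const c n (i + 1)]; ring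

lemma dc_close {b c : ℕ → ℝ} {E : ℝ} : ∀ (n i : ℕ),
    (∀ j, i ≤ j → j ≤ i + n → |b j - c j| ≤ E) →
    |dc (1 / 2) (1 / 2) n b i - dc (1 / 2) (1 / 2) n c i| ≤ E
  | 0, i, h => h i le_rfl le_rfl
  | n + 1, i, h => by
    have h1 := dc_close (b := b) (c := c) n i fun j a b => h j a (by omega)
    have h2 := dc_close (b := b) (c := c) n (i + 1) fun j a b => h j (by omega) (by omega)
    rw [dc, dc, abs_le] at *
    constructor <;> linarith [h1.1, h1.2, h2.1, h2.2]

/-- `Y` stands for the tensor `b`: offset `C`, error at most `E`. -/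
def Rep (k C E : ℕ) (ds : List ℕ) (Y : ℕ) (b : List ℕ → ℝ) : Prop :=
  ∃ f : ℕ → ℕ, Y = pk k (size ds) f ∧ (∀ o < size ds, f o ≤ 2 * C) ∧
    ∀ r, InRange ds r → |b r - ((f (flat ds r) : ℝ) - C)| ≤ E

/-- The packed half. -/
def halfPacked (k : ℕ) (ds : List ℕ) (a : ℕ) (side : Bool) (Y : ℕ) : ℕ :=
  halveP (if side then upperRound k (stride ds a) else lowerRound k (stride ds a))
    (if side then upperFast k (periods ds a) (stride ds a) (ds.getD a 0)
      else lowerFast k (periods ds a) (stride ds a) (ds.getD a 0))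
    (ds.getD a 0) (divFast k (size ds) (ds.getD a 0)) Y

/-- A half of a represented tensor is represented, with one more unit of error. -/
theorem Rep.half {k C E : ℕ} {ds : List ℕ} {a : ℕ} (ha : a < ds.length) (hdk : ds.getD a 0 ≤ k)
    (hC : 2 ^ ds.getD a 0 * (2 * C) < 2 ^ k) (hk : 0 < k) {Y : ℕ} {b : List ℕ → ℝ}
    (h : Rep k C E ds Y b) (side : Bool) :
    Rep k C (E + 1) ds (halfPacked k ds a side Y) (halfB ds a side b) := by
  obtain ⟨f, rfl, hf, hb⟩ := h
  obtain ⟨g, hg, hg'⟩ := halveP_spec (size_pos (ds.drop (a + 1))) (size_split ha) hf hC hdk side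
  refine ⟨g, ?_, fun o ho => (hg' o ho).1, fun r hr => ?_⟩
  · rw [halfPacked, ← divMask_eq hk]
    rw [← hg]
    have e := size_split ha
    simp only [stride] at e ⊢
    cases side <;>
      simp only [Bool.false_eq_true, if_false, if_true, e] <;>
      first
        | rw [upperMasks_eq hk (size_pos _)]
        | rw [lowerMasks_eq hk (size_pos _)]
  obtain ⟨-, g1, g2⟩ := hg' _ (flat_lt hr)
  change (g (flat ds r) : ℝ) ≤ _ at g1
  rw [halfB_apply side b hr ha]
  set d := ds.getD a 0
  have hline : ∀ j ≤ d,
      |b (r.set a j) - (lineOf (stride ds a) d f (flat ds r) j - C)| ≤ E := fun j hj => by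
    have h1 := hb _ (inRange_set hr hj)
    have h2 := flat_set (j := j) hr ha
    rw [lineOf, axisIdx_flat hr ha,
      show flat ds r - r.getD a 0 * stride ds a + j * stride ds a = flat ds (r.set a j) by
        have h3 : axisIdx (stride ds a) d (flat ds r) * stride ds a ≤ flat ds r :=
          (Nat.mul_le_mul_right _ (Nat.mod_le _ _)).trans (Nat.div_mul_le_self _ _)
        rw [axisIdx_flat hr ha] at h3
        omega]
    exact h1
  have hidx := axisIdx_flat hr ha
  simp only [stride] at hidx hline g1 g2
  rw [hidx] at g1 g2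
  have hle : r.getD a 0 ≤ d := getD_le hr
  have sub : ∀ (n i : ℕ) (l : ℕ → ℝ), dc (1 / 2) (1 / 2) n (fun j => l j - (C : ℝ)) i =
      dc (1 / 2) (1 / 2) n l i - C := fun n i l => by
    have := dc_add (1 / 2) (1 / 2) n l (fun _ => -(C : ℝ)) i
    rw [dc_const] at this
    simpa [sub_eq_add_neg] using this
  cases side
  · simp only [Bool.false_eq_true, if_false, lowerHalf] at g1 g2 ⊢
    have h1 := dc_close (b := fun j => b (r.set a j))
      (c := fun j => lineOf (size (ds.drop (a + 1))) d f (flat ds r) j - C) (E := (E : ℝ))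
      (r.getD a 0) 0 fun j _ hj => hline j (by omega)
    rw [sub] at h1
    rw [abs_le] at h1 ⊢
    push_cast
    constructor <;> linarith [h1.1, h1.2]
  · simp only [if_true, upperHalf] at g1 g2 ⊢
    have h1 := dc_close (b := fun j => b (r.set a j))
      (c := fun j => lineOf (size (ds.drop (a + 1))) d f (flat ds r) j - C) (E := (E : ℝ))
      (d - r.getD a 0) (r.getD a 0) fun j _ hj => hline j (by omega)
    rw [sub] at h1
    rw [abs_le] at h1 ⊢
    push_cast
    constructor <;> linarith [h1.1, h1.2]

/-- A face: an axis and an end. -/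
def OnFace (ds : List ℕ) (a : ℕ) (top : Bool) (r : List ℕ) : Prop :=
  r.getD a 0 = if top then ds.getD a 0 else 0

/-- Vanishing on a face passes to a half, unless it is the opposite half on the same axis. -/
theorem halfB_face {ds : List ℕ} {a c : ℕ} {top : Bool} (hc : c < ds.length) {b : List ℕ → ℝ}
    (hb : ∀ r, InRange ds r → OnFace ds a top r → b r = 0) {side : Bool}
    (hs : a = c → side = top) {r : List ℕ} (hr : InRange ds r) (hf : OnFace ds a top r) :
    halfB ds c side b r = 0 := by
  rw [halfB_apply side b hr hc]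
  have hd := getD_le (a := c) hr
  have zero : ∀ (n i : ℕ) (l : ℕ → ℝ), (∀ j, i ≤ j → j ≤ i + n → l j = 0) →
      dc (1 / 2) (1 / 2) n l i = 0 := fun n i l h =>
    (dc_congr _ _ n i h).trans (dc_zero _ _ n i)
  by_cases hac : a = c
  · subst hac
    obtain rfl := hs rfl
    simp only [OnFace] at hf
    have e : r.set a (r.getD a 0) = r := setGetD r a 0
    cases side
    · simp only [Bool.false_eq_true, if_false, lowerHalf] at hf ⊢
      rw [hf, dc]
      exact hb _ (inRange_set hr (Nat.zero_le _)) (by rw [← hf, e]; simpa [OnFace] using hf)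
    · simp only [if_true, upperHalf] at hf ⊢
      rw [hf, Nat.sub_self, dc]
      exact hb _ (inRange_set hr le_rfl) (by rw [← hf, e]; simpa [OnFace] using hf)
  · have on : ∀ j, OnFace ds a top (r.set c j) := fun j => by
      simp only [OnFace, List.getD_eq_getElem?_getD, List.getElem?_set_ne (Ne.symm hac)] at hf ⊢
      exact hf
    cases side
    · exact zero _ _ _ fun j _ hj => hb _ (inRange_set hr (by omega)) (on j)
    · exact zero _ _ _ fun j _ hj => hb _ (inRange_set hr (by omega)) (on j)
where
  setGetD (r : List ℕ) (a d : ℕ) : r.set a (r.getD a d) = r := by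
    rcases lt_or_ge a r.length with h | h
    · rw [List.getD_eq_getElem _ _ h, List.set_getElem_self]
    · exact List.set_eq_of_length_le h

end

end Vale.Agent.P098.Check6
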