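import Vale.Agent.P098.Check6.Signed
import Vale.Agent.P098.Check6.Tensor

/-!
P098, checker for `d = 6`, scalar case: a polynomial nonnegative on the part of the unit box where
a second one is nonpositive.  Both are converted once from monomial coefficients to packed
Bernstein coefficients; every leaf of a bisection tree carries one multiplier.
-/

namespace Vale.Agent.P098.Check6

open Finset

/-- The `j`-th block of length `L`. -/
def blk (L j : ℕ) (e : List ℤ) : List ℤ := (e.drop (j * L)).take L

/-- The weight of a monomial of degree `j` in the coefficient `i` of degree `d`, times `d !`. -/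
def bWeight (d i j : ℕ) : ℤ := ((i.choose j * (j.factorial * (d - j).factorial) : ℕ) : ℤ)

/-- The product of the factorials of the degrees. -/
def facProd : List ℕ → ℕ
  | [] => 1
  | d :: ds => d.factorial * facProd ds

/-- A Bernstein coefficient of a polynomial given by monomial coefficients, times `facProd`. -/
def bFun : List ℕ → List ℤ → List ℕ → ℤ
  | [], e, _ => e.headD 0
  | d :: ds, e, r => ∑ j ∈ range (d + 1), bWeight d (r.headD 0) j * bFun ds (blk (size ds) j e) r.tail

/-- The combination of blocks of length `L`. -/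
def lin (L : ℕ) : List ℤ → List (List ℤ) → List ℤ
  | w :: ws, b :: bs => List.zipWith (fun u v => w * u + v) b (lin L ws bs)
  | _, _ => List.replicate L 0

/-- The list of all Bernstein coefficients, the first axis outermost. -/
def bList : List ℕ → List ℤ → List ℤ
  | [], e => [e.headD 0]
  | d :: ds, e =>
    let bs := (List.range (d + 1)).map fun j => bList ds (blk (size ds) j e)
    ((List.range (d + 1)).map fun i =>
      lin (size ds) ((List.range (d + 1)).map fun j => bWeight d i j) bs).flatten

noncomputable section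

/-- `∑ j < n, x ^ j g (block j)`. -/
def hor (x : ℝ) (L : ℕ) (g : List ℤ → ℝ) : ℕ → List ℤ → ℝ
  | 0, _ => 0
  | n + 1, e => g (e.take L) + x * hor x L g n (e.drop L)

/-- The value of a list of monomial coefficients, the first variable outermost. -/
def evalM : List ℕ → List ℤ → List ℝ → ℝ
  | [], e, _ => (e.headD 0 : ℝ)
  | d :: ds, e, xs =>
    hor (xs.headD 0) (size ds) (fun c => evalM ds c xs.tail) (d + 1) e

lemma hor_eq (x : ℝ) (L : ℕ) (g : List ℤ → ℝ) : ∀ (n : ℕ) (e : List ℤ),
    hor x L g n e = ∑ j ∈ range n, x ^ j * g (blk L j e)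
  | 0, _ => rfl
  | n + 1, e => by
    rw [hor, hor_eq x L g n, sum_range_succ', pow_zero, one_mul, mul_sum, add_comm]
    refine congrArg₂ (· + ·) (Finset.sum_congr rfl fun j _ => ?_) (by simp [blk])
    rw [pow_succ', ← mul_assoc, blk, blk, List.drop_drop, show L + j * L = (j + 1) * L by ring]

lemma dc_succ_out (u t : ℝ) : ∀ (n : ℕ) (b : ℕ → ℝ) (i : ℕ),
    dc u t (n + 1) b i = dc u t n (fun m => u * b m + t * b (m + 1)) i
  | 0, _, _ => rfl
  | n + 1, b, i => by
    rw [dc, dc_succ_out u t n b i, dc_succ_out u t n b (i + 1)]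
    rfl

lemma dc_choose (x : ℝ) : ∀ (n j : ℕ),
    dc (1 - x) x n (fun i => (i.choose j : ℝ)) 0 = (n.choose j : ℝ) * x ^ j
  | 0, 0 => by simp [dc]
  | 0, j + 1 => by simp [dc]
  | n + 1, 0 => by
    rw [dc_succ_out, dc_congr _ _ n 0 (c := fun i => ((i.choose 0 : ℕ) : ℝ))
      (fun m _ _ => by simp), dc_choose x n 0]
    simp
  | n + 1, j + 1 => by
    rw [dc_succ_out, dc_congr _ _ n 0 (c := fun i => ((i.choose (j + 1) : ℕ) : ℝ) +
      x * ((i.choose j : ℕ) : ℝ)) (fun m _ _ => by
        rw [Nat.choose_succ_succ m j]; push_cast; ring),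
      dc_add, dc_smul, dc_choose x n (j + 1), dc_choose x n j, Nat.choose_succ_succ n j]
    push_cast
    ring

lemma dc_sum (u t : ℝ) (n i : ℕ) (s : Finset ℕ) (f : ℕ → ℕ → ℝ) :
    dc u t n (fun m => ∑ j ∈ s, f j m) i = ∑ j ∈ s, dc u t n (f j) i := by
  induction s using Finset.induction_on with
  | empty => simp [dc_zero]
  | insert a s ha ih => simp only [Finset.sum_insert ha, dc_add, ih]

/-- The converted coefficients represent the polynomial. -/
lemma evalB_bFun : ∀ (ds : List ℕ) (e : List ℤ) (xs : List ℝ),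
    evalB ds xs (fun r => (bFun ds e r : ℝ)) = (facProd ds : ℝ) * evalM ds e xs
  | [], e, _ => by simp [evalB, bFun, facProd, evalM]
  | d :: ds, e, xs => by
    set x := xs.headD 0
    have inner : ∀ i : ℕ, evalB ds xs.tail (fun r => (bFun (d :: ds) e (i :: r) : ℝ)) =
        ∑ j ∈ range (d + 1), ((i.choose j : ℕ) : ℝ) *
          ((j.factorial * (d - j).factorial : ℕ) : ℝ) *
          ((facProd ds : ℝ) * evalM ds (blk (size ds) j e) xs.tail) := fun i => by
      rw [show (fun r => (bFun (d :: ds) e (i :: r) : ℝ)) = fun r => ∑ j ∈ range (d + 1),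
          (bWeight d i j : ℝ) * (bFun ds (blk (size ds) j e) r : ℝ) from
        funext fun r => by simp [bFun], evalB_sum]
      refine Finset.sum_congr rfl fun j _ => ?_
      rw [evalB_smul, evalB_bFun ds _ xs.tail, bWeight]
      push_cast
      ring
    rw [evalB, dc_congr _ _ d 0 (fun i _ _ => inner i), dc_sum, evalM, hor_eq, facProd,
      Finset.mul_sum]
    refine Finset.sum_congr rfl fun j hj => ?_
    have hjd : j ≤ d := Nat.lt_succ_iff.1 (Finset.mem_range.1 hj)
    have := dc_smul (1 - x) x (((j.factorial * (d - j).factorial : ℕ) : ℝ) *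
      ((facProd ds : ℝ) * evalM ds (blk (size ds) j e) xs.tail)) d (fun i => (i.choose j : ℝ)) 0
    rw [dc_choose] at this
    rw [show (fun i : ℕ => ((i.choose j : ℕ) : ℝ) * ((j.factorial * (d - j).factorial : ℕ) : ℝ) *
        ((facProd ds : ℝ) * evalM ds (blk (size ds) j e) xs.tail)) = fun i : ℕ =>
          ((j.factorial * (d - j).factorial : ℕ) : ℝ) *
            ((facProd ds : ℝ) * evalM ds (blk (size ds) j e) xs.tail) * (i.choose j : ℝ) from
      funext fun i => by ring, this]
    rw [← Nat.choose_mul_factorial_mul_factorial hjd]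
    push_cast
    ring

lemma lin_spec (L : ℕ) : ∀ (ws : List ℤ) (bs : List (List ℤ)), (∀ b ∈ bs, b.length = L) →
    ws.length = bs.length → (lin L ws bs).length = L ∧
      ∀ o < L, (lin L ws bs).getD o 0 = ∑ j ∈ range ws.length, ws.getD j 0 * (bs.getD j []).getD o 0
  | [], [], _, _ => ⟨by simp [lin], fun o ho => by
      simp [lin, List.getD_eq_getElem?_getD, List.getElem?_replicate, ho]⟩
  | w :: ws, b :: bs, h, hl => by
    obtain ⟨h1, h2⟩ := lin_spec L ws bs (fun c hc => h c (List.mem_cons_of_mem b hc))
      (by simpa using hl)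
    have hb := h b List.mem_cons_self
    refine ⟨by simp [lin, hb, h1], fun o ho => ?_⟩
    rw [List.length_cons, sum_range_succ']
    simp only [lin, List.getD_cons_succ, List.getD_cons_zero]
    rw [← h2 o ho]
    simp [List.getD_eq_getElem?_getD,
      show o < b.length by omega, show o < (lin L ws bs).length by omega]
    ring
  | [], _ :: _, _, hl => by simp at hl
  | _ :: _, [], _, hl => by simp at hl

lemma getD_flatten {L : ℕ} : ∀ (l : List (List ℤ)), (∀ b ∈ l, b.length = L) → ∀ i o, i < l.length →
    o < L → l.flatten.length = l.length * L ∧ l.flatten.getD (i * L + o) 0 = (l.getD i []).getD o 0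
  | [], _, _, _, h, _ => by simp at h
  | b :: l, h, i, o, hi, ho => by
    have hb := h b List.mem_cons_self
    have hl : ∀ c ∈ l, c.length = L := fun c hc => h c (List.mem_cons_of_mem b hc)
    have hlen : l.flatten.length = l.length * L := by
      rw [List.length_flatten, List.map_congr_left (g := fun _ => L) hl, List.map_const',
        List.sum_replicate, smul_eq_mul]
    refine ⟨by simp [hlen, hb]; ring, ?_⟩
    rcases i with _ | i
    · simp [List.getD_eq_getElem?_getD, List.getElem?_append_left, show o < b.length by omega]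
    · rw [List.getD_cons_succ, ← (getD_flatten l hl i o (by simpa using hi) ho).2,
        List.flatten_cons, List.getD_eq_getElem?_getD, List.getD_eq_getElem?_getD,
        List.getElem?_append_right (by rw [hb, add_one_mul]; omega), hb,
        show (i + 1) * L + o - L = i * L + o by rw [add_one_mul]; omega]

lemma bList_spec : ∀ (ds : List ℕ) (e : List ℤ), (bList ds e).length = size ds ∧
    ∀ r, InRange ds r → (bList ds e).getD (flat ds r) 0 = bFun ds e r
  | [], e => ⟨rfl, fun r hr => by cases hr; simp [bList, bFun, flat]⟩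
  | d :: ds, e => by
    set bs := (List.range (d + 1)).map fun j => bList ds (blk (size ds) j e) with hbs
    set rows := (List.range (d + 1)).map fun i =>
      lin (size ds) ((List.range (d + 1)).map fun j => bWeight d i j) bs with hrows
    have hlen : ∀ b ∈ bs, b.length = size ds := by
      simp only [hbs, List.mem_map]
      rintro _ ⟨j, -, rfl⟩
      exact (bList_spec ds _).1
    have hrow : ∀ b ∈ rows, b.length = size ds := by
      simp only [hrows, List.mem_map]
      rintro _ ⟨i, -, rfl⟩
      exact (lin_spec _ _ bs hlen (by simp [bs])).1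
    have he : bList (d :: ds) e = rows.flatten := rfl
    refine ⟨?_, ?_⟩
    · rw [he, (getD_flatten rows hrow 0 0 (by simp [rows]) (size_pos ds)).1]
      simp [rows, size]
    rintro _ ⟨i, r, rfl, hi, hr⟩
    rw [he, flat, (getD_flatten rows hrow i _ (by simp [rows]; omega) (flat_lt hr)).2,
      show rows.getD i [] = lin (size ds) ((List.range (d + 1)).map fun j => bWeight d i j) bs by
        simp [rows, List.getD_eq_getElem?_getD, show i < d + 1 by omega],
      (lin_spec _ _ bs hlen (by simp [bs])).2 _ (flat_lt hr), bFun]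
    simp only [List.length_map, List.length_range, List.headD_cons, List.tail_cons]
    refine Finset.sum_congr rfl fun j hj => ?_
    have hj' := Finset.mem_range.1 hj
    rw [show bs.getD j [] = bList ds (blk (size ds) j e) by
        simp [bs, List.getD_eq_getElem?_getD, hj'], (bList_spec ds _).2 r hr]
    simp [List.getD_eq_getElem?_getD, hj']

/-- The packing of a list in offset form. -/
def pkList (k C : ℕ) (l : List ℤ) : ℕ :=
  List.rec 0 (fun z _ ih => Nat.add (Int.toNat (C + z)) (Nat.mul (Nat.pow 2 k) ih)) l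

lemma pkList_eq (k C : ℕ) : ∀ l : List ℤ,
    pkList k C l = pk k l.length fun o => Int.toNat (C + l.getD o 0)
  | [] => rfl
  | z :: l => by
    rw [List.length_cons, pk]
    simp only [List.getD_cons_succ, List.getD_cons_zero, ← pkList_eq k C l]
    rfl

/-- A bisection tree with a multiplier at every leaf. -/
inductive MTree : Type
  | leaf : ℕ → MTree
  | node : ℕ → MTree → MTree → MTree

/-- All lanes are at least `T`, by the top bit of a shifted copy. -/
def laneTest (k n T Z : ℕ) : Bool :=
  Nat.ble T (Nat.pow 2 (Nat.sub k 1)) &&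
    Nat.beq (Nat.land (Nat.add Z (Nat.mul (Nat.sub (Nat.pow 2 (Nat.sub k 1)) T) (rep k 1 n)))
        (Nat.mul (Nat.pow 2 (Nat.sub k 1)) (rep k 1 n)))
      (Nat.mul (Nat.pow 2 (Nat.sub k 1)) (rep k 1 n))

/-- The test of a tree on two packed tensors with error `E`. -/
def runTree (k C n : ℕ) (ds : List ℕ) (t : MTree) : ℕ → ℕ → ℕ → Bool :=
  MTree.rec
    (fun m E YF YG =>
      cond (Nat.blt (Nat.mul (Nat.add m 1) (Nat.mul 4 C)) (Nat.pow 2 k))
        (laneTest k n (Nat.mul (Nat.add m 1) (Nat.add C E)) (Nat.add YF (Nat.mul m YG))) false)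
    (fun a _ _ lo hi E YF YG =>
      cond (Nat.blt a ds.length)
        (cond (Nat.ble (Nat.mul (Nat.pow 2 (ds.getD a 0)) (Nat.mul 4 C)) (Nat.pow 2 k))
          (cond (lo (Nat.add E 1) (halfPacked k ds a false YF) (halfPacked k ds a false YG))
            (hi (Nat.add E 1) (halfPacked k ds a true YF) (halfPacked k ds a true YG)) false)
          false) false)
    t

/-- All entries are at most `C` in absolute value. -/
def smallList (C : ℕ) (l : List ℤ) : Bool :=
  List.rec true (fun z _ ih => cond (Nat.ble z.natAbs C) ih false) l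

/-- `f` is nonnegative on the part of the unit box where `g` is nonpositive. -/
def checkUnit (k C : ℕ) (ds : List ℕ) (f g : List ℤ) (t : MTree) : Bool :=
  Nat.blt 0 k && Nat.blt 0 C && ds.all (fun d => Nat.ble d k) && smallList C (bList ds f) &&
    smallList C (bList ds g) &&
    runTree k C (size ds) ds t 0 (pkList k C (bList ds f)) (pkList k C (bList ds g))

lemma smallList_mem {C : ℕ} : ∀ {l : List ℤ}, smallList C l = true → ∀ z ∈ l, z.natAbs ≤ C
  | [], _, z, hz => by simp at hz
  | a :: l, h, z, hz => by
    simp only [smallList] at h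
    rw [Bool.cond_false_right, Bool.and_eq_true] at h
    rcases List.mem_cons.1 hz with rfl | hz
    · exact Nat.le_of_ble_eq_true h.1
    · exact smallList_mem (l := l) h.2 z hz

lemma rep_bList {k C : ℕ} (ds : List ℕ) (e : List ℤ) (h : smallList C (bList ds e) = true) :
    Rep k C 0 ds (pkList k C (bList ds e)) (fun r => (bFun ds e r : ℝ)) := by
  obtain ⟨hlen, hget⟩ := bList_spec ds e
  have hb : ∀ o < size ds, ((bList ds e).getD o 0).natAbs ≤ C := fun o ho => by
    rw [List.getD_eq_getElem _ _ (by omega)]
    exact smallList_mem h _ (List.getElem_mem _)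
  refine ⟨fun o => Int.toNat (C + (bList ds e).getD o 0), by rw [pkList_eq, hlen],
    fun o ho => ?_, fun r hr => ?_⟩
  · have := hb o ho
    dsimp only
    omega
  · simp only
    rw [← hget r hr]
    have h0 : (0 : ℤ) ≤ C + (bList ds e).getD (flat ds r) 0 := by
      have := hb _ (flat_lt hr)
      omega
    have e1 : ((Int.toNat (C + (bList ds e).getD (flat ds r) 0) : ℕ) : ℝ) =
        (C : ℝ) + ((bList ds e).getD (flat ds r) 0 : ℤ) := by
      have := congrArg (fun z : ℤ => (z : ℝ)) (Int.toNat_of_nonneg h0)
      push_cast at this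
      exact this
    rw [e1]
    simp

lemma laneTest_sound {k n T : ℕ} (hk : 0 < k) {f : ℕ → ℕ} (hf : ∀ o < n, f o < 2 ^ (k - 1))
    (h : laneTest k n T (pk k n f) = true) : ∀ o < n, T ≤ f o := by
  simp only [laneTest, Bool.and_eq_true, Nat.beq_eq, Nat.sub_eq, Nat.add_eq, Nat.mul_eq,
    Nat.pow_eq] at h
  obtain ⟨hT, heq⟩ := h
  have hT' := Nat.le_of_ble_eq_true hT
  set H := 2 ^ (k - 1) with hH
  have hk2 : H + H = 2 ^ k := by
    rw [hH, ← two_mul, ← pow_succ']; congr 1; omega
  have hrep : pk k n (fun _ => 1) = rep k 1 n := by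
    have := pk_repeat (k := k) (P := 1) (by simpa using hk) (fun _ => 1) n
    simpa [pk] using this
  have hc : ∀ c, c * rep k 1 n = pk k n fun _ => c := fun c => by
    rw [← hrep, mul_pk]; simp
  rw [hc, hc, pk_add] at heq
  change pk k n _ &&& pk k n _ = _ at heq
  have hb : ∀ o < n, f o + (H - T) < 2 ^ k := fun o ho => by have := hf o ho; omega
  rw [pk_land k hb (fun o _ => show H < 2 ^ k by have := Nat.two_pow_pos (k - 1); omega)] at heq
  intro o ho
  have := pk_inj (fun o ho => lt_of_le_of_lt Nat.and_le_left (hb o ho))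
    (fun o _ => show H < 2 ^ k by have := Nat.two_pow_pos (k - 1); omega) heq o ho
  have h2 : H ≤ f o + (H - T) := le_of_eq_of_le (Eq.symm this) Nat.and_le_left
  omega

lemma runTree_node (k C n : ℕ) (ds : List ℕ) (a : ℕ) (l r : MTree) (E YF YG : ℕ) :
    runTree k C n ds (.node a l r) E YF YG =
      cond (Nat.blt a ds.length)
        (cond (Nat.ble (2 ^ ds.getD a 0 * (4 * C)) (2 ^ k))
          (cond (runTree k C n ds l (E + 1) (halfPacked k ds a false YF) (halfPacked k ds a false YG))
            (runTree k C n ds r (E + 1) (halfPacked k ds a true YF) (halfPacked k ds a true YG))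
            false)
          false) false := rfl

theorem runTree_sound {k C : ℕ} {ds : List ℕ} (hk : 0 < k) (hC : 0 < C) (hds : ∀ d ∈ ds, d ≤ k) :
    ∀ (t : MTree) {E YF YG : ℕ} {b c : List ℕ → ℝ}, runTree k C (size ds) ds t E YF YG = true →
      Rep k C E ds YF b → Rep k C E ds YG c → ∀ xs : List ℝ, xs.length = ds.length → InUnit xs →
      evalB ds xs c ≤ 0 → 0 ≤ evalB ds xs b
  | .leaf m, E, YF, YG, b, c, h, hF, hG, xs, _, hx, hg => by
    simp only [runTree, Bool.cond_false_right, Bool.and_eq_true, Nat.add_eq, Nat.mul_eq,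
      Nat.pow_eq] at h
    obtain ⟨hm, ht⟩ := h
    have hm' := Nat.le_of_ble_eq_true hm
    obtain ⟨f, rfl, hf, hfb⟩ := hF
    obtain ⟨g, rfl, hg', hgb⟩ := hG
    rw [mul_pk, pk_add] at ht
    have hk2 : 2 ^ k = 2 * 2 ^ (k - 1) := by rw [← pow_succ']; congr 1; omega
    have key := laneTest_sound hk (fun o ho => ?_) ht
    swap
    · have h1 := hf o ho
      have h2 := Nat.mul_le_mul_left m (hg' o ho)
      have h3 : (m + 1) * (4 * C) = 4 * (m * C) + 4 * C := by ring
      have h4 : m * (2 * C) = 2 * (m * C) := by ring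
      have h5 : (m + 1) * (4 * C) < 2 ^ k := hm'
      omega
    have hnn : 0 ≤ evalB ds xs fun r => b r + (m : ℝ) * c r := evalB_nonneg ds hx fun r hr => by
      have h1 := abs_le.1 (hfb r hr)
      have h2 := abs_le.1 (hgb r hr)
      have h3 : (((m + 1) * (C + E) : ℕ) : ℝ) ≤ ((f (flat ds r) + m * g (flat ds r) : ℕ) : ℝ) := by
        exact_mod_cast key _ (flat_lt hr)
      push_cast at h3
      have := mul_le_mul_of_nonneg_left h2.1 (Nat.cast_nonneg (α := ℝ) m)
      linarith [h1.1]
    rw [evalB_add, evalB_smul] at hnn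
    nlinarith [mul_nonpos_of_nonneg_of_nonpos (Nat.cast_nonneg (α := ℝ) m) hg]
  | .node a l r, E, YF, YG, b, c, h, hF, hG, xs, hlen, hx, hg => by
    rw [runTree_node] at h
    simp only [Bool.cond_false_right, Bool.and_eq_true] at h
    obtain ⟨ha, hb, h1, h2⟩ := h
    have ha' : a < ds.length := Nat.le_of_ble_eq_true ha
    have hb' := Nat.le_of_ble_eq_true hb
    have hd : ds.getD a 0 ≤ k := by
      rw [List.getD_eq_getElem _ _ ha']
      exact hds _ (List.getElem_mem _)
    have hlt : 2 ^ ds.getD a 0 * (2 * C) < 2 ^ k :=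
      lt_of_lt_of_le (Nat.mul_lt_mul_of_pos_left (by omega) (Nat.two_pow_pos _)) hb'
    refine forall_halves (n := ds.length) (p := fun xs => evalB ds xs c ≤ 0 → 0 ≤ evalB ds xs b) a
      (fun side ys hyl hy hgy => ?_) xs hlen hx hg
    rw [← evalB_halfB ds a side ys c ha' hyl] at hgy
    rw [← evalB_halfB ds a side ys b ha' hyl]
    cases side
    · exact runTree_sound hk hC hds l h1 (hF.half ha' hd hlt hk false) (hG.half ha' hd hlt hk false)
        ys hyl hy hgy
    · exact runTree_sound hk hC hds r h2 (hF.half ha' hd hlt hk true) (hG.half ha' hd hlt hk true)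
        ys hyl hy hgy

/-- Soundness. -/
theorem checkUnit_sound {k C : ℕ} {ds : List ℕ} {f g : List ℤ} {t : MTree}
    (h : checkUnit k C ds f g t = true) {xs : List ℝ} (hlen : xs.length = ds.length)
    (hx : InUnit xs) (hg : evalM ds g xs ≤ 0) : 0 ≤ evalM ds f xs := by
  simp only [checkUnit, Bool.and_eq_true, List.all_eq_true] at h
  obtain ⟨⟨⟨⟨⟨hk, hC⟩, hds⟩, hsf⟩, hsg⟩, hrun⟩ := h
  have hp : (0 : ℝ) < facProd ds := by
    have : ∀ l : List ℕ, 0 < facProd l := fun l => by
      induction l with
      | nil => exact Nat.one_pos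
      | cons d l ih => exact Nat.mul_pos (Nat.factorial_pos d) ih
    exact_mod_cast this ds
  have key := runTree_sound (Nat.le_of_ble_eq_true hk) (Nat.le_of_ble_eq_true hC)
    (fun d hd => Nat.le_of_ble_eq_true (hds d hd)) t hrun (rep_bList ds f hsf) (rep_bList ds g hsg)
    xs hlen hx
  rw [evalB_bFun, evalB_bFun] at key
  exact nonneg_of_mul_nonneg_right (key (mul_nonpos_of_nonneg_of_nonpos hp.le hg)) hp

end

end Vale.Agent.P098.Check6
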