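import Vale.Agent.P098.Check6.IntervalRows

/-!
P098, checker for `d = 6`: a passed interval leaf is good, and so is a passed tree.
-/

namespace Vale.Agent.P098.Check6.Interval

open Finset

noncomputable section

lemma congOf_lower (code : ℕ) (u i : Fin 6) (h : i < u) : (congOf code).t u i = 0 := by
  revert h
  fin_cases u <;> fin_cases i <;> intro h <;> first | rfl | exact absurd h (by decide)

/-- An upper triangular system with positive diagonal can be solved. -/
lemma exists_solve (t : Fin 6 → Fin 6 → ℝ) (hlow : ∀ u i, i < u → t u i = 0)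
    (hd : ∀ i, 0 < t i i) (x : Fin 6 → ℝ) :
    ∃ y : Fin 6 → ℝ, (∀ u, ∑ i, t u i * y i = x u) ∧ y 5 = x 5 / t 5 5 ∧
      y 4 = (x 4 - t 4 5 * y 5) / t 4 4 := by
  set y5 := x 5 / t 5 5 with h5
  set y4 := (x 4 - t 4 5 * y5) / t 4 4 with h4
  set y3 := (x 3 - t 3 4 * y4 - t 3 5 * y5) / t 3 3 with h3
  set y2 := (x 2 - t 2 3 * y3 - t 2 4 * y4 - t 2 5 * y5) / t 2 2 with h2
  set y1 := (x 1 - t 1 2 * y2 - t 1 3 * y3 - t 1 4 * y4 - t 1 5 * y5) / t 1 1 with h1
  set y0 := (x 0 - t 0 1 * y1 - t 0 2 * y2 - t 0 3 * y3 - t 0 4 * y4 - t 0 5 * y5) / t 0 0 with h0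
  rw [eq_div_iff (hd _).ne'] at h0 h1 h2 h3 h4 h5
  refine ⟨![y0, y1, y2, y3, y4, y5], fun u => ?_, ?_, ?_⟩
  · fin_cases u <;> simp [Fin.sum_univ_six, hlow] <;> linarith
  · simp [y5]
  · simp [y4, y5]

/-- The rows of one lane give the form at that lane on the cone. -/
lemma lane_sound {k C E code : ℕ} (hshape : shapeOk k C E code = true)
    {g : Fin 6 → Fin 6 → ℤ} {M : Fin 6 → Fin 6 → ℝ} (hM : ∀ u v, M u v = M v u)
    (hclose : ∀ u v, |M u v - (g u v : ℝ)| ≤ E)
    {live : Fin 6 → Bool} (hdead : ∀ i, live i = false → ∀ u, u ≤ i → ∀ v, M u v = 0)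
    (hrows : ∀ i, live i = true → 0 ≤ vR (congOf code) E (fun u v _ => g u v) i 0)
    (x : Fin 6 → ℝ) (h4 : 0 ≤ x 4) (h5 : 0 ≤ x 5) : 0 ≤ quadForm M x := by
  set T : Fin 6 → Fin 6 → ℝ := fun u i => ((congOf code).t u i : ℝ) with hT
  have hlow : ∀ u i, i < u → T u i = 0 := fun u i h => by simp [hT, congOf_lower code u i h]
  have hdiag : ∀ i, 0 < T i i := fun i => by
    simpa [hT] using (shapeOk_spec hshape i).1
  obtain ⟨y, hy, hy5, hy4⟩ := exists_solve T hlow hdiag x
  set B := congrMat T M with hBdef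
  set vb : Fin 6 → Fin 6 → ℤ := fun i j => vB (congOf code) (fun u v _ => g u v) i j 0
  set a : Fin 6 → ℝ := fun i => ((colAbs (congOf code)).get i : ℝ) with ha
  have hBs : ∀ i j, B i j = B j i := congrMat_symm T hM
  have hBclose : ∀ i j, |B i j - (vb i j : ℝ)| ≤ E * a i * a j := by
    intro i j
    simp only [hBdef, congrMat, vb, vB, ha, hT, Int.cast_sum, Int.cast_mul, colAbs_get,
      Nat.cast_sum, ← sum_sub_distrib, Finset.mul_sum, Finset.sum_mul]
    refine (abs_sum_le_sum_abs _ _).trans ((sum_le_sum fun u _ => abs_sum_le_sum_abs _ _).trans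
      (le_of_le_of_eq (sum_le_sum fun u _ => sum_le_sum fun v _ => ?_) sum_comm))
    rw [← sub_mul, ← mul_sub, abs_mul, abs_mul, Nat.cast_natAbs, Nat.cast_natAbs, Int.cast_abs,
      Int.cast_abs]
    nlinarith [mul_le_mul_of_nonneg_left (hclose u v)
      (mul_nonneg (abs_nonneg ((congOf code).t u i : ℝ)) (abs_nonneg ((congOf code).t v j : ℝ)))]
  set C' : Fin 6 → Fin 6 → ℝ := fun i j =>
    if i ≠ j ∧ pairI code i j = true then max (B i j) 0 else 0 with hC'
  have hy45 : bothI code = true → 0 ≤ y 4 ∧ 0 ≤ y 5 := fun h => by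
    have h5' : 0 ≤ y 5 := by rw [hy5]; exact div_nonneg h5 (hdiag 5).le
    refine ⟨?_, h5'⟩
    have ht : T 4 5 ≤ 0 := by
      change ((sval _ : ℤ) : ℝ) ≤ 0
      simp only [bothI, Bool.or_eq_true] at h
      simp only [sval]
      rcases h with h | h
      · rw [h, cond_true]; push_cast; simp
      · rw [Nat.beq_eq] at h
        rw [h]
        cases Nat.beq _ 1 <;> simp
    rw [hy4]
    exact div_nonneg (by nlinarith [mul_nonpos_of_nonpos_of_nonneg ht h5']) (hdiag 4).le
  have hpair : ∀ i j, i ≠ j → pairI code i j = true → 0 ≤ y i * y j := by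
    intro i j _ h
    simp only [pairI, Bool.and_eq_true, decide_eq_true_eq] at h
    obtain ⟨⟨hi, hj⟩, hb⟩ := h
    obtain ⟨p4, p5⟩ := hy45 hb
    have key : ∀ u : Fin 6, 4 ≤ u.val → 0 ≤ y u := fun u hu => by
      rcases (show u = 4 ∨ u = 5 by revert u; decide) with rfl | rfl <;> assumption
    exact mul_nonneg (key i hi) (key j hj)
  have hCy : 0 ≤ quadForm C' y := sum_nonneg fun i _ => sum_nonneg fun j _ => by
    simp only [hC']
    split
    · rename_i h
      rw [mul_assoc]
      exact mul_nonneg (le_max_right _ _) (hpair i j h.1 h.2)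
    · simp
  have hpc : ∀ i j, pairI code i j = pairI code j i := fun i j => by
    simp only [pairI, Bool.and_comm (decide (4 ≤ i.val))]
  have hCs : ∀ i j, C' i j = C' j i := fun i j => by
    simp only [hC', hBs i j, hpc i j, ne_comm]
  have hTy : (fun u => ∑ i, T u i * y i) = x := funext hy
  have := quadForm_nonneg_of_dominant (B := B) (C := C')
    (w := fun i => ((congOf code).w.get i : ℝ))
    (fun i => Nat.cast_pos.2 (shapeOk_spec hshape i).2.1)
    (fun i j => by rw [hBs i j, hCs i j]) (fun i => ?_) hCy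
  · rw [hBdef, quadForm_congrMat, hTy] at this
    exact this
  have hCii : C' i i = 0 := by simp [hC']
  rw [hCii, sub_zero]
  rcases Bool.eq_false_or_eq_true (live i) with hl | hl
  · have h0 : (0 : ℝ) ≤ (vR (congOf code) E (fun u v _ => g u v) i 0 : ℤ) := by
      exact_mod_cast hrows i hl
    set w : Fin 6 → ℝ := fun j => ((congOf code).w.get j : ℝ) with hw
    have hle : ∀ j ∈ univ.erase i, |B i j - C' i j| * w j ≤
        w j * (cost (pairI code i j) (vb i j) : ℤ) + w j * (E * a i * a j) := fun j hj => by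
      rw [← mul_add, mul_comm]
      refine mul_le_mul_of_nonneg_left ?_ (Nat.cast_nonneg _)
      have hb := abs_le.1 (hBclose i j)
      simp only [hC', cost]
      rcases Bool.eq_false_or_eq_true (pairI code i j) with hq | hq
      · rw [if_pos ⟨(ne_of_mem_erase hj).symm, hq⟩, hq, if_pos rfl, Int.cast_max, Int.cast_neg,
          Int.cast_zero, abs_le]
        rcases le_total (B i j) 0 with hle | hle
        · rw [max_eq_right hle]
          constructor <;> linarith [le_max_left (-(vb i j : ℝ)) 0, le_max_right (-(vb i j : ℝ)) 0]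
        · rw [max_eq_left hle]
          constructor <;> linarith [le_max_left (-(vb i j : ℝ)) 0, le_max_right (-(vb i j : ℝ)) 0]
      · simp only [hq, Bool.false_eq_true, and_false, if_false, sub_zero, Int.cast_abs, abs_le]
        constructor <;> linarith [le_abs_self (vb i j : ℝ), neg_abs_le (vb i j : ℝ)]
    refine (sum_le_sum hle).trans ?_
    rw [sum_add_distrib]
    have h2 : ∑ j, (if i = j then (0 : ℝ) else w j * (cost (pairI code i j) (vb i j) : ℤ)) =
        ∑ j ∈ univ.erase i, w j * (cost (pairI code i j) (vb i j) : ℤ) := by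
      rw [← Finset.add_sum_erase univ _ (mem_univ i), if_pos rfl, zero_add]
      exact sum_congr rfl fun j hj => if_neg (ne_of_mem_erase hj).symm
    have h3 : (E : ℝ) * a i * (wTotal (congOf code) : ℕ) = w i * (E * a i * a i) +
        ∑ j ∈ univ.erase i, w j * (E * a i * a j) := by
      rw [Finset.add_sum_erase univ (fun j => w j * ((E : ℝ) * a i * a j)) (mem_univ i), wTotal_eq,
        Nat.cast_sum, Finset.mul_sum]
      exact sum_congr rfl fun j _ => by simp only [ha, hw]; push_cast; ring
    simp only [vR, posRows_congOf, Int.cast_sub, Int.cast_add, Int.cast_mul, Int.cast_natCast,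
      Int.cast_sum, apply_ite (fun z : ℤ => (z : ℝ)), Int.cast_zero] at h0
    simp only [vb] at h2
    rw [h2, h3] at h0
    have h7 := mul_le_mul_of_nonneg_left (abs_le.1 (hBclose i i)).1
      (Nat.cast_nonneg (α := ℝ) ((congOf code).w.get i))
    simp only [vb, hw] at h0 h7 ⊢
    linarith
  · have hz : ∀ j, B i j = 0 := fun j => by
      simp only [hBdef, congrMat]
      refine sum_eq_zero fun u _ => sum_eq_zero fun v _ => ?_
      rcases le_or_gt u i with hu | hu
      · rw [hdead i hl u hu v]; ring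
      · rw [hlow u i hu]; ring
    have hC0 : ∀ j, C' i j = 0 := fun j => by simp [hC', hz]
    simp [hz, hC0]

/-- The pivots as rows of the original order. -/
def piv : Fin 6 → Fin 6 := Equiv.swap 0 2

lemma ofList_get {Ys : List ℕ} (h : Ys.length = 21) (p q : Fin 6) :
    ((ofList Ys).mat.get p).get q = Ys.getD (tri (piv p) (piv q)) 0 := by
  rcases Ys with _ | ⟨x00, _ | ⟨x01, _ | ⟨x02, _ | ⟨x03, _ | ⟨x04, _ | ⟨x05, _ | ⟨x11, _ |
    ⟨x12, _ | ⟨x13, _ | ⟨x14, _ | ⟨x15, _ | ⟨x22, _ | ⟨x23, _ | ⟨x24, _ | ⟨x25, _ |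
    ⟨x33, _ | ⟨x34, _ | ⟨x35, _ | ⟨x44, _ | ⟨x45, _ | ⟨x55, _ | ⟨y, ys⟩⟩⟩⟩⟩⟩⟩⟩⟩⟩⟩⟩⟩⟩⟩⟩⟩⟩⟩⟩⟩⟩ <;>
    simp at h
  fin_cases p <;> fin_cases q <;> rfl

lemma pk_head (k : ℕ) {m s : ℕ} {f : ℕ → ℕ} (hs : s ≤ m) (hf : ∀ o < m, f o < 2 ^ k) :
    Nat.land (pk k m f) (Nat.sub (Nat.pow 2 (Nat.mul k s)) 1) = pk k s f ∧
      Nat.shiftRight (pk k m f) (Nat.mul k s) = pk k (m - s) fun o => f (s + o) := by
  obtain ⟨r, rfl⟩ := Nat.exists_eq_add_of_le hs
  have h1 := pk_lt k (n := s) (f := f) fun o ho => hf o (by omega)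
  simp only [Nat.add_sub_cancel_left, Nat.mul_eq, Nat.sub_eq, Nat.pow_eq]
  constructor
  · change pk k (s + r) f &&& (2 ^ (k * s) - 1) = _
    rw [Nat.and_two_pow_sub_one_eq_mod, pk_append, Nat.add_mul_mod_self_left, Nat.mod_eq_of_lt h1]
  · change pk k (s + r) f >>> (k * s) = _
    rw [Nat.shiftRight_eq_div_pow, pk_append, Nat.add_mul_div_left _ _ (Nat.two_pow_pos _),
      Nat.div_eq_of_lt h1, zero_add]

/-- Each lane of passed intervals has a code whose rows hold there. -/
lemma ivsOk_spec {k C E : ℕ} (hk : 0 < k) : ∀ (codes : List ℕ) {n : ℕ} {R : U21} {S : V6 ℕ}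
    {f : Fin 6 → Fin 6 → ℕ → ℕ} {live : Fin 6 → ℕ → Bool}, ivsOk k C E codes n R S = true →
    (∀ u v o, f u v o = f v u o) → (∀ u v o, o < n → f u v o ≤ 2 * C) →
    (∀ u v, (R.mat.get u).get v = pk k n (f u v)) →
    (∀ i, S.get i = pk k n fun o => if live i o then 2 ^ (k - 1) else 0) →
    ∀ o < n, ∃ code, shapeOk k C E code = true ∧ ∀ i, live i o = true →
      0 ≤ vR (congOf code) E (fun u v _ => (f u v o : ℤ) - C) i 0
  | [], n, R, S, f, live, h, _, _, _, _, o, ho => by
    simp only [ivsOk, Nat.beq_eq] at h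
    omega
  | code :: cs, n, R, S, f, live, h, hfs, hfC, hR, hS, o, ho => by
    simp only [ivsOk, Bool.and_eq_true, Nat.ble_eq] at h
    obtain ⟨⟨⟨hlen, hshape⟩, hrows⟩, hrest⟩ := h
    set len := fld code 0 with hlen'
    have hCH : C < 2 ^ (k - 1) := by
      obtain ⟨h1, h2, h3⟩ := shapeOk_spec hshape 0
      have ha : 0 < (colAbs (congOf code)).get 0 := by
        rw [colAbs_get]
        exact lt_of_lt_of_le (Int.natAbs_pos.2 h1.ne') (single_le_sum
          (f := fun u => ((congOf code).t u 0).natAbs) (fun _ _ => Nat.zero_le _) (mem_univ 0))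
      have hW : 0 < wTotal (congOf code) := by
        rw [wTotal_eq]
        exact lt_of_lt_of_le (Nat.mul_pos ha h2) (single_le_sum
          (f := fun j => (colAbs (congOf code)).get j * (congOf code).w.get j)
          (fun _ _ => Nat.zero_le _) (mem_univ 0))
      refine lt_of_le_of_lt ?_ h3
      rw [mul_assoc]
      exact (Nat.le_add_right C E).trans (Nat.le_mul_of_pos_right _ (Nat.mul_pos ha hW))
    have e2 : 2 ^ k = 2 ^ (k - 1) * 2 := by rw [← pow_succ]; congr 1; omega
    have hfk : ∀ u v o, o < n → f u v o < 2 ^ k := fun u v o ho => by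
      have := hfC u v o ho; omega
    have hSk : ∀ i o, (if live i o then 2 ^ (k - 1) else 0) < 2 ^ k := fun i o => by
      have := Nat.two_pow_pos (k - 1)
      split <;> omega
    by_cases hol : o < len
    · refine ⟨code, hshape, fun i hl => ?_⟩
      have hones : Nat.div (Nat.sub (Nat.pow 2 (Nat.mul k len)) 1) (Nat.sub (Nat.pow 2 k) 1) =
          pk k len fun _ => 1 := by
        have h := pk_const k len 1 hk
        rw [one_mul, rep, mul_one] at h
        exact h
      exact rowsI_spec (g := fun u v o => (f u v o : ℤ) - C) (live := live) hk hones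
        (fun u v o => by simp only [hfs u v o])
        (fun u v => by
          rw [U21.mat_map, hR, (pk_head k hlen (fun o ho => hfk u v o ho)).1]
          refine ⟨fun o ho => ?_, by rw [cast_pk]; exact pkZ_congr fun o _ => by ring⟩
          have := hfC u v o (by omega)
          change |(f u v o : ℤ) - C| ≤ (C : ℤ)
          rw [abs_le]; omega)
        (fun i => by rw [map6_get, hS, (pk_head k hlen fun o _ => hSk i o).1])
        hshape hrows i hol hl
    · have h' := ivsOk_spec hk cs (f := fun u v o => f u v (len + o))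
        (live := fun i o => live i (len + o)) hrest (fun u v o => hfs u v _)
        (fun u v o ho => hfC u v _ (by simp only [Nat.sub_eq] at ho; omega))
        (fun u v => by rw [U21.mat_map, hR, (pk_head k hlen (fun o ho => hfk u v o ho)).2]; rfl)
        (fun i => by rw [map6_get, hS, (pk_head k hlen fun o _ => hSk i o).2]; rfl)
        (o - len) (by simp only [Nat.sub_eq]; omega)
      rw [show len + (o - len) = o by omega] at h'
      exact h'

lemma pfx_one : ∀ u i : Fin 6, u ≤ i → ((pfx.get i).get (piv u)) ≠ 0 := by decide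

/-- A passed interval leaf. -/
theorem leaf_sound {cf : Cfg} {s : St} {codes : List ℕ} (h : leafOkI cf s codes = true) :
    Good cf s := by
  simp only [leafOkI, Bool.and_eq_true, Nat.blt_eq, Nat.beq_eq] at h
  obtain ⟨⟨hk, hlen⟩, hivs⟩ := h
  intro b hb xs _ hxs x h4 h5
  choose f0 hf0 hfC0 hfE0 using hb.rep
  set f : Fin 6 → Fin 6 → ℕ → ℕ := fun u v =>
    f0 (min (piv u) (piv v)) (max (piv u) (piv v)) with hf
  set lv : Fin 6 → ℕ → Bool := fun i o => live cf (pfx.get i) s.faces o with hlv
  have hbm : ∀ u v r, b (min u v) (max u v) r = b u v r := fun u v r => by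
    rcases le_total u v with hle | hle
    · rw [min_eq_left hle, max_eq_right hle]
    · rw [min_eq_right hle, max_eq_left hle, hb.symm]
  have hlanes := ivsOk_spec hk codes (f := f) (live := lv) hivs
    (fun u v o => by simp [f, min_comm, max_comm])
    (fun u v o ho => hfC0 _ _ o ho)
    (fun u v => by rw [ofList_get hlen, ← tri_min_max, hf0])
    (fun i => by
      rw [hlv, ← selP_spec hk (pfx.get i) s.faces]
      fin_cases i <;> rfl)
  have key : ∀ r, InRange cf.ds r → 0 ≤ quadForm (fun i j => b i j r) x := by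
    intro r hr
    obtain ⟨code, hshape, hrows⟩ := hlanes _ (flat_lt hr)
    have h := lane_sound hshape (g := fun u v => (f u v (flat cf.ds r) : ℤ) - cf.C)
      (M := fun u v => b (piv u) (piv v) r) (fun u v => hb.symm _ _ _)
      (fun u v => by
        have := hfE0 (min (piv u) (piv v)) (max (piv u) (piv v)) r hr
        rw [hbm] at this
        push_cast
        exact this)
      (live := fun i => lv i (flat cf.ds r))
      (fun i hl u hu v => by
        obtain ⟨F, hF, hdead, hon⟩ := of_live_false hr hl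
        simp only [deadFor, Bool.and_eq_true] at hdead
        have hu' := V6.of_all hdead.2 (piv u)
        have hrow : F.rows.get (piv u) = true := by
          have hne := pfx_one u i hu
          generalize piv u = p at hu' hne ⊢
          fin_cases p <;>
            exact ((Bool.or_eq_true _ _ ▸ hu').resolve_right fun hz => hne ((isZ_iff _).1 hz))
        exact hb.face F hF _ hrow _ r hr hon)
      hrows (fun u => x (piv u)) (by rw [show piv 4 = 4 by decide]; exact h4)
      (by rw [show piv 5 = 5 by decide]; exact h5)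
    refine le_of_le_of_eq h ?_
    simp only [quadForm, piv]
    rw [Equiv.sum_comp (Equiv.swap (0 : Fin 6) 2)
      (fun i => ∑ v, b i (Equiv.swap (0 : Fin 6) 2 v) r * x i * x (Equiv.swap (0 : Fin 6) 2 v))]
    exact sum_congr rfl fun i _ =>
      Equiv.sum_comp (Equiv.swap (0 : Fin 6) 2) (fun j => b i j r * x i * x j)
  have e : quadForm (fun i j => evalB cf.ds xs (b i j)) x =
      evalB cf.ds xs fun r => quadForm (fun i j => b i j r) x := by
    simp only [quadForm, evalB_sum]
    refine sum_congr rfl fun i _ => sum_congr rfl fun j _ => ?_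
    rw [mul_assoc, mul_comm, ← evalB_smul]
    exact evalB_congr _ _ fun r _ => by ring
  rw [e]
  exact evalB_nonneg _ hxs key

/-- A passed tree with interval leaves. -/
theorem check_sound {cf : Cfg} : ∀ (t : Tree) {s : St}, check cf t s = true → Good cf s
  | .leaf _, _, h => leaf_sound h
  | .node a l r, _, h => by
    simp only [check, Bool.and_eq_true] at h
    exact good_node h.1.1 (check_sound l h.1.2) (check_sound r h.2)

end

end Vale.Agent.P098.Check6.Interval
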