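import Vale.Agent.P098.Check6.Tree

/-!
P098, checker for `d = 6`: packed root tensors as literals in chunks.  A checked tree starts from
its root, so the root should not be evaluated again from the polynomials in every proof.
-/

namespace Vale.Agent.P098.Check6

/-- The number with the given chunks of `w` bits, least significant first. -/
noncomputable def ofChunks (w : ℕ) : List ℕ → ℕ :=
  List.rec 0 (fun a _ r => Nat.add a (Nat.shiftLeft r w))

/-- Equality of two lists of numbers, tested with primitive operations. -/
def eqList : List ℕ → List ℕ → Bool
  | [], [] => true
  | a :: l, b :: m => Nat.beq a b && eqList l m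
  | [], _ :: _ => false
  | _ :: _, [] => false

lemma eq_of_eqList : ∀ {l m : List ℕ}, eqList l m = true → l = m
  | [], [], _ => rfl
  | a :: l, b :: m, h => by
    simp only [eqList, Bool.and_eq_true, Nat.beq_eq] at h
    rw [h.1, eq_of_eqList h.2]
  | [], _ :: _, h => by simp [eqList] at h
  | _ :: _, [], h => by simp [eqList] at h

/-- A state given by literals is good exactly when the state it equals is. -/
theorem good_of_literal {cf : Cfg} {s : St} {lit : List ℕ} (h : eqList s.Ys lit = true)
    (hg : Good cf ⟨lit, s.E, s.faces⟩) : Good cf s := by
  rw [← eq_of_eqList h] at hg
  exact hg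

end Vale.Agent.P098.Check6
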