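import Mathlib

/-!
P098, checker for `d = 6`: tensor Bernstein forms over the reals by de Casteljau, their linearity,
positivity, and bisection along one axis.  A tensor is a function of the list of its indices.
-/

namespace Vale.Agent.P098.Check6

noncomputable section

/-- De Casteljau: `n` steps with the weights `(u, t)`. -/
def dc (u t : ℝ) : ℕ → (ℕ → ℝ) → ℕ → ℝ
  | 0, b, i => b i
  | n + 1, b, i => u * dc u t n b i + t * dc u t n b (i + 1)

lemma dc_congr (u t : ℝ) : ∀ (n : ℕ) {b c : ℕ → ℝ} (i : ℕ),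
    (∀ j, i ≤ j → j ≤ i + n → b j = c j) → dc u t n b i = dc u t n c i
  | 0, _, _, i, h => h i le_rfl le_rfl
  | n + 1, _, _, i, h => by
    rw [dc, dc, dc_congr u t n i fun j h1 h2 => h j h1 (by omega),
      dc_congr u t n (i + 1) fun j h1 h2 => h j (by omega) (by omega)]

lemma dc_add (u t : ℝ) : ∀ (n : ℕ) (b c : ℕ → ℝ) (i : ℕ),
    dc u t n (fun j => b j + c j) i = dc u t n b i + dc u t n c i
  | 0, _, _, _ => rfl
  | n + 1, b, c, i => by rw [dc, dc, dc, dc_add u t n b c i, dc_add u t n b c (i + 1)]; ring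

lemma dc_smul (u t r : ℝ) : ∀ (n : ℕ) (b : ℕ → ℝ) (i : ℕ),
    dc u t n (fun j => r * b j) i = r * dc u t n b i
  | 0, _, _ => rfl
  | n + 1, b, i => by rw [dc, dc, dc_smul u t r n b i, dc_smul u t r n b (i + 1)]; ring

lemma dc_zero (u t : ℝ) : ∀ (n i : ℕ), dc u t n (fun _ => 0) i = 0
  | 0, _ => rfl
  | n + 1, i => by rw [dc, dc_zero u t n i, dc_zero u t n (i + 1)]; ring

lemma dc_nonneg {u t : ℝ} (hu : 0 ≤ u) (ht : 0 ≤ t) : ∀ (n : ℕ) {b : ℕ → ℝ} (i : ℕ),
    (∀ j, i ≤ j → j ≤ i + n → 0 ≤ b j) → 0 ≤ dc u t n b i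
  | 0, _, i, h => h i le_rfl le_rfl
  | n + 1, _, i, h => add_nonneg
    (mul_nonneg hu (dc_nonneg hu ht n i fun j h1 h2 => h j h1 (by omega)))
    (mul_nonneg ht (dc_nonneg hu ht n (i + 1) fun j h1 h2 => h j (by omega) (by omega)))

/-- The coefficients of the lower half, times `2 ^ i`: sums along the de Casteljau scheme. -/
def lowerHalf (b : ℕ → ℝ) (i : ℕ) : ℝ := dc (1 / 2) (1 / 2) i b 0

/-- The coefficients of the upper half in degree `d`. -/
def upperHalf (d : ℕ) (b : ℕ → ℝ) (i : ℕ) : ℝ := dc (1 / 2) (1 / 2) (d - i) b i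

lemma dc_lower_aux (u t : ℝ) (b : ℕ → ℝ) : ∀ (n k j : ℕ),
    dc u t n (fun i => dc (1 / 2) (1 / 2) i b j) k =
      dc (1 / 2) (1 / 2) k (dc (u + t / 2) (t / 2) n b) j
  | 0, k, j => rfl
  | n + 1, k, j => by
    rw [dc, dc_lower_aux u t b n k j, dc_lower_aux u t b n (k + 1) j, dc,
      show dc (u + t / 2) (t / 2) (n + 1) b = fun i => (u + t / 2) * dc (u + t / 2) (t / 2) n b i +
        t / 2 * dc (u + t / 2) (t / 2) n b (i + 1) from funext fun i => rfl,
      dc_add, dc_smul, dc_smul, dc_shift]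
    ring
where
  dc_shift {u t : ℝ} : ∀ (n : ℕ) {b : ℕ → ℝ} (i : ℕ),
      dc u t n (fun j => b (j + 1)) i = dc u t n b (i + 1)
    | 0, _, _ => rfl
    | n + 1, _, i => by rw [dc, dc, dc_shift n i, dc_shift n (i + 1)]

/-- Bisection, lower half. -/
lemma dc_lowerHalf (n : ℕ) (b : ℕ → ℝ) (y : ℝ) :
    dc (1 - y) y n (lowerHalf b) 0 = dc (1 - y / 2) (y / 2) n b 0 := by
  rw [show lowerHalf b = fun i => dc (1 / 2) (1 / 2) i b 0 from rfl, dc_lower_aux, dc]
  congr 1
  ring

lemma dc_upper_aux (u t : ℝ) (b : ℕ → ℝ) (d : ℕ) : ∀ (n k : ℕ), n + k ≤ d →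
    dc u t n (upperHalf d b) k =
      dc (1 / 2) (1 / 2) (d - n - k) (dc (u / 2) (u / 2 + t) n b) k
  | 0, k, _ => rfl
  | n + 1, k, h => by
    obtain ⟨m, hm⟩ := Nat.exists_eq_add_of_le h
    rw [dc, dc_upper_aux u t b d n k (by omega), dc_upper_aux u t b d n (k + 1) (by omega),
      show d - n - k = m + 1 by omega, show d - n - (k + 1) = m by omega,
      show d - (n + 1) - k = m by omega, dc,
      show dc (u / 2) (u / 2 + t) (n + 1) b = fun i => u / 2 * dc (u / 2) (u / 2 + t) n b i +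
        (u / 2 + t) * dc (u / 2) (u / 2 + t) n b (i + 1) from funext fun i => rfl,
      dc_add, dc_smul, dc_smul, dc_lower_aux.dc_shift]
    ring

/-- Bisection, upper half. -/
lemma dc_upperHalf (d : ℕ) (b : ℕ → ℝ) (y : ℝ) :
    dc (1 - y) y d (upperHalf d b) 0 = dc ((1 - y) / 2) ((1 + y) / 2) d b 0 := by
  rw [dc_upper_aux _ _ _ _ d 0 (by omega), show d - d - 0 = 0 by omega, dc]
  congr 1
  ring

/-- The tensor Bernstein form on the unit box. -/
def evalB : List ℕ → List ℝ → (List ℕ → ℝ) → ℝ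
  | [], _, b => b []
  | d :: ds, xs, b =>
    dc (1 - xs.headD 0) (xs.headD 0) d (fun i => evalB ds xs.tail fun r => b (i :: r)) 0

/-- The indices of a tensor. -/
def InRange : List ℕ → List ℕ → Prop
  | [], r => r = []
  | d :: ds, r => ∃ i r', r = i :: r' ∧ i ≤ d ∧ InRange ds r'

/-- The unit box. -/
def InUnit (xs : List ℝ) : Prop := ∀ x ∈ xs, x ∈ Set.Icc (0 : ℝ) 1

lemma evalB_congr : ∀ (ds : List ℕ) (xs : List ℝ) {b c : List ℕ → ℝ},
    (∀ r, InRange ds r → b r = c r) → evalB ds xs b = evalB ds xs c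
  | [], _, _, _, h => h [] rfl
  | d :: ds, xs, _, _, h => dc_congr _ _ d 0 fun j _ h2 =>
    evalB_congr ds xs.tail fun r hr => h _ ⟨j, r, rfl, by omega, hr⟩

lemma evalB_add : ∀ (ds : List ℕ) (xs : List ℝ) (b c : List ℕ → ℝ),
    evalB ds xs (fun r => b r + c r) = evalB ds xs b + evalB ds xs c
  | [], _, _, _ => rfl
  | d :: ds, xs, b, c => by
    simp only [evalB, ← dc_add]
    exact dc_congr _ _ d 0 fun j _ _ => evalB_add ds _ _ _

lemma evalB_smul : ∀ (ds : List ℕ) (xs : List ℝ) (k : ℝ) (b : List ℕ → ℝ),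
    evalB ds xs (fun r => k * b r) = k * evalB ds xs b
  | [], _, _, _ => rfl
  | d :: ds, xs, k, b => by
    simp only [evalB, ← dc_smul]
    exact dc_congr _ _ d 0 fun j _ _ => evalB_smul ds _ _ _

lemma evalB_zero : ∀ (ds : List ℕ) (xs : List ℝ), evalB ds xs (fun _ => 0) = 0
  | [], _ => rfl
  | d :: ds, xs => by simp only [evalB, evalB_zero ds]; exact dc_zero _ _ d 0

lemma evalB_sum {ι : Type} (ds : List ℕ) (xs : List ℝ) (s : Finset ι)
    (f : ι → List ℕ → ℝ) :
    evalB ds xs (fun r => ∑ i ∈ s, f i r) = ∑ i ∈ s, evalB ds xs (f i) := by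
  classical
  induction s using Finset.induction_on with
  | empty => simp [evalB_zero]
  | insert a s ha ih => simp only [Finset.sum_insert ha, evalB_add, ih]

/-- Nonnegative coefficients give a nonnegative value on the unit box. -/
lemma evalB_nonneg : ∀ (ds : List ℕ) {xs : List ℝ}, InUnit xs → ∀ {b : List ℕ → ℝ},
    (∀ r, InRange ds r → 0 ≤ b r) → 0 ≤ evalB ds xs b
  | [], _, _, _, h => h [] rfl
  | d :: ds, [], _, _, h => dc_nonneg (by simp) (by simp) d 0 fun j _ h2 =>
    evalB_nonneg ds (fun x hx => by simp at hx) fun r hr => h _ ⟨j, r, rfl, by omega, hr⟩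
  | d :: ds, x :: xs, hx, _, h => by
    obtain ⟨h0, h1⟩ := hx x List.mem_cons_self
    exact dc_nonneg (by simpa using h1) (by simpa using h0) d 0 fun j _ h2 =>
      evalB_nonneg ds (fun y hy => hx y (List.mem_cons_of_mem x hy))
        fun r hr => h _ ⟨j, r, rfl, by omega, hr⟩

/-- Bisection of a tensor along axis `k`, lower (`false`) or upper (`true`) half. -/
def halfB : List ℕ → ℕ → Bool → (List ℕ → ℝ) → List ℕ → ℝ
  | d :: _, 0, side, b, i :: r =>
    (if side then upperHalf d else lowerHalf) (fun j => b (j :: r)) i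
  | _ :: ds, k + 1, side, b, i :: r => halfB ds k side (fun r' => b (i :: r')) r
  | _, _, _, b, r => b r

/-- The point of the parent box. -/
def halfPt : ℕ → Bool → List ℝ → List ℝ
  | 0, side, x :: xs => (if side then (1 + x) / 2 else x / 2) :: xs
  | k + 1, side, x :: xs => x :: halfPt k side xs
  | _, _, [] => []

lemma evalB_swap (u t : ℝ) (ds : List ℕ) (xs : List ℝ) : ∀ (n : ℕ) (b : ℕ → List ℕ → ℝ) (i : ℕ),
    evalB ds xs (fun r => dc u t n (fun j => b j r) i) = dc u t n (fun j => evalB ds xs (b j)) i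
  | 0, _, _ => rfl
  | n + 1, b, i => by
    simp only [dc, evalB_add, evalB_smul, evalB_swap u t ds xs n b]

/-- A child's form at `xs` is the parent's form at the corresponding point. -/
theorem evalB_halfB : ∀ (ds : List ℕ) (k : ℕ) (side : Bool) (xs : List ℝ) (b : List ℕ → ℝ),
    k < ds.length → xs.length = ds.length →
    evalB ds xs (halfB ds k side b) = evalB ds (halfPt k side xs) b
  | [], _, _, _, _, hk, _ => by simp at hk
  | _ :: _, _, _, [], _, _, hx => by simp at hx
  | d :: ds, 0, side, x :: xs, b, _, _ => by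
    cases side
    · simp only [evalB, halfB, halfPt, List.headD_cons, List.tail_cons, Bool.false_eq_true,
        if_false]
      rw [← dc_lowerHalf d _ x]
      refine dc_congr _ _ d 0 fun i _ _ => ?_
      exact evalB_swap _ _ ds xs _ _ _
    · simp only [evalB, halfB, halfPt, List.headD_cons, List.tail_cons, if_true]
      rw [show (1 - (1 + x) / 2) = (1 - x) / 2 by ring, ← dc_upperHalf d _ x]
      refine dc_congr _ _ d 0 fun i _ _ => ?_
      exact evalB_swap _ _ ds xs _ _ _
  | d :: ds, k + 1, side, x :: xs, b, hk, hx => by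
    simp only [evalB, halfB, halfPt, List.headD_cons, List.tail_cons]
    refine dc_congr _ _ d 0 fun i _ _ => ?_
    exact evalB_halfB ds k side xs _ (by simpa using hk) (by simpa using hx)

/-- A property of all points of the unit box follows from the two halves. -/
theorem forall_halves {n : ℕ} {p : List ℝ → Prop} (k : ℕ)
    (h : ∀ side xs, xs.length = n → InUnit xs → p (halfPt k side xs))
    (xs : List ℝ) (hn : xs.length = n) (hx : InUnit xs) : p xs := by
  suffices H : ∀ (k : ℕ) (xs : List ℝ), InUnit xs →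
      ∃ side ys, ys.length = xs.length ∧ InUnit ys ∧ halfPt k side ys = xs by
    obtain ⟨side, ys, hl, hy, rfl⟩ := H k xs hx
    exact h side ys (hl.trans hn) hy
  intro k
  induction k with
  | zero =>
    intro xs hx
    cases xs with
    | nil => exact ⟨false, [], rfl, hx, rfl⟩
    | cons x xs =>
      obtain ⟨h0, h1⟩ := hx x List.mem_cons_self
      have hr : ∀ y ∈ xs, y ∈ Set.Icc (0 : ℝ) 1 := fun y hy => hx y (List.mem_cons_of_mem x hy)
      rcases le_total x (1 / 2) with hc | hc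
      · refine ⟨false, 2 * x :: xs, rfl, List.forall_mem_cons.2 ⟨⟨by linarith, by linarith⟩, hr⟩, ?_⟩
        simp [halfPt]
      · refine ⟨true, (2 * x - 1) :: xs, rfl,
          List.forall_mem_cons.2 ⟨⟨by linarith, by linarith⟩, hr⟩, ?_⟩
        simp [halfPt]
  | succ k ih =>
    intro xs hx
    cases xs with
    | nil => exact ⟨false, [], rfl, hx, rfl⟩
    | cons x xs =>
      obtain ⟨side, ys, hl, hy, he⟩ := ih xs fun y hy => hx y (List.mem_cons_of_mem x hy)
      exact ⟨side, x :: ys, by simp [hl],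
        List.forall_mem_cons.2 ⟨hx x List.mem_cons_self, hy⟩, by simp [halfPt, he]⟩

end

end Vale.Agent.P098.Check6
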