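import Vale.Agent.P098.Check6.Tensor

/-!
P098, checker for `d = 6`: the kernel-evaluated tree test.  A state is the upper triangle of a
symmetric matrix of packed coefficient tensors, the error count and the faces on which rows vanish.
A leaf is a congruence followed by weighted diagonal dominance, tested on all lanes at once.
-/

namespace Vale.Agent.P098.Check6

/-- Six values, kept apart so that the kernel reads them by projection. -/
structure V6 (α : Type) where
  a0 : α
  a1 : α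
  a2 : α
  a3 : α
  a4 : α
  a5 : α

namespace V6

variable {α β : Type}

/-- The value of an index. -/
def get (v : V6 α) : Fin 6 → α
  | 0 => v.a0
  | 1 => v.a1
  | 2 => v.a2
  | 3 => v.a3
  | 4 => v.a4
  | 5 => v.a5

/-- Six values of a map. -/
def map (f : α → β) (v : V6 α) : V6 β := ⟨f v.a0, f v.a1, f v.a2, f v.a3, f v.a4, f v.a5⟩

/-- All of six tests. -/
def all (v : V6 Bool) : Bool := v.a0 && v.a1 && v.a2 && v.a3 && v.a4 && v.a5

/-- Columns as rows. -/
def cols (m : V6 (V6 α)) : V6 (V6 α) :=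
  ⟨m.map a0, m.map a1, m.map a2, m.map a3, m.map a4, m.map a5⟩

/-- The sum. -/
def total (v : V6 ℕ) : ℕ :=
  Nat.add (Nat.add (Nat.add (Nat.add (Nat.add v.a0 v.a1) v.a2) v.a3) v.a4) v.a5

end V6

/-- The place of an entry in the upper triangle, row by row. -/
def tri (i j : Fin 6) : ℕ :=
  min i.val j.val * (11 - min i.val j.val) / 2 + max i.val j.val

/-- Lane width, offset and degrees. -/
structure Cfg where
  k : ℕ
  C : ℕ
  ds : List ℕ

/-- A face with the rows which vanish on it. -/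
structure Face where
  axis : ℕ
  top : Bool
  rows : V6 Bool

/-- A box: the packed entries of the upper triangle row by row, the error, and the faces of the
root which it touches. -/
structure St where
  Ys : List ℕ
  E : ℕ
  faces : List Face

/-- The data of a leaf, by rows: the congruence, its inverse times `c`, and the weights. -/
structure Cong where
  T : V6 (V6 ℤ)
  Tinv : V6 (V6 ℤ)
  c : ℕ
  w : V6 ℕ

/-- A bisection tree. -/
inductive Tree : Type
  | leaf (d : Cong)
  | node (axis : ℕ) (l r : Tree)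

/-- A one in every lane. -/
def onesP (cf : Cfg) : ℕ := rep cf.k 1 (size cf.ds)

/-- The top bit of every lane. -/
def topP (cf : Cfg) : ℕ := Nat.mul (2 ^ (cf.k - 1)) (onesP cf)

/-- A difference of two packed numbers: the plus part and the minus part. -/
abbrev Pr : Type := ℕ × ℕ

/-- Add `t` times a difference. -/
noncomputable def acc (t : ℤ) (x r : Pr) : Pr :=
  Int.rec (motive := fun _ => Pr)
    (fun n => bif Nat.beq n 0 then r else bif Nat.beq n 1 then (Nat.add r.1 x.1, Nat.add r.2 x.2)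
      else (Nat.add r.1 (Nat.mul n x.1), Nat.add r.2 (Nat.mul n x.2)))
    (fun n => (Nat.add r.1 (Nat.mul (Nat.add n 1) x.2), Nat.add r.2 (Nat.mul (Nat.add n 1) x.1))) t

/-- An integer as a difference. -/
noncomputable def signP (t : ℤ) : Pr :=
  Int.rec (motive := fun _ => Pr) (fun n => (n, 0)) (fun n => (0, Nat.add n 1)) t

/-- An integer combination of six differences. -/
noncomputable def dotP (t : V6 ℤ) (x : V6 Pr) : Pr :=
  acc t.a5 x.a5 (acc t.a4 x.a4 (acc t.a3 x.a3 (acc t.a2 x.a2 (acc t.a1 x.a1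
    (acc t.a0 x.a0 (0, 0))))))

/-- Whether an integer is zero. -/
def isZ : ℤ → Bool
  | .ofNat 0 => true
  | .ofNat (_ + 1) => false
  | .negSucc _ => false

/-- Whether an integer is nonnegative. -/
def nonnegZ : ℤ → Bool
  | .ofNat _ => true
  | .negSucc _ => false

/-- The full matrix of the packed entries. -/
def matP : List ℕ → V6 (V6 Pr)
  | [x00, x01, x02, x03, x04, x05, x11, x12, x13, x14, x15, x22, x23, x24, x25, x33, x34, x35,
      x44, x45, x55] =>
    ⟨⟨(x00, 0), (x01, 0), (x02, 0), (x03, 0), (x04, 0), (x05, 0)⟩,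
      ⟨(x01, 0), (x11, 0), (x12, 0), (x13, 0), (x14, 0), (x15, 0)⟩,
      ⟨(x02, 0), (x12, 0), (x22, 0), (x23, 0), (x24, 0), (x25, 0)⟩,
      ⟨(x03, 0), (x13, 0), (x23, 0), (x33, 0), (x34, 0), (x35, 0)⟩,
      ⟨(x04, 0), (x14, 0), (x24, 0), (x34, 0), (x44, 0), (x45, 0)⟩,
      ⟨(x05, 0), (x15, 0), (x25, 0), (x35, 0), (x45, 0), (x55, 0)⟩⟩
  | _ =>
    let z : V6 Pr := ⟨(0, 0), (0, 0), (0, 0), (0, 0), (0, 0), (0, 0)⟩
    ⟨z, z, z, z, z, z⟩

/-- The sum of six differences. -/
def sumP (v : V6 Pr) : Pr :=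
  (V6.total (v.map Prod.fst), V6.total (v.map Prod.snd))

/-- The sums of the columns of the congruence, which carry the offset. -/
noncomputable def colP (d : Cong) : V6 Pr := d.T.cols.map fun c => sumP (c.map signP)

/-- One congruent entry, biased by the top bit: `t`, `x` are a column of the congruence and of the
entries times the congruence, `p`, `q` the two column sums. -/
noncomputable def biasP (cf : Cfg) (t : V6 ℤ) (x : V6 Pr) (p q : Pr) : ℕ :=
  let b := dotP t x
  Nat.sub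
    (Nat.add b.1 (Nat.mul (Nat.add (2 ^ (cf.k - 1))
      (Nat.mul cf.C (Nat.add (Nat.mul p.1 q.2) (Nat.mul p.2 q.1)))) (onesP cf)))
    (Nat.add b.2 (Nat.mul (Nat.mul cf.C (Nat.add (Nat.mul p.1 q.1) (Nat.mul p.2 q.2))) (onesP cf)))

/-- The congruent matrix, biased, computed above the diagonal. -/
noncomputable def congP (cf : Cfg) (s : St) (d : Cong) : V6 (V6 ℕ) :=
  let c := d.T.cols
  let m := matP s.Ys
  let u := c.map fun t => m.map (dotP t)
  let σ := colP d
  let b := biasP cf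
  let b00 := b c.a0 u.a0 σ.a0 σ.a0
  let b01 := b c.a0 u.a1 σ.a0 σ.a1
  let b02 := b c.a0 u.a2 σ.a0 σ.a2
  let b03 := b c.a0 u.a3 σ.a0 σ.a3
  let b04 := b c.a0 u.a4 σ.a0 σ.a4
  let b05 := b c.a0 u.a5 σ.a0 σ.a5
  let b11 := b c.a1 u.a1 σ.a1 σ.a1
  let b12 := b c.a1 u.a2 σ.a1 σ.a2
  let b13 := b c.a1 u.a3 σ.a1 σ.a3
  let b14 := b c.a1 u.a4 σ.a1 σ.a4
  let b15 := b c.a1 u.a5 σ.a1 σ.a5
  let b22 := b c.a2 u.a2 σ.a2 σ.a2
  let b23 := b c.a2 u.a3 σ.a2 σ.a3
  let b24 := b c.a2 u.a4 σ.a2 σ.a4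
  let b25 := b c.a2 u.a5 σ.a2 σ.a5
  let b33 := b c.a3 u.a3 σ.a3 σ.a3
  let b34 := b c.a3 u.a4 σ.a3 σ.a4
  let b35 := b c.a3 u.a5 σ.a3 σ.a5
  let b44 := b c.a4 u.a4 σ.a4 σ.a4
  let b45 := b c.a4 u.a5 σ.a4 σ.a5
  let b55 := b c.a5 u.a5 σ.a5 σ.a5
  ⟨⟨b00, b01, b02, b03, b04, b05⟩, ⟨b01, b11, b12, b13, b14, b15⟩,
    ⟨b02, b12, b22, b23, b24, b25⟩, ⟨b03, b13, b23, b33, b34, b35⟩,
    ⟨b04, b14, b24, b34, b44, b45⟩, ⟨b05, b15, b25, b35, b45, b55⟩⟩

/-- The nonnegative lanes of a biased number, less the bias. -/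
def posP (cf : Cfg) (L : ℕ) : ℕ :=
  let S := Nat.land L (topP cf)
  Nat.sub (Nat.land L (Nat.mul (Nat.shiftRight S (cf.k - 1)) (2 ^ cf.k - 1))) S

/-- What an off-diagonal entry costs: its negative part on the cone, else its absolute value. -/
def costP (cf : Cfg) (both : Bool) (L : ℕ) : ℕ :=
  let p := posP cf L
  bif both then Nat.sub (Nat.add p (topP cf)) L
  else Nat.sub (Nat.add (Nat.add p p) (topP cf)) L

/-- The rows of the inverse which are nonnegative and see only the two last variables. -/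
def posRows (d : Cong) : V6 Bool :=
  d.Tinv.map fun r => isZ r.a0 && isZ r.a1 && isZ r.a2 &&
    isZ r.a3 && nonnegZ r.a4 && nonnegZ r.a5

/-- The absolute column sums of the congruence. -/
noncomputable def colAbs (d : Cong) : V6 ℕ := (colP d).map fun p => Nat.add p.1 p.2

/-- The weighted total of the column sums. -/
noncomputable def wTotal (d : Cong) : ℕ :=
  let a := colAbs d
  V6.total ⟨Nat.mul a.a0 d.w.a0, Nat.mul a.a1 d.w.a1, Nat.mul a.a2 d.w.a2, Nat.mul a.a3 d.w.a3,
    Nat.mul a.a4 d.w.a4, Nat.mul a.a5 d.w.a5⟩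

/-- One row of the test, biased: `B` is the row, `a` its column sum, `i` its index. -/
noncomputable def rowP (cf : Cfg) (s : St) (d : Cong) (B : V6 ℕ) (p : Bool) (a : ℕ) (i : ℕ) (diag w : ℕ) : ℕ :=
  let ps := posRows d
  let off := fun (j : ℕ) (q : Bool) (v L : ℕ) =>
    bif Nat.beq i j then 0 else Nat.mul v (costP cf (p && q) L)
  Nat.sub (Nat.add (Nat.mul w diag) (topP cf))
    (Nat.add (Nat.mul w (topP cf))
      (Nat.add (V6.total ⟨off 0 ps.a0 d.w.a0 B.a0, off 1 ps.a1 d.w.a1 B.a1,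
        off 2 ps.a2 d.w.a2 B.a2, off 3 ps.a3 d.w.a3 B.a3, off 4 ps.a4 d.w.a4 B.a4,
        off 5 ps.a5 d.w.a5 B.a5⟩) (Nat.mul (Nat.mul (Nat.mul s.E a) (wTotal d)) (onesP cf))))

/-- Whether a row of the congruent matrix, given by its column of `T`, vanishes on a face. -/
def deadFor (cf : Cfg) (t : V6 ℤ) (F : Face) : Bool :=
  Nat.blt F.axis cf.ds.length &&
    V6.all ⟨F.rows.a0 || isZ t.a0, F.rows.a1 || isZ t.a1,
      F.rows.a2 || isZ t.a2, F.rows.a3 || isZ t.a3,
      F.rows.a4 || isZ t.a4, F.rows.a5 || isZ t.a5⟩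

/-- The lanes off a face. -/
def offFace (cf : Cfg) (F : Face) : ℕ :=
  let d := cf.ds.getD F.axis 0
  let S := stride cf.ds F.axis
  if F.top then lowMask cf.k ((d + 1) * S) (periods cf.ds F.axis) (d * S)
  else highMask cf.k ((d + 1) * S) (periods cf.ds F.axis) (1 * S)

/-- The top bits of the lanes to be tested in a row. -/
def selP (cf : Cfg) (t : V6 ℤ) : List Face → ℕ
  | [] => topP cf
  | F :: Fs => bif deadFor cf t F then Nat.land (selP cf t Fs) (offFace cf F) else selP cf t Fs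

/-- The test of one row. -/
noncomputable def rowOk (cf : Cfg) (s : St) (d : Cong) (B : V6 ℕ) (p : Bool) (a i diag w : ℕ) (t : V6 ℤ) :
    Bool :=
  let sel := selP cf t s.faces
  Nat.beq (Nat.land (rowP cf s d B p a i diag w) sel) sel

/-- The test of all rows. -/
noncomputable def rowsOk (cf : Cfg) (s : St) (d : Cong) : Bool :=
  let B := congP cf s d
  let a := colAbs d
  let p := posRows d
  let c := d.T.cols
  rowOk cf s d B.a0 p.a0 a.a0 0 B.a0.a0 d.w.a0 c.a0 &&
    rowOk cf s d B.a1 p.a1 a.a1 1 B.a1.a1 d.w.a1 c.a1 &&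
    rowOk cf s d B.a2 p.a2 a.a2 2 B.a2.a2 d.w.a2 c.a2 &&
    rowOk cf s d B.a3 p.a3 a.a3 3 B.a3.a3 d.w.a3 c.a3 &&
    rowOk cf s d B.a4 p.a4 a.a4 4 B.a4.a4 d.w.a4 c.a4 &&
    rowOk cf s d B.a5 p.a5 a.a5 5 B.a5.a5 d.w.a5 c.a5

/-- The test that `T` times the alleged inverse is `c`. -/
noncomputable def invOk (d : Cong) : Bool :=
  let c := d.Tinv.cols.map fun v => v.map signP
  let eq := fun (x : Pr) (e : ℕ) => Nat.beq x.1 (Nat.add x.2 e)
  let ok := fun (r : V6 ℤ) (e : V6 ℕ) =>
    V6.all ⟨eq (dotP r c.a0) e.a0, eq (dotP r c.a1) e.a1, eq (dotP r c.a2) e.a2,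
      eq (dotP r c.a3) e.a3, eq (dotP r c.a4) e.a4, eq (dotP r c.a5) e.a5⟩
  V6.all ⟨ok d.T.a0 ⟨d.c, 0, 0, 0, 0, 0⟩, ok d.T.a1 ⟨0, d.c, 0, 0, 0, 0⟩,
    ok d.T.a2 ⟨0, 0, d.c, 0, 0, 0⟩, ok d.T.a3 ⟨0, 0, 0, d.c, 0, 0⟩,
    ok d.T.a4 ⟨0, 0, 0, 0, d.c, 0⟩, ok d.T.a5 ⟨0, 0, 0, 0, 0, d.c⟩⟩

/-- The bound which keeps all lanes apart. -/
noncomputable def boundOk (cf : Cfg) (s : St) (d : Cong) : Bool :=
  let W := wTotal d
  ((colAbs d).map fun a =>
    Nat.blt (Nat.mul (Nat.mul (Nat.add cf.C s.E) a) W) (2 ^ (cf.k - 1))).all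

/-- The test of a leaf. -/
noncomputable def leafOk (cf : Cfg) (s : St) (d : Cong) : Bool :=
  Nat.blt 0 cf.k && Nat.blt 0 d.c && (d.w.map fun w => Nat.blt 0 w).all &&
    Nat.beq s.Ys.length 21 && invOk d && boundOk cf s d && rowsOk cf s d

/-- The conditions of a bisection. -/
def stepOk (cf : Cfg) (a : ℕ) : Bool :=
  Nat.blt 0 cf.k && Nat.blt a cf.ds.length && Nat.ble (cf.ds.getD a 0) cf.k &&
    Nat.blt (2 ^ cf.ds.getD a 0 * (2 * cf.C)) (2 ^ cf.k)

/-- The rounds towards the lower half, with primitive operations only. -/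
noncomputable def loRounds (s : ℕ) (ms : List (ℕ × ℕ)) : ℕ → ℕ :=
  List.rec (motive := fun _ => ℕ → ℕ) (fun Y => Y)
    (fun m _ r Y => r (Nat.add (Nat.add Y (Nat.land Y m.1)) (Nat.land (Nat.shiftLeft Y s) m.2))) ms

/-- The rounds towards the upper half, with primitive operations only. -/
noncomputable def hiRounds (s : ℕ) (ms : List (ℕ × ℕ)) : ℕ → ℕ :=
  List.rec (motive := fun _ => ℕ → ℕ) (fun Y => Y)
    (fun m _ r Y => r (Nat.add (Nat.add Y (Nat.land Y m.1)) (Nat.land (Nat.shiftRight Y s) m.2))) ms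

/-- The packed half, as the kernel computes it. -/
noncomputable def halfFast (k : ℕ) (ds : List ℕ) (a : ℕ) (side : Bool) (Y : ℕ) : ℕ :=
  let d := ds.getD a 0
  let S := stride ds a
  Nat.land (Nat.shiftRight
    (bif side then hiRounds (Nat.mul k S) (upperFast k (periods ds a) S d) Y
      else loRounds (Nat.mul k S) (lowerFast k (periods ds a) S d) Y) d)
    (divFast k (size ds) d)

/-- One half of a box: the faces opposite to it are dropped. -/
noncomputable def step (cf : Cfg) (a : ℕ) (side : Bool) (s : St) : St :=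
  ⟨s.Ys.map (halfFast cf.k cf.ds a side), s.E + 1,
    s.faces.filter fun F => !(Nat.beq F.axis a && F.top != side)⟩

/-- The box reached along a path, the last step first. -/
noncomputable def reach (cf : Cfg) (root : St) : List (ℕ × Bool) → St
  | [] => root
  | (a, side) :: p => step cf a side (reach cf root p)

/-- The test of a tree. -/
noncomputable def check (cf : Cfg) : Tree → St → Bool
  | .leaf d, s => leafOk cf s d
  | .node a l r, s =>
    stepOk cf a && check cf l (step cf a false s) && check cf r (step cf a true s)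

end Vale.Agent.P098.Check6
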