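import Mathlib

/-!
P098, checker for `d = 6`: weighted diagonal dominance on a cone, after a congruence.
-/

namespace Vale.Agent.P098.Check6

open Finset

noncomputable section

/-- The quadratic form of a matrix. -/
def quadForm {n : ℕ} (B : Fin n → Fin n → ℝ) (x : Fin n → ℝ) : ℝ :=
  ∑ i, ∑ j, B i j * x i * x j

/-- The congruent matrix `Tᵀ B T`. -/
def congrMat {n : ℕ} (T B : Fin n → Fin n → ℝ) (k l : Fin n) : ℝ :=
  ∑ i, ∑ j, T i k * B i j * T j l

lemma quadForm_congrMat {n : ℕ} (T B : Fin n → Fin n → ℝ) (y : Fin n → ℝ) :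
    quadForm (congrMat T B) y = quadForm B fun i => ∑ k, T i k * y k := by
  have e : ∀ k l, congrMat T B k l * y k * y l = ∑ i, ∑ j, (T i k * y k) * B i j * (T j l * y l) :=
    fun k l => by
      simp only [congrMat, Finset.sum_mul]
      exact sum_congr rfl fun i _ => sum_congr rfl fun j _ => by ring
  calc quadForm (congrMat T B) y
      = ∑ k, ∑ l, ∑ i, ∑ j, (T i k * y k) * B i j * (T j l * y l) := by simp only [quadForm, e]
    _ = ∑ i, ∑ k, ∑ l, ∑ j, (T i k * y k) * B i j * (T j l * y l) := by
        rw [sum_congr rfl fun k _ => sum_comm, sum_comm]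
    _ = ∑ i, ∑ j, ∑ k, ∑ l, (T i k * y k) * B i j * (T j l * y l) :=
        sum_congr rfl fun i _ => by rw [sum_congr rfl fun k _ => sum_comm, sum_comm]
    _ = _ := by
        simp only [quadForm, Finset.mul_sum, Finset.sum_mul]
        exact sum_congr rfl fun i _ => sum_congr rfl fun j _ =>
          (sum_congr rfl fun k _ => sum_congr rfl fun l _ => by ring).trans sum_comm

/-- A matrix whose off-diagonal entries, less the part `C` that is harmless on the cone, are
dominated by its diagonal in the weights `w`, is nonnegative on the cone. -/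
theorem quadForm_nonneg_of_dominant {n : ℕ} {B C : Fin n → Fin n → ℝ} {w : Fin n → ℝ}
    (hw : ∀ i, 0 < w i) (hsym : ∀ i j, B i j - C i j = B j i - C j i)
    (hdom : ∀ i, ∑ j ∈ univ.erase i, |B i j - C i j| * w j ≤ (B i i - C i i) * w i)
    {x : Fin n → ℝ} (hC : 0 ≤ quadForm C x) : 0 ≤ quadForm B x := by
  set M : Fin n → Fin n → ℝ := fun i j => B i j - C i j
  have hsplit : quadForm B x = quadForm M x + quadForm C x := by
    simp only [quadForm, ← Finset.sum_add_distrib]
    exact sum_congr rfl fun i _ => sum_congr rfl fun j _ => by simp only [M]; ring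
  suffices 0 ≤ quadForm M x by linarith
  set z : Fin n → ℝ := fun i => x i / w i
  have hx : ∀ i, x i = w i * z i := fun i => (mul_div_cancel₀ _ (hw i).ne').symm
  -- half the squares of `z` on each side of every off-diagonal term
  have hterm : ∀ i, M i i * w i * w i * z i ^ 2 -
      ∑ j ∈ univ.erase i, |M i j| * w i * w j * ((z i ^ 2 + z j ^ 2) / 2) ≤
      ∑ j, M i j * x i * x j := by
    intro i
    rw [← Finset.add_sum_erase univ _ (mem_univ i)]
    have h1 : ∀ j ∈ univ.erase i,
        -(|M i j| * w i * w j * ((z i ^ 2 + z j ^ 2) / 2)) ≤ M i j * x i * x j := by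
      intro j _
      have a : |z i * z j| ≤ (z i ^ 2 + z j ^ 2) / 2 := abs_le.2
        ⟨by nlinarith [sq_nonneg (z i + z j)], by nlinarith [sq_nonneg (z i - z j)]⟩
      have b := mul_le_mul_of_nonneg_left a
        (mul_nonneg (mul_nonneg (abs_nonneg (M i j)) (hw i).le) (hw j).le)
      have c := neg_abs_le (M i j * (z i * z j))
      have d := mul_le_mul_of_nonneg_left c (mul_nonneg (hw i).le (hw j).le)
      rw [abs_mul] at d
      rw [hx i, hx j]
      linarith
    have h2 := Finset.sum_le_sum h1
    rw [Finset.sum_neg_distrib] at h2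
    rw [hx i, ← hx i]
    have e : M i i * x i * x i = M i i * w i * w i * z i ^ 2 := by rw [hx i]; ring
    linarith
  have hsum := Finset.sum_le_sum (s := univ) fun i _ => hterm i
  refine le_trans ?_ hsum
  have swap : ∑ i, ∑ j ∈ univ.erase i, |M i j| * w i * w j * z j ^ 2 =
      ∑ i, ∑ j ∈ univ.erase i, |M i j| * w i * w j * z i ^ 2 := by
    rw [Finset.sum_comm' (t' := univ) (s' := fun j => univ.erase j) (by simp [eq_comm])]
    refine sum_congr rfl fun i _ => sum_congr rfl fun j _ => ?_
    simp only [M, hsym j i]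
    ring
  have hd : ∀ i, 0 ≤ M i i * w i * w i * z i ^ 2 -
      ∑ j ∈ univ.erase i, |M i j| * w i * w j * z i ^ 2 := by
    intro i
    have := mul_le_mul_of_nonneg_left (hdom i) (mul_nonneg (hw i).le (sq_nonneg (z i)))
    rw [Finset.mul_sum] at this
    rw [sub_nonneg]
    refine le_trans (le_of_eq ?_) (this.trans (le_of_eq ?_))
    · exact sum_congr rfl fun j _ => by simp only [M]; ring
    · simp only [M]; ring
  calc (0 : ℝ) ≤ ∑ i, (M i i * w i * w i * z i ^ 2 -
        ∑ j ∈ univ.erase i, |M i j| * w i * w j * z i ^ 2) := sum_nonneg fun i _ => hd i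
    _ = _ := by
      simp only [Finset.sum_sub_distrib, mul_add, add_div, Finset.sum_add_distrib, mul_div_assoc',
        ← Finset.sum_div, swap]
      ring

end

end Vale.Agent.P098.Check6
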