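import Mathlib

/-!
P098, checker for `d = 6`: vectors of natural numbers packed in lanes of `k` bits, and the
operations of the kernel evaluation (sums, masks, lane shifts, division by a power of two).
-/

namespace Vale.Agent.P098.Check6

/-- `n` lanes of `k` bits, least significant first. -/
def pk (k : ℕ) : ℕ → (ℕ → ℕ) → ℕ
  | 0, _ => 0
  | n + 1, f => f 0 + 2 ^ k * pk k n fun o => f (o + 1)

/-- The mask of the selected lanes. -/
def maskOf (k n : ℕ) (sel : ℕ → Bool) : ℕ := pk k n fun o => if sel o then 2 ^ k - 1 else 0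

lemma pk_congr (k : ℕ) : ∀ (n : ℕ) {f g : ℕ → ℕ}, (∀ o < n, f o = g o) → pk k n f = pk k n g
  | 0, _, _, _ => rfl
  | n + 1, _, _, h => by
    rw [pk, pk, h 0 n.succ_pos, pk_congr k n fun o ho => h (o + 1) (by omega)]

lemma pk_add (k : ℕ) : ∀ (n : ℕ) (f g : ℕ → ℕ),
    pk k n f + pk k n g = pk k n fun o => f o + g o
  | 0, _, _ => rfl
  | n + 1, f, g => by rw [pk, pk, pk, ← pk_add k n (fun o => f (o + 1)) fun o => g (o + 1)]; ring

lemma mul_pk (k c : ℕ) : ∀ (n : ℕ) (f : ℕ → ℕ), c * pk k n f = pk k n fun o => c * f o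
  | 0, _ => by simp [pk]
  | n + 1, f => by rw [pk, pk, ← mul_pk k c n fun o => f (o + 1)]; ring

lemma pk_lt (k : ℕ) : ∀ {n : ℕ} {f : ℕ → ℕ}, (∀ o < n, f o < 2 ^ k) → pk k n f < 2 ^ (k * n)
  | 0, _, _ => by simp [pk]
  | n + 1, f, h => by
    have h1 := pk_lt k (n := n) (f := fun o => f (o + 1)) fun o ho => h (o + 1) (by omega)
    have h2 := h 0 n.succ_pos
    rw [pk, mul_add, mul_one, Nat.pow_add, mul_comm (2 ^ (k * n))]
    calc f 0 + 2 ^ k * pk k n (fun o => f (o + 1)) < 2 ^ k * (pk k n (fun o => f (o + 1)) + 1) := by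
          rw [mul_add, mul_one]; omega
      _ ≤ 2 ^ k * 2 ^ (k * n) := Nat.mul_le_mul_left _ h1

/-- Bits of a number with a given lowest lane. -/
lemma testBit_lane {k a b i : ℕ} (ha : a < 2 ^ k) :
    (a + 2 ^ k * b).testBit i = if i < k then a.testBit i else b.testBit (i - k) := by
  rw [add_comm, Nat.testBit_two_pow_mul_add b ha]

lemma pk_land (k : ℕ) : ∀ {n : ℕ} {f g : ℕ → ℕ}, (∀ o < n, f o < 2 ^ k) → (∀ o < n, g o < 2 ^ k) →
    pk k n f &&& pk k n g = pk k n fun o => f o &&& g o
  | 0, _, _, _, _ => by simp [pk]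
  | n + 1, f, g, hf, hg => by
    have ih := pk_land k (n := n) (f := fun o => f (o + 1)) (g := fun o => g (o + 1))
      (fun o ho => hf (o + 1) (by omega)) fun o ho => hg (o + 1) (by omega)
    have h0 := hf 0 n.succ_pos
    have h1 := hg 0 n.succ_pos
    rw [pk, pk, pk, ← ih]
    refine Nat.eq_of_testBit_eq fun i => ?_
    rw [Nat.testBit_land, testBit_lane h0, testBit_lane h1,
      testBit_lane ((Nat.and_le_left).trans_lt h0)]
    split <;> simp

lemma pk_land_maskOf {k n : ℕ} {f : ℕ → ℕ} (hf : ∀ o < n, f o < 2 ^ k) (sel : ℕ → Bool) :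
    pk k n f &&& maskOf k n sel = pk k n fun o => if sel o then f o else 0 := by
  have h : ∀ o < n, (if sel o then 2 ^ k - 1 else 0) < 2 ^ k := fun o _ => by
    have := Nat.two_pow_pos k
    split <;> omega
  rw [maskOf, pk_land k hf h]
  refine pk_congr k n fun o ho => ?_
  split
  · rw [Nat.and_two_pow_sub_one_eq_mod, Nat.mod_eq_of_lt (hf o ho)]
  · simp

lemma pk_append (k : ℕ) : ∀ (m n : ℕ) (f : ℕ → ℕ),
    pk k (m + n) f = pk k m f + 2 ^ (k * m) * pk k n fun o => f (m + o)
  | 0, n, f => by simp [pk]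
  | m + 1, n, f => by
    rw [show m + 1 + n = m + n + 1 by omega, pk, pk_append k m n, pk,
      pk_congr k n (g := fun o => f (m + 1 + o)) fun o _ => by rw [show m + o + 1 = m + 1 + o by omega],
      mul_add k m 1, Nat.pow_add, mul_one]
    ring

lemma pk_zero (k : ℕ) : ∀ n, pk k n (fun _ => 0) = 0
  | 0 => rfl
  | n + 1 => by rw [pk, pk_zero k n]; simp

/-- Shift towards higher lanes, then keep the first `n` lanes selected. -/
lemma pk_shiftUp {k n : ℕ} {f : ℕ → ℕ} (hf : ∀ o < n, f o < 2 ^ k) (s : ℕ) (sel : ℕ → Bool) :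
    (pk k n f <<< (k * s)) &&& maskOf k n sel =
      pk k n fun o => if sel o ∧ s ≤ o then f (o - s) else 0 := by
  set g : ℕ → ℕ := fun o => if s ≤ o then f (o - s) else 0 with hg
  set sel' : ℕ → Bool := fun o => decide (o < n) && sel o with hsel
  have hgb : ∀ o < n + s, g o < 2 ^ k := fun o ho => by
    simp only [g]; split
    · exact hf _ (by omega)
    · exact Nat.two_pow_pos k
  have e1 : pk k n f <<< (k * s) = pk k (n + s) g := by
    rw [Nat.shiftLeft_eq, add_comm n s, pk_append k s n g,
      pk_congr k s (g := fun _ => 0) fun o ho => if_neg (by omega), pk_zero,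
      pk_congr k n (f := fun o => g (s + o)) (g := f) fun o _ => by simp [g]]
    ring
  have e2 : maskOf k n sel = maskOf k (n + s) sel' := by
    rw [maskOf, maskOf, pk_append k n s,
      pk_congr k s (g := fun _ => 0) fun o _ => by simp [sel'], pk_zero, mul_zero, add_zero]
    exact pk_congr k n fun o ho => by simp [sel', ho]
  rw [e1, e2, pk_land_maskOf hgb, pk_append k n s,
    pk_congr k s (g := fun _ => 0) fun o _ => by simp [sel'], pk_zero, mul_zero, add_zero]
  refine pk_congr k n fun o ho => ?_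
  simp only [g, sel', ho, decide_true, Bool.true_and]
  by_cases h1 : sel o <;> simp [h1]

/-- Shift towards lower lanes. -/
lemma pk_shiftDown {k n : ℕ} {f : ℕ → ℕ} (hf : ∀ o < n, f o < 2 ^ k) (s : ℕ) (sel : ℕ → Bool) :
    (pk k n f >>> (k * s)) &&& maskOf k n sel =
      pk k n fun o => if sel o ∧ o + s < n then f (o + s) else 0 := by
  rcases le_total n s with hs | hs
  · rw [Nat.shiftRight_eq_div_pow, Nat.div_eq_of_lt ((pk_lt k hf).trans_le
      (Nat.pow_le_pow_right two_pos (Nat.mul_le_mul_left k hs))), Nat.zero_and,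
      pk_congr k n (g := fun _ => 0) fun o _ => if_neg (by omega), pk_zero]
  · obtain ⟨m, rfl⟩ := Nat.exists_eq_add_of_le hs
    set g : ℕ → ℕ := fun o => if o < m then f (s + o) else 0
    have hgb : ∀ o < s + m, g o < 2 ^ k := fun o _ => by
      simp only [g]; split
      · exact hf _ (by omega)
      · exact Nat.two_pow_pos k
    have e : pk k (s + m) f >>> (k * s) = pk k (s + m) g := by
      rw [pk_append k s m f, Nat.shiftRight_eq_div_pow,
        Nat.add_mul_div_left _ _ (Nat.two_pow_pos _),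
        Nat.div_eq_of_lt (pk_lt k fun o ho => hf o (by omega)), zero_add, add_comm s m,
        pk_append k m s g, pk_congr k s (g := fun _ => 0) fun o _ => if_neg (by omega), pk_zero,
        mul_zero, add_zero]
      exact pk_congr k m fun o ho => (if_pos ho).symm
    rw [e, pk_land_maskOf hgb]
    refine pk_congr k _ fun o ho => ?_
    simp only [g]
    by_cases h1 : sel o <;> by_cases h2 : o < m <;> simp [h1, h2, add_comm o s]

/-- Lanewise division by `2 ^ d`. -/
lemma pk_div {k d : ℕ} (hd : d ≤ k) : ∀ {n : ℕ} {f : ℕ → ℕ}, (∀ o < n, f o < 2 ^ k) →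
    (pk k n f >>> d) &&& pk k n (fun _ => 2 ^ (k - d) - 1) = pk k n fun o => f o / 2 ^ d
  | 0, _, _ => by simp [pk]
  | n + 1, f, h => by
    have ih := pk_div hd (n := n) (f := fun o => f (o + 1)) fun o ho => h (o + 1) (by omega)
    have h0 := h 0 n.succ_pos
    have hm : 2 ^ (k - d) - 1 < 2 ^ k := by
      have := Nat.pow_le_pow_right two_pos (Nat.sub_le k d)
      have := Nat.two_pow_pos (k - d)
      omega
    rw [pk, pk, pk, ← ih]
    refine Nat.eq_of_testBit_eq fun i => ?_
    rw [Nat.testBit_land, Nat.testBit_shiftRight, testBit_lane h0, testBit_lane hm,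
      testBit_lane ((Nat.div_le_self _ _).trans_lt h0), Nat.testBit_land, Nat.testBit_shiftRight,
      Nat.testBit_div_two_pow, Nat.testBit_two_pow_sub_one]
    by_cases hi : i < k
    · simp only [hi, if_true]
      by_cases h2 : i < k - d
      · simp [h2, show d + i < k by omega, add_comm i d]
      · have : (f 0).testBit (i + d) = false :=
          Nat.testBit_lt_two_pow (h0.trans_le (Nat.pow_le_pow_right two_pos (by omega)))
        simp [h2, this]
    · simp only [hi, if_false, show ¬ d + i < k by omega, show d + i - k = d + (i - k) by omega]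

end Vale.Agent.P098.Check6
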