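import Vale.Agent.P098.Check6.Bern
import Vale.Agent.P098.Check6.Lanes

/-!
P098, checker for `d = 6`: bisection of a packed tensor along one axis.  One round of the scheme is
two masks, one shift and two sums for all lanes at once; the final division rounds down.
-/

namespace Vale.Agent.P098.Check6

/-- The index of lane `o` along an axis of stride `S` and degree `d`. -/
def axisIdx (S d o : ℕ) : ℕ := o / S % (d + 1)

/-- One round towards the lower half, given the masks of the frozen and of the moving lanes. -/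
def lowerRound (k S : ℕ) (m : ℕ × ℕ) (Y : ℕ) : ℕ := Y + (Y &&& m.1) + ((Y <<< (k * S)) &&& m.2)

/-- One round towards the upper half. -/
def upperRound (k S : ℕ) (m : ℕ × ℕ) (Y : ℕ) : ℕ := Y + (Y &&& m.1) + ((Y >>> (k * S)) &&& m.2)

/-- The rounds, for the given masks, first mask first. -/
def rounds (op : ℕ × ℕ → ℕ → ℕ) : List (ℕ × ℕ) → ℕ → ℕ
  | [], Y => Y
  | m :: ms, Y => rounds op ms (op m Y)

/-- The masks of an axis: `d` rounds. -/
def lowerMasks (k n S d : ℕ) : List (ℕ × ℕ) :=
  (List.range d).map fun r => (maskOf k n fun o => Nat.ble (axisIdx S d o) r,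
    maskOf k n fun o => Nat.blt r (axisIdx S d o))

/-- The masks of an axis: `d` rounds. -/
def upperMasks (k n S d : ℕ) : List (ℕ × ℕ) :=
  (List.range d).map fun r => (maskOf k n fun o => Nat.blt (d - (r + 1)) (axisIdx S d o),
    maskOf k n fun o => Nat.ble (axisIdx S d o) (d - (r + 1)))

/-- The mask of the division by `2 ^ d`. -/
def divMask (k n d : ℕ) : ℕ := pk k n fun _ => 2 ^ (k - d) - 1

/-- One half. -/
def halveP (op : ℕ × ℕ → ℕ → ℕ) (ms : List (ℕ × ℕ)) (d dm Y : ℕ) : ℕ :=
  (rounds op ms Y >>> d) &&& dm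

/-- Lanes after `r` rounds towards the lower half. -/
def lowerLane (S d : ℕ) (f : ℕ → ℕ) : ℕ → ℕ → ℕ
  | 0, o => f o
  | r + 1, o => if axisIdx S d o ≤ r then lowerLane S d f r o + lowerLane S d f r o
      else lowerLane S d f r o + lowerLane S d f r (o - S)

/-- Lanes after `r` rounds towards the upper half. -/
def upperLane (S d : ℕ) (f : ℕ → ℕ) : ℕ → ℕ → ℕ
  | 0, o => f o
  | r + 1, o => if d - (r + 1) < axisIdx S d o then upperLane S d f r o + upperLane S d f r o
      else upperLane S d f r o + upperLane S d f r (o + S)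

lemma le_of_axisIdx_pos {S d o : ℕ} (h : 0 < axisIdx S d o) : S ≤ o := by
  by_contra hc
  rw [axisIdx, Nat.div_eq_of_lt (by omega)] at h
  simp at h

lemma axisIdx_le (S d o : ℕ) : axisIdx S d o ≤ d := Nat.le_of_lt_succ (Nat.mod_lt _ d.succ_pos)

lemma axisIdx_step {S d o : ℕ} (hS : 0 < S) (h : axisIdx S d o < d) :
    axisIdx S d (o + S) = axisIdx S d o + 1 := by
  rw [axisIdx] at h ⊢
  rw [Nat.add_div_right _ hS, axisIdx, Nat.add_mod,
    Nat.mod_eq_of_lt (show 1 < d + 1 by omega)]
  exact Nat.mod_eq_of_lt (by omega)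

lemma axisIdx_pred {S d o : ℕ} (hS : 0 < S) (h : 0 < axisIdx S d o) :
    axisIdx S d (o - S) + 1 = axisIdx S d o := by
  have hle := le_of_axisIdx_pos h
  have := axisIdx_le S d o
  have e : o / S = (o - S) / S + 1 := by
    conv_lhs => rw [show o = o - S + S by omega, Nat.add_div_right _ hS]
  simp only [axisIdx] at h this ⊢
  rw [e] at h this ⊢
  have hm := Nat.mod_lt ((o - S) / S) (show 0 < d + 1 by omega)
  rcases Nat.lt_or_ge ((o - S) / S % (d + 1) + 1) (d + 1) with h1 | h1
  · rw [Nat.add_mod ((o - S) / S) 1, Nat.mod_eq_of_lt (show 1 < d + 1 by omega),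
      Nat.mod_eq_of_lt h1]
  · exfalso
    rw [Nat.add_mod ((o - S) / S) 1, show (o - S) / S % (d + 1) = d by omega] at h
    rcases Nat.eq_zero_or_pos d with hd | hd
    · subst hd; simp at h
    · rw [Nat.mod_eq_of_lt (show 1 < d + 1 by omega), Nat.mod_self] at h
      omega

/-- Whole tensors: a step upwards along the axis stays among the lanes. -/
lemma axis_fits {n S d o q : ℕ} (hS : 0 < S) (hn : n = q * ((d + 1) * S)) (ho : o < n)
    (h : axisIdx S d o < d) : o + S < n := by
  have h1 : o / S < q * (d + 1) := (Nat.div_lt_iff_lt_mul hS).2 (by rw [mul_assoc, ← hn]; exact ho)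
  have h2 : o / S + 1 ≠ q * (d + 1) := fun e => by
    have h3 : (o / S + 1) % (d + 1) = 0 := by rw [e]; simp
    rw [axisIdx] at h
    rw [Nat.add_mod, Nat.mod_eq_of_lt (show 1 < d + 1 by omega),
      Nat.mod_eq_of_lt (show o / S % (d + 1) + 1 < d + 1 by omega)] at h3
    omega
  have h4 : (o + S) / S < q * (d + 1) := by rw [Nat.add_div_right _ hS]; omega
  rw [Nat.div_lt_iff_lt_mul hS, mul_assoc, ← hn] at h4
  exact h4

lemma lowerLane_le {S d B n : ℕ} {f : ℕ → ℕ} (hf : ∀ o < n, f o ≤ B) :
    ∀ (r : ℕ), ∀ o < n, lowerLane S d f r o ≤ 2 ^ r * B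
  | 0, o, ho => by simpa [lowerLane] using hf o ho
  | r + 1, o, ho => by
    have h1 := lowerLane_le (S := S) (d := d) hf r o ho
    have h2 := lowerLane_le (S := S) (d := d) hf r (o - S) (by omega)
    rw [lowerLane, pow_succ]
    split <;> linarith

lemma upperLane_le {S d B n q : ℕ} (hS : 0 < S) (hn : n = q * ((d + 1) * S)) {f : ℕ → ℕ}
    (hf : ∀ o < n, f o ≤ B) : ∀ (r : ℕ), r ≤ d → ∀ o < n, upperLane S d f r o ≤ 2 ^ r * B
  | 0, _, o, ho => by simpa [upperLane] using hf o ho
  | r + 1, hr, o, ho => by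
    have h1 := upperLane_le hS hn hf r (by omega) o ho
    rw [upperLane, pow_succ]
    split
    · linarith
    · linarith [upperLane_le hS hn hf r (by omega) (o + S) (axis_fits hS hn ho (by omega))]

lemma rounds_append (op : ℕ × ℕ → ℕ → ℕ) : ∀ (a b : List (ℕ × ℕ)) (Y : ℕ),
    rounds op (a ++ b) Y = rounds op b (rounds op a Y)
  | [], _, _ => rfl
  | _ :: a, b, Y => rounds_append op a b _

lemma rounds_lower {k n S d B : ℕ} {f : ℕ → ℕ} (hf : ∀ o < n, f o ≤ B) (hB : 2 ^ d * B < 2 ^ k) :
    ∀ r ≤ d, rounds (lowerRound k S) ((List.range r).map fun r =>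
        (maskOf k n fun o => Nat.ble (axisIdx S d o) r,
          maskOf k n fun o => Nat.blt r (axisIdx S d o))) (pk k n f) =
      pk k n (lowerLane S d f r)
  | 0, _ => rfl
  | r + 1, hr => by
    have hb : ∀ o < n, lowerLane S d f r o < 2 ^ k := fun o ho =>
      ((lowerLane_le hf r o ho).trans (Nat.mul_le_mul_right B
        (Nat.pow_le_pow_right two_pos (by omega)))).trans_lt hB
    rw [List.range_succ, List.map_append, List.map_singleton, rounds_append,
      rounds_lower hf hB r (by omega), rounds, rounds, lowerRound, pk_land_maskOf hb,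
      pk_shiftUp hb, pk_add, pk_add]
    refine pk_congr k n fun o ho => ?_
    rw [lowerLane]
    by_cases h : axisIdx S d o ≤ r
    · simp [h, Nat.ble_eq, Nat.not_lt.2 h]
    · have := le_of_axisIdx_pos (d := d) (S := S) (o := o) (by omega)
      simp [h, Nat.ble_eq, Nat.lt_of_not_le h, this]

lemma rounds_upper {k n S d B q : ℕ} (hS : 0 < S) (hn : n = q * ((d + 1) * S)) {f : ℕ → ℕ}
    (hf : ∀ o < n, f o ≤ B) (hB : 2 ^ d * B < 2 ^ k) :
    ∀ r ≤ d, rounds (upperRound k S) ((List.range r).map fun r =>
        (maskOf k n fun o => Nat.blt (d - (r + 1)) (axisIdx S d o),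
          maskOf k n fun o => Nat.ble (axisIdx S d o) (d - (r + 1)))) (pk k n f) =
      pk k n (upperLane S d f r)
  | 0, _ => rfl
  | r + 1, hr => by
    have hb : ∀ o < n, upperLane S d f r o < 2 ^ k := fun o ho =>
      ((upperLane_le hS hn hf r (by omega) o ho).trans (Nat.mul_le_mul_right B
        (Nat.pow_le_pow_right two_pos (by omega)))).trans_lt hB
    rw [List.range_succ, List.map_append, List.map_singleton, rounds_append,
      rounds_upper hS hn hf hB r (by omega), rounds, rounds, upperRound, pk_land_maskOf hb,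
      pk_shiftDown hb, pk_add, pk_add]
    refine pk_congr k n fun o ho => ?_
    rw [upperLane]
    by_cases h : d - (r + 1) < axisIdx S d o
    · simp [h, Nat.ble_eq, Nat.not_le.2 h]
    · have := axis_fits (d := d) hS hn ho (by omega)
      simp [h, Nat.ble_eq, Nat.le_of_not_lt h, this]

noncomputable section

/-- The values along the axis line through lane `o`. -/
def lineOf (S d : ℕ) (f : ℕ → ℕ) (o j : ℕ) : ℝ := f (o - axisIdx S d o * S + j * S)

lemma lineOf_step {S d o : ℕ} (hS : 0 < S) (f : ℕ → ℕ) (h : axisIdx S d o < d) :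
    lineOf S d f (o + S) = lineOf S d f o := funext fun j => by
  have : axisIdx S d o * S ≤ o :=
    (Nat.mul_le_mul_right S (Nat.mod_le _ _)).trans (Nat.div_mul_le_self o S)
  rw [lineOf, lineOf, axisIdx_step hS h, show o + S - (axisIdx S d o + 1) * S =
    o - axisIdx S d o * S by rw [add_mul, one_mul]; omega]

lemma lineOf_self (S d : ℕ) (f : ℕ → ℕ) (o : ℕ) : lineOf S d f o (axisIdx S d o) = f o := by
  have h : axisIdx S d o * S ≤ o :=
    (Nat.mul_le_mul_right S (Nat.mod_le _ _)).trans (Nat.div_mul_le_self o S)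
  rw [lineOf, Nat.sub_add_cancel h]

lemma lowerLane_eq {S d : ℕ} (hS : 0 < S) (f : ℕ → ℕ) : ∀ (r o : ℕ),
    (lowerLane S d f r o : ℝ) = 2 ^ r * dc (1 / 2) (1 / 2) (min r (axisIdx S d o))
      (lineOf S d f o) (axisIdx S d o - min r (axisIdx S d o))
  | 0, o => by simp [lowerLane, dc, lineOf_self]
  | r + 1, o => by
    rw [lowerLane]
    by_cases h : axisIdx S d o ≤ r
    · rw [if_pos h, Nat.cast_add, lowerLane_eq hS f r o, min_eq_right h,
        min_eq_right (h.trans r.le_succ), pow_succ]
      ring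
    · have hp := axisIdx_pred (d := d) (o := o) hS (by omega)
      have hl : lineOf S d f (o - S) = lineOf S d f o := by
        have := lineOf_step (d := d) (o := o - S) hS f (by have := axisIdx_le S d o; omega)
        rw [Nat.sub_add_cancel (le_of_axisIdx_pos (d := d) (by omega))] at this
        exact this.symm
      rw [if_neg h, Nat.cast_add, lowerLane_eq hS f r o, lowerLane_eq hS f r (o - S), hl,
        min_eq_left (by omega), min_eq_left (by omega), min_eq_left (show r + 1 ≤ axisIdx S d o by omega),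
        dc, show axisIdx S d o - (r + 1) + 1 = axisIdx S d o - r by omega,
        show axisIdx S d (o - S) - r = axisIdx S d o - (r + 1) by omega, pow_succ]
      ring

lemma upperLane_eq {S d : ℕ} (hS : 0 < S) (f : ℕ → ℕ) : ∀ (r : ℕ), r ≤ d → ∀ o : ℕ,
    (upperLane S d f r o : ℝ) =
      2 ^ r * dc (1 / 2) (1 / 2) (min r (d - axisIdx S d o)) (lineOf S d f o) (axisIdx S d o)
  | 0, _, o => by simp [upperLane, dc, lineOf_self]
  | r + 1, hr, o => by
    rw [upperLane]
    by_cases h : d - (r + 1) < axisIdx S d o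
    · rw [if_pos h, Nat.cast_add, upperLane_eq hS f r (by omega) o,
        min_eq_right (show d - axisIdx S d o ≤ r by omega),
        min_eq_right (show d - axisIdx S d o ≤ r + 1 by omega), pow_succ]
      ring
    · rw [if_neg h, Nat.cast_add, upperLane_eq hS f r (by omega) o,
        upperLane_eq hS f r (by omega) (o + S), axisIdx_step hS (by omega),
        lineOf_step hS f (by omega), min_eq_left (by omega), min_eq_left (by omega),
        min_eq_left (show r + 1 ≤ d - axisIdx S d o by omega), dc, pow_succ]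
      ring

lemma div_round {v : ℕ} {x : ℝ} (d : ℕ) (h : (v : ℝ) = 2 ^ d * x) :
    (↑(v / 2 ^ d) : ℝ) ≤ x ∧ x < ↑(v / 2 ^ d) + 1 := by
  have h1 := Nat.div_add_mod v (2 ^ d)
  have h2 := Nat.mod_lt v (Nat.two_pow_pos d)
  have hp : (0 : ℝ) < 2 ^ d := by positivity
  rw [← h1] at h
  push_cast at h
  constructor
  · refine le_of_mul_le_mul_left (le_of_le_of_eq ?_ h) hp
    exact le_add_of_nonneg_right (Nat.cast_nonneg _)
  · refine lt_of_mul_lt_mul_left (lt_of_eq_of_lt h.symm ?_) hp.le
    rw [mul_add, mul_one]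
    have h3 : ((v % 2 ^ d : ℕ) : ℝ) < 2 ^ d := by exact_mod_cast h2
    linarith

/-- One half of a packed tensor along an axis: each lane is the half's coefficient rounded down. -/
theorem halveP_spec {k n S d B q : ℕ} (hS : 0 < S) (hn : n = q * ((d + 1) * S)) {f : ℕ → ℕ}
    (hf : ∀ o < n, f o ≤ B) (hB : 2 ^ d * B < 2 ^ k) (hdk : d ≤ k) (side : Bool) :
    ∃ g : ℕ → ℕ,
      halveP (if side then upperRound k S else lowerRound k S)
          (if side then upperMasks k n S d else lowerMasks k n S d) d (divMask k n d) (pk k n f) =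
        pk k n g ∧
      ∀ o < n, g o ≤ B ∧
        (g o : ℝ) ≤ (if side then upperHalf d else lowerHalf) (lineOf S d f o) (axisIdx S d o) ∧
        (if side then upperHalf d else lowerHalf) (lineOf S d f o) (axisIdx S d o) < g o + 1 := by
  cases side
  · refine ⟨fun o => lowerLane S d f d o / 2 ^ d, ?_, fun o ho => ?_⟩
    · simp only [Bool.false_eq_true, if_false]
      rw [halveP, lowerMasks, rounds_lower hf hB d le_rfl, divMask,
        pk_div hdk fun o ho => (lowerLane_le hf d o ho).trans_lt hB]
    · have e := lowerLane_eq (d := d) hS f d o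
      rw [min_eq_right (axisIdx_le S d o), Nat.sub_self] at e
      exact ⟨(Nat.div_le_div_right (lowerLane_le hf d o ho)).trans_eq
        (Nat.mul_div_cancel_left B (Nat.two_pow_pos d)), div_round d e⟩
  · refine ⟨fun o => upperLane S d f d o / 2 ^ d, ?_, fun o ho => ?_⟩
    · simp only [if_true]
      rw [halveP, upperMasks, rounds_upper hS hn hf hB d le_rfl, divMask,
        pk_div hdk fun o ho => (upperLane_le hS hn hf d le_rfl o ho).trans_lt hB]
    · have e := upperLane_eq (d := d) hS f d le_rfl o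
      rw [min_eq_right (Nat.sub_le d _)] at e
      exact ⟨(Nat.div_le_div_right (upperLane_le hS hn hf d le_rfl o ho)).trans_eq
        (Nat.mul_div_cancel_left B (Nat.two_pow_pos d)), div_round d e⟩

end

end Vale.Agent.P098.Check6
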