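import Vale.Agent.P098.Check6.IntervalDefs

/-!
P098, checker for `d = 6`: soundness of the arithmetic of an interval, on signed lanes.
-/

namespace Vale.Agent.P098.Check6.Interval

open Finset

/-- The symmetric matrix of a table. -/
def U21.mat (x : U21) : V6 (V6 ℕ) :=
  ⟨⟨x.m00, x.m01, x.m02, x.m03, x.m04, x.m05⟩,
    ⟨x.m01, x.m11, x.m12, x.m13, x.m14, x.m15⟩,
    ⟨x.m02, x.m12, x.m22, x.m23, x.m24, x.m25⟩,
    ⟨x.m03, x.m13, x.m23, x.m33, x.m34, x.m35⟩,
    ⟨x.m04, x.m14, x.m24, x.m34, x.m44, x.m45⟩,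
    ⟨x.m05, x.m15, x.m25, x.m35, x.m45, x.m55⟩⟩

lemma U21.mat_map (f : ℕ → ℕ) (x : U21) (i j : Fin 6) :
    ((x.map f).mat.get i).get j = f ((x.mat.get i).get j) := by
  fin_cases i <;> fin_cases j <;> rfl

lemma map6_get (f : ℕ → ℕ) (x : V6 ℕ) (i : Fin 6) : (map6 f x).get i = f (x.get i) := by
  fin_cases i <;> rfl

/-- The signed value of a field. -/
def sval (f : ℕ) : ℤ := bif Nat.beq (Nat.land f 1) 1 then -(mag f : ℤ) else (mag f : ℤ)

lemma sval_natAbs (f : ℕ) : (sval f).natAbs = mag f := by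
  simp only [sval]
  cases Nat.beq (Nat.land f 1) 1 <;> simp

/-- A packed vector with centre `m`. -/
def Cen (k n Y : ℕ) (v : ℕ → ℤ) (m : ℕ) : Prop :=
  (∀ o < n, |v o| ≤ (m : ℤ)) ∧ (Y : ℤ) = pkZ k n fun o => v o + (m : ℤ)

variable {k n X X₁ X₂ X₃ X₄ X₅ K d m f₁ f₂ f₃ f₄ f₅ : ℕ} {v v₁ v₂ v₃ v₄ v₅ : ℕ → ℤ}

lemma Cen.dot1 (h : Cen k n X v m) : Cen k n (dot1 d X) (fun o => (d : ℤ) * v o) (d * m) := by
  refine ⟨fun o ho => ?_, ?_⟩
  · rw [abs_mul, Nat.abs_cast, Nat.cast_mul]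
    exact mul_le_mul_of_nonneg_left (h.1 o ho) (Nat.cast_nonneg _)
  · simp only [Interval.dot1, Nat.mul_eq, Nat.cast_mul, h.2, mul_pkZ]
    exact pkZ_congr fun o _ => by ring

lemma Cen.add {Y : ℕ} {w : ℕ → ℤ} {m' : ℕ} (h : Cen k n X v m) (h' : Cen k n Y w m') :
    Cen k n (Nat.add X Y) (fun o => v o + w o) (m + m') := by
  refine ⟨fun o ho => ?_, ?_⟩
  · push_cast
    exact (abs_add_le _ _).trans (add_le_add (h.1 o ho) (h'.1 o ho))
  · simp only [Nat.add_eq, Nat.cast_add, h.2, h'.2, pkZ_add]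
    exact pkZ_congr fun o _ => by ring

lemma Cen.term {f : ℕ} (hK : (K : ℤ) = pkZ k n fun _ => 2 * (m : ℤ)) (h : Cen k n X v m) :
    Cen k n (term f K X) (fun o => sval f * v o) (mag f * m) := by
  refine ⟨fun o ho => ?_, ?_⟩
  · rw [abs_mul, Nat.cast_mul, ← sval_natAbs, Int.natCast_natAbs]
    exact mul_le_mul_of_nonneg_left (h.1 o ho) (abs_nonneg _)
  · simp only [Interval.term, sval, Nat.mul_eq]
    cases Nat.beq (Nat.land f 1) 1
    · rw [Nat.cast_mul, h.2, mul_pkZ]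
      exact pkZ_congr fun o _ => by simp only [cond_false]; push_cast; ring
    · have e : (K : ℤ) - X = pkZ k n fun o => -v o + (m : ℤ) := by
        rw [hK, h.2, pkZ_sub]
        exact pkZ_congr fun o _ => by ring
      change ((mag f * (K - X) : ℕ) : ℤ) = _
      rw [sub_eq_pk e fun o ho => by have := abs_le.1 (h.1 o ho); linarith, Nat.cast_mul, cast_pk,
        mul_pkZ]
      refine pkZ_congr fun o ho => ?_
      rw [Int.toNat_of_nonneg (by have := abs_le.1 (h.1 o ho); linarith), cond_true]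
      push_cast
      ring

lemma Cen.dot2 (h0 : Cen k n X v m) (hK : (K : ℤ) = pkZ k n fun _ => 2 * (m : ℤ))
    (h1 : Cen k n X₁ v₁ m) :
    Cen k n (dot2 K d X f₁ X₁)
      (fun o => (d : ℤ) * v o + sval f₁ * v₁ o) (d * m + mag f₁ * m) :=
  h0.dot1.add (Cen.term hK h1)

lemma Cen.dot3 (h0 : Cen k n X v m) (hK : (K : ℤ) = pkZ k n fun _ => 2 * (m : ℤ))
    (h1 : Cen k n X₁ v₁ m) (h2 : Cen k n X₂ v₂ m) :
    Cen k n (dot3 K d X f₁ X₁ f₂ X₂)
      (fun o => (d : ℤ) * v o + sval f₁ * v₁ o + sval f₂ * v₂ o) (d * m + mag f₁ * m + mag f₂ * m) :=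
  (h0.dot2 hK h1).add (Cen.term hK h2)

lemma Cen.dot4 (h0 : Cen k n X v m) (hK : (K : ℤ) = pkZ k n fun _ => 2 * (m : ℤ))
    (h1 : Cen k n X₁ v₁ m) (h2 : Cen k n X₂ v₂ m) (h3 : Cen k n X₃ v₃ m) :
    Cen k n (dot4 K d X f₁ X₁ f₂ X₂ f₃ X₃)
      (fun o => (d : ℤ) * v o + sval f₁ * v₁ o + sval f₂ * v₂ o + sval f₃ * v₃ o) (d * m + mag f₁ * m + mag f₂ * m + mag f₃ * m) :=
  (h0.dot3 hK h1 h2).add (Cen.term hK h3)

lemma Cen.dot5 (h0 : Cen k n X v m) (hK : (K : ℤ) = pkZ k n fun _ => 2 * (m : ℤ))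
    (h1 : Cen k n X₁ v₁ m) (h2 : Cen k n X₂ v₂ m) (h3 : Cen k n X₃ v₃ m) (h4 : Cen k n X₄ v₄ m) :
    Cen k n (dot5 K d X f₁ X₁ f₂ X₂ f₃ X₃ f₄ X₄)
      (fun o => (d : ℤ) * v o + sval f₁ * v₁ o + sval f₂ * v₂ o + sval f₃ * v₃ o + sval f₄ * v₄ o) (d * m + mag f₁ * m + mag f₂ * m + mag f₃ * m + mag f₄ * m) :=
  (h0.dot4 hK h1 h2 h3).add (Cen.term hK h4)

lemma Cen.dot6 (h0 : Cen k n X v m) (hK : (K : ℤ) = pkZ k n fun _ => 2 * (m : ℤ))
    (h1 : Cen k n X₁ v₁ m) (h2 : Cen k n X₂ v₂ m) (h3 : Cen k n X₃ v₃ m) (h4 : Cen k n X₄ v₄ m) (h5 : Cen k n X₅ v₅ m) :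
    Cen k n (dot6 K d X f₁ X₁ f₂ X₂ f₃ X₃ f₄ X₄ f₅ X₅)
      (fun o => (d : ℤ) * v o + sval f₁ * v₁ o + sval f₂ * v₂ o + sval f₃ * v₃ o + sval f₄ * v₄ o + sval f₅ * v₅ o) (d * m + mag f₁ * m + mag f₂ * m + mag f₃ * m + mag f₄ * m + mag f₅ * m) :=
  (h0.dot5 hK h1 h2 h3 h4).add (Cen.term hK h5)

/-- The congruence of an interval; the stand-in inverse records only which pair the cone helps. -/
def congOf (code : ℕ) : Cong :=
  ⟨⟨⟨((fld code 20) : ℤ), sval (fld code 260), sval (fld code 280), sval (fld code 300), sval (fld code 320), sval (fld code 340)⟩,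
    ⟨0, ((fld code 40) : ℤ), sval (fld code 360), sval (fld code 380), sval (fld code 400), sval (fld code 420)⟩,
    ⟨0, 0, ((fld code 60) : ℤ), sval (fld code 440), sval (fld code 460), sval (fld code 480)⟩,
    ⟨0, 0, 0, ((fld code 80) : ℤ), sval (fld code 500), sval (fld code 520)⟩,
    ⟨0, 0, 0, 0, ((fld code 100) : ℤ), sval (fld code 540)⟩,
    ⟨0, 0, 0, 0, 0, ((fld code 120) : ℤ)⟩⟩,
    ⟨⟨1, 0, 0, 0, 0, 0⟩, ⟨1, 0, 0, 0, 0, 0⟩, ⟨1, 0, 0, 0, 0, 0⟩, ⟨1, 0, 0, 0, 0, 0⟩, ⟨(if Nat.beq (Nat.land (fld code 540) 1) 1 || Nat.beq (mag (fld code 540)) 0 then 0 else 1), 0, 0, 0, 0, 0⟩,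
      ⟨(if Nat.beq (Nat.land (fld code 540) 1) 1 || Nat.beq (mag (fld code 540)) 0 then 0 else 1), 0, 0, 0, 0, 0⟩⟩,
    1, ⟨(fld code 140), (fld code 160), (fld code 180), (fld code 200), (fld code 220), (fld code 240)⟩⟩

lemma colsI_get (code : ℕ) (q : Fin 6) : (colsI code).get q = (colAbs (congOf code)).get q := by
  rw [colAbs_get, Fin.sum_univ_six]
  fin_cases q <;>
    simp [colsI, congOf, Cong.t, V6.get, sval_natAbs, Nat.add_eq] <;> ring

lemma totalI_eq (code : ℕ) : totalI code = wTotal (congOf code) := by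
  rw [wTotal_eq, Fin.sum_univ_six, ← colsI_get, ← colsI_get, ← colsI_get, ← colsI_get, ← colsI_get,
    ← colsI_get]
  simp [totalI, congOf, V6.get, V6.total, Nat.add_eq, Nat.mul_eq]
  ring

lemma cen_of {Y : ℕ} {v w : ℕ → ℤ} {m' : ℕ} (h : Cen k n Y v m) (hvw : ∀ o, w o = v o)
    (hm : m' = m) : Cen k n Y w m' := by
  obtain rfl := hm
  exact ⟨fun o ho => hvw o ▸ h.1 o ho, h.2.trans (pkZ_congr fun o _ => by rw [hvw])⟩

/-- The congruent table holds the congruent lanes. -/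
lemma congI_spec {C ones code : ℕ} {R : U21} {g : Fin 6 → Fin 6 → ℕ → ℤ}
    (hones : (ones : ℤ) = pkZ k n fun _ => 1) (hg : ∀ u v o, g u v o = g v u o)
    (h : ∀ u v, Cen k n ((R.mat.get u).get v) (g u v) C) (i j : Fin 6) :
    Cen k n (((congI C ones code R).mat.get i).get j) (fun o => vB (congOf code) g i j o)
      (C * ((colsI code).get i * (colsI code).get j)) := by
  set a := colsI code with ha
  set K := Nat.mul (Nat.mul 2 C) ones with hKdef
  have hK : (K : ℤ) = pkZ k n fun _ => 2 * (C : ℤ) := by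
    simp only [hKdef, Nat.mul_eq, Nat.cast_mul, hones, mul_pkZ]
    exact pkZ_congr fun o _ => by push_cast; ring
  have hKq : ∀ q : Fin 6, ((Nat.mul (Nat.mul (Nat.mul 2 C) (a.get q)) ones : ℕ) : ℤ) =
      pkZ k n fun _ => 2 * ((C * a.get q : ℕ) : ℤ) := fun q => by
    simp only [Nat.mul_eq, Nat.cast_mul, hones, mul_pkZ]
    exact pkZ_congr fun o _ => by push_cast; ring
  have hu00 : Cen k n
      (dot1 (fld code 20) R.m00)
      (fun o => ((fld code 20) : ℤ) * g 0 0 o) (C * a.get 0) :=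
    cen_of ((h 0 0).dot1) (fun _ => rfl)
      (by simp [ha, colsI, V6.get, Nat.add_eq]; ring)
  have hu01 : Cen k n
      (dot2 K (fld code 40) R.m01 (fld code 260) R.m00)
      (fun o => ((fld code 40) : ℤ) * g 0 1 o + sval (fld code 260) * g 0 0 o) (C * a.get 1) :=
    cen_of ((h 0 1).dot2 hK (h 0 0)) (fun _ => rfl)
      (by simp [ha, colsI, V6.get, Nat.add_eq]; ring)
  have hu02 : Cen k n
      (dot3 K (fld code 60) R.m02 (fld code 280) R.m00 (fld code 360) R.m01)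
      (fun o => ((fld code 60) : ℤ) * g 0 2 o + sval (fld code 280) * g 0 0 o + sval (fld code 360) * g 0 1 o) (C * a.get 2) :=
    cen_of ((h 0 2).dot3 hK (h 0 0) (h 0 1)) (fun _ => rfl)
      (by simp [ha, colsI, V6.get, Nat.add_eq]; ring)
  have hu03 : Cen k n
      (dot4 K (fld code 80) R.m03 (fld code 300) R.m00 (fld code 380) R.m01 (fld code 440) R.m02)
      (fun o => ((fld code 80) : ℤ) * g 0 3 o + sval (fld code 300) * g 0 0 o + sval (fld code 380) * g 0 1 o + sval (fld code 440) * g 0 2 o) (C * a.get 3) :=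
    cen_of ((h 0 3).dot4 hK (h 0 0) (h 0 1) (h 0 2)) (fun _ => rfl)
      (by simp [ha, colsI, V6.get, Nat.add_eq]; ring)
  have hu04 : Cen k n
      (dot5 K (fld code 100) R.m04 (fld code 320) R.m00 (fld code 400) R.m01 (fld code 460) R.m02 (fld code 500) R.m03)
      (fun o => ((fld code 100) : ℤ) * g 0 4 o + sval (fld code 320) * g 0 0 o + sval (fld code 400) * g 0 1 o + sval (fld code 460) * g 0 2 o + sval (fld code 500) * g 0 3 o) (C * a.get 4) :=
    cen_of ((h 0 4).dot5 hK (h 0 0) (h 0 1) (h 0 2) (h 0 3)) (fun _ => rfl)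
      (by simp [ha, colsI, V6.get, Nat.add_eq]; ring)
  have hu05 : Cen k n
      (dot6 K (fld code 120) R.m05 (fld code 340) R.m00 (fld code 420) R.m01 (fld code 480) R.m02 (fld code 520) R.m03 (fld code 540) R.m04)
      (fun o => ((fld code 120) : ℤ) * g 0 5 o + sval (fld code 340) * g 0 0 o + sval (fld code 420) * g 0 1 o + sval (fld code 480) * g 0 2 o + sval (fld code 520) * g 0 3 o + sval (fld code 540) * g 0 4 o) (C * a.get 5) :=
    cen_of ((h 0 5).dot6 hK (h 0 0) (h 0 1) (h 0 2) (h 0 3) (h 0 4)) (fun _ => rfl)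
      (by simp [ha, colsI, V6.get, Nat.add_eq]; ring)
  have hu11 : Cen k n
      (dot2 K (fld code 40) R.m11 (fld code 260) R.m01)
      (fun o => ((fld code 40) : ℤ) * g 1 1 o + sval (fld code 260) * g 1 0 o) (C * a.get 1) :=
    cen_of ((h 1 1).dot2 hK (h 1 0)) (fun _ => rfl)
      (by simp [ha, colsI, V6.get, Nat.add_eq]; ring)
  have hu12 : Cen k n
      (dot3 K (fld code 60) R.m12 (fld code 280) R.m01 (fld code 360) R.m11)
      (fun o => ((fld code 60) : ℤ) * g 1 2 o + sval (fld code 280) * g 1 0 o + sval (fld code 360) * g 1 1 o) (C * a.get 2) :=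
    cen_of ((h 1 2).dot3 hK (h 1 0) (h 1 1)) (fun _ => rfl)
      (by simp [ha, colsI, V6.get, Nat.add_eq]; ring)
  have hu13 : Cen k n
      (dot4 K (fld code 80) R.m13 (fld code 300) R.m01 (fld code 380) R.m11 (fld code 440) R.m12)
      (fun o => ((fld code 80) : ℤ) * g 1 3 o + sval (fld code 300) * g 1 0 o + sval (fld code 380) * g 1 1 o + sval (fld code 440) * g 1 2 o) (C * a.get 3) :=
    cen_of ((h 1 3).dot4 hK (h 1 0) (h 1 1) (h 1 2)) (fun _ => rfl)
      (by simp [ha, colsI, V6.get, Nat.add_eq]; ring)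
  have hu14 : Cen k n
      (dot5 K (fld code 100) R.m14 (fld code 320) R.m01 (fld code 400) R.m11 (fld code 460) R.m12 (fld code 500) R.m13)
      (fun o => ((fld code 100) : ℤ) * g 1 4 o + sval (fld code 320) * g 1 0 o + sval (fld code 400) * g 1 1 o + sval (fld code 460) * g 1 2 o + sval (fld code 500) * g 1 3 o) (C * a.get 4) :=
    cen_of ((h 1 4).dot5 hK (h 1 0) (h 1 1) (h 1 2) (h 1 3)) (fun _ => rfl)
      (by simp [ha, colsI, V6.get, Nat.add_eq]; ring)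
  have hu15 : Cen k n
      (dot6 K (fld code 120) R.m15 (fld code 340) R.m01 (fld code 420) R.m11 (fld code 480) R.m12 (fld code 520) R.m13 (fld code 540) R.m14)
      (fun o => ((fld code 120) : ℤ) * g 1 5 o + sval (fld code 340) * g 1 0 o + sval (fld code 420) * g 1 1 o + sval (fld code 480) * g 1 2 o + sval (fld code 520) * g 1 3 o + sval (fld code 540) * g 1 4 o) (C * a.get 5) :=
    cen_of ((h 1 5).dot6 hK (h 1 0) (h 1 1) (h 1 2) (h 1 3) (h 1 4)) (fun _ => rfl)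
      (by simp [ha, colsI, V6.get, Nat.add_eq]; ring)
  have hu22 : Cen k n
      (dot3 K (fld code 60) R.m22 (fld code 280) R.m02 (fld code 360) R.m12)
      (fun o => ((fld code 60) : ℤ) * g 2 2 o + sval (fld code 280) * g 2 0 o + sval (fld code 360) * g 2 1 o) (C * a.get 2) :=
    cen_of ((h 2 2).dot3 hK (h 2 0) (h 2 1)) (fun _ => rfl)
      (by simp [ha, colsI, V6.get, Nat.add_eq]; ring)
  have hu23 : Cen k n
      (dot4 K (fld code 80) R.m23 (fld code 300) R.m02 (fld code 380) R.m12 (fld code 440) R.m22)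
      (fun o => ((fld code 80) : ℤ) * g 2 3 o + sval (fld code 300) * g 2 0 o + sval (fld code 380) * g 2 1 o + sval (fld code 440) * g 2 2 o) (C * a.get 3) :=
    cen_of ((h 2 3).dot4 hK (h 2 0) (h 2 1) (h 2 2)) (fun _ => rfl)
      (by simp [ha, colsI, V6.get, Nat.add_eq]; ring)
  have hu24 : Cen k n
      (dot5 K (fld code 100) R.m24 (fld code 320) R.m02 (fld code 400) R.m12 (fld code 460) R.m22 (fld code 500) R.m23)
      (fun o => ((fld code 100) : ℤ) * g 2 4 o + sval (fld code 320) * g 2 0 o + sval (fld code 400) * g 2 1 o + sval (fld code 460) * g 2 2 o + sval (fld code 500) * g 2 3 o) (C * a.get 4) :=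
    cen_of ((h 2 4).dot5 hK (h 2 0) (h 2 1) (h 2 2) (h 2 3)) (fun _ => rfl)
      (by simp [ha, colsI, V6.get, Nat.add_eq]; ring)
  have hu25 : Cen k n
      (dot6 K (fld code 120) R.m25 (fld code 340) R.m02 (fld code 420) R.m12 (fld code 480) R.m22 (fld code 520) R.m23 (fld code 540) R.m24)
      (fun o => ((fld code 120) : ℤ) * g 2 5 o + sval (fld code 340) * g 2 0 o + sval (fld code 420) * g 2 1 o + sval (fld code 480) * g 2 2 o + sval (fld code 520) * g 2 3 o + sval (fld code 540) * g 2 4 o) (C * a.get 5) :=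
    cen_of ((h 2 5).dot6 hK (h 2 0) (h 2 1) (h 2 2) (h 2 3) (h 2 4)) (fun _ => rfl)
      (by simp [ha, colsI, V6.get, Nat.add_eq]; ring)
  have hu33 : Cen k n
      (dot4 K (fld code 80) R.m33 (fld code 300) R.m03 (fld code 380) R.m13 (fld code 440) R.m23)
      (fun o => ((fld code 80) : ℤ) * g 3 3 o + sval (fld code 300) * g 3 0 o + sval (fld code 380) * g 3 1 o + sval (fld code 440) * g 3 2 o) (C * a.get 3) :=
    cen_of ((h 3 3).dot4 hK (h 3 0) (h 3 1) (h 3 2)) (fun _ => rfl)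
      (by simp [ha, colsI, V6.get, Nat.add_eq]; ring)
  have hu34 : Cen k n
      (dot5 K (fld code 100) R.m34 (fld code 320) R.m03 (fld code 400) R.m13 (fld code 460) R.m23 (fld code 500) R.m33)
      (fun o => ((fld code 100) : ℤ) * g 3 4 o + sval (fld code 320) * g 3 0 o + sval (fld code 400) * g 3 1 o + sval (fld code 460) * g 3 2 o + sval (fld code 500) * g 3 3 o) (C * a.get 4) :=
    cen_of ((h 3 4).dot5 hK (h 3 0) (h 3 1) (h 3 2) (h 3 3)) (fun _ => rfl)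
      (by simp [ha, colsI, V6.get, Nat.add_eq]; ring)
  have hu35 : Cen k n
      (dot6 K (fld code 120) R.m35 (fld code 340) R.m03 (fld code 420) R.m13 (fld code 480) R.m23 (fld code 520) R.m33 (fld code 540) R.m34)
      (fun o => ((fld code 120) : ℤ) * g 3 5 o + sval (fld code 340) * g 3 0 o + sval (fld code 420) * g 3 1 o + sval (fld code 480) * g 3 2 o + sval (fld code 520) * g 3 3 o + sval (fld code 540) * g 3 4 o) (C * a.get 5) :=
    cen_of ((h 3 5).dot6 hK (h 3 0) (h 3 1) (h 3 2) (h 3 3) (h 3 4)) (fun _ => rfl)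
      (by simp [ha, colsI, V6.get, Nat.add_eq]; ring)
  have hu44 : Cen k n
      (dot5 K (fld code 100) R.m44 (fld code 320) R.m04 (fld code 400) R.m14 (fld code 460) R.m24 (fld code 500) R.m34)
      (fun o => ((fld code 100) : ℤ) * g 4 4 o + sval (fld code 320) * g 4 0 o + sval (fld code 400) * g 4 1 o + sval (fld code 460) * g 4 2 o + sval (fld code 500) * g 4 3 o) (C * a.get 4) :=
    cen_of ((h 4 4).dot5 hK (h 4 0) (h 4 1) (h 4 2) (h 4 3)) (fun _ => rfl)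
      (by simp [ha, colsI, V6.get, Nat.add_eq]; ring)
  have hu45 : Cen k n
      (dot6 K (fld code 120) R.m45 (fld code 340) R.m04 (fld code 420) R.m14 (fld code 480) R.m24 (fld code 520) R.m34 (fld code 540) R.m44)
      (fun o => ((fld code 120) : ℤ) * g 4 5 o + sval (fld code 340) * g 4 0 o + sval (fld code 420) * g 4 1 o + sval (fld code 480) * g 4 2 o + sval (fld code 520) * g 4 3 o + sval (fld code 540) * g 4 4 o) (C * a.get 5) :=
    cen_of ((h 4 5).dot6 hK (h 4 0) (h 4 1) (h 4 2) (h 4 3) (h 4 4)) (fun _ => rfl)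
      (by simp [ha, colsI, V6.get, Nat.add_eq]; ring)
  have hu55 : Cen k n
      (dot6 K (fld code 120) R.m55 (fld code 340) R.m05 (fld code 420) R.m15 (fld code 480) R.m25 (fld code 520) R.m35 (fld code 540) R.m45)
      (fun o => ((fld code 120) : ℤ) * g 5 5 o + sval (fld code 340) * g 5 0 o + sval (fld code 420) * g 5 1 o + sval (fld code 480) * g 5 2 o + sval (fld code 520) * g 5 3 o + sval (fld code 540) * g 5 4 o) (C * a.get 5) :=
    cen_of ((h 5 5).dot6 hK (h 5 0) (h 5 1) (h 5 2) (h 5 3) (h 5 4)) (fun _ => rfl)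
      (by simp [ha, colsI, V6.get, Nat.add_eq]; ring)
  have hb00 : Cen k n (congI C ones code R).m00 (fun o => vB (congOf code) g 0 0 o)
      (C * (a.get 0 * a.get 0)) :=
    cen_of (hu00.dot1)
      (fun o => by simp [vB, congOf, Cong.t, V6.get, Fin.sum_univ_six,
        hg 1 0, hg 2 0, hg 3 0, hg 4 0, hg 5 0, hg 2 1, hg 3 1, hg 4 1, hg 5 1, hg 3 2, hg 4 2, hg 5 2, hg 4 3, hg 5 3, hg 5 4]; ring)
      (by simp [ha, colsI, V6.get, Nat.add_eq]; ring)
  have hb01 : Cen k n (congI C ones code R).m01 (fun o => vB (congOf code) g 0 1 o)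
      (C * (a.get 0 * a.get 1)) :=
    cen_of (hu01.dot1)
      (fun o => by simp [vB, congOf, Cong.t, V6.get, Fin.sum_univ_six,
        hg 1 0, hg 2 0, hg 3 0, hg 4 0, hg 5 0, hg 2 1, hg 3 1, hg 4 1, hg 5 1, hg 3 2, hg 4 2, hg 5 2, hg 4 3, hg 5 3, hg 5 4]; ring)
      (by simp [ha, colsI, V6.get, Nat.add_eq]; ring)
  have hb02 : Cen k n (congI C ones code R).m02 (fun o => vB (congOf code) g 0 2 o)
      (C * (a.get 0 * a.get 2)) :=
    cen_of (hu02.dot1)
      (fun o => by simp [vB, congOf, Cong.t, V6.get, Fin.sum_univ_six,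
        hg 1 0, hg 2 0, hg 3 0, hg 4 0, hg 5 0, hg 2 1, hg 3 1, hg 4 1, hg 5 1, hg 3 2, hg 4 2, hg 5 2, hg 4 3, hg 5 3, hg 5 4]; ring)
      (by simp [ha, colsI, V6.get, Nat.add_eq]; ring)
  have hb03 : Cen k n (congI C ones code R).m03 (fun o => vB (congOf code) g 0 3 o)
      (C * (a.get 0 * a.get 3)) :=
    cen_of (hu03.dot1)
      (fun o => by simp [vB, congOf, Cong.t, V6.get, Fin.sum_univ_six,
        hg 1 0, hg 2 0, hg 3 0, hg 4 0, hg 5 0, hg 2 1, hg 3 1, hg 4 1, hg 5 1, hg 3 2, hg 4 2, hg 5 2, hg 4 3, hg 5 3, hg 5 4]; ring)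
      (by simp [ha, colsI, V6.get, Nat.add_eq]; ring)
  have hb04 : Cen k n (congI C ones code R).m04 (fun o => vB (congOf code) g 0 4 o)
      (C * (a.get 0 * a.get 4)) :=
    cen_of (hu04.dot1)
      (fun o => by simp [vB, congOf, Cong.t, V6.get, Fin.sum_univ_six,
        hg 1 0, hg 2 0, hg 3 0, hg 4 0, hg 5 0, hg 2 1, hg 3 1, hg 4 1, hg 5 1, hg 3 2, hg 4 2, hg 5 2, hg 4 3, hg 5 3, hg 5 4]; ring)
      (by simp [ha, colsI, V6.get, Nat.add_eq]; ring)
  have hb05 : Cen k n (congI C ones code R).m05 (fun o => vB (congOf code) g 0 5 o)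
      (C * (a.get 0 * a.get 5)) :=
    cen_of (hu05.dot1)
      (fun o => by simp [vB, congOf, Cong.t, V6.get, Fin.sum_univ_six,
        hg 1 0, hg 2 0, hg 3 0, hg 4 0, hg 5 0, hg 2 1, hg 3 1, hg 4 1, hg 5 1, hg 3 2, hg 4 2, hg 5 2, hg 4 3, hg 5 3, hg 5 4]; ring)
      (by simp [ha, colsI, V6.get, Nat.add_eq]; ring)
  have hb11 : Cen k n (congI C ones code R).m11 (fun o => vB (congOf code) g 1 1 o)
      (C * (a.get 1 * a.get 1)) :=
    cen_of (hu11.dot2 (hKq 1) hu01)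
      (fun o => by simp [vB, congOf, Cong.t, V6.get, Fin.sum_univ_six,
        hg 1 0, hg 2 0, hg 3 0, hg 4 0, hg 5 0, hg 2 1, hg 3 1, hg 4 1, hg 5 1, hg 3 2, hg 4 2, hg 5 2, hg 4 3, hg 5 3, hg 5 4]; ring)
      (by simp [ha, colsI, V6.get, Nat.add_eq]; ring)
  have hb12 : Cen k n (congI C ones code R).m12 (fun o => vB (congOf code) g 1 2 o)
      (C * (a.get 1 * a.get 2)) :=
    cen_of (hu12.dot2 (hKq 2) hu02)
      (fun o => by simp [vB, congOf, Cong.t, V6.get, Fin.sum_univ_six,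
        hg 1 0, hg 2 0, hg 3 0, hg 4 0, hg 5 0, hg 2 1, hg 3 1, hg 4 1, hg 5 1, hg 3 2, hg 4 2, hg 5 2, hg 4 3, hg 5 3, hg 5 4]; ring)
      (by simp [ha, colsI, V6.get, Nat.add_eq]; ring)
  have hb13 : Cen k n (congI C ones code R).m13 (fun o => vB (congOf code) g 1 3 o)
      (C * (a.get 1 * a.get 3)) :=
    cen_of (hu13.dot2 (hKq 3) hu03)
      (fun o => by simp [vB, congOf, Cong.t, V6.get, Fin.sum_univ_six,
        hg 1 0, hg 2 0, hg 3 0, hg 4 0, hg 5 0, hg 2 1, hg 3 1, hg 4 1, hg 5 1, hg 3 2, hg 4 2, hg 5 2, hg 4 3, hg 5 3, hg 5 4]; ring)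
      (by simp [ha, colsI, V6.get, Nat.add_eq]; ring)
  have hb14 : Cen k n (congI C ones code R).m14 (fun o => vB (congOf code) g 1 4 o)
      (C * (a.get 1 * a.get 4)) :=
    cen_of (hu14.dot2 (hKq 4) hu04)
      (fun o => by simp [vB, congOf, Cong.t, V6.get, Fin.sum_univ_six,
        hg 1 0, hg 2 0, hg 3 0, hg 4 0, hg 5 0, hg 2 1, hg 3 1, hg 4 1, hg 5 1, hg 3 2, hg 4 2, hg 5 2, hg 4 3, hg 5 3, hg 5 4]; ring)
      (by simp [ha, colsI, V6.get, Nat.add_eq]; ring)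
  have hb15 : Cen k n (congI C ones code R).m15 (fun o => vB (congOf code) g 1 5 o)
      (C * (a.get 1 * a.get 5)) :=
    cen_of (hu15.dot2 (hKq 5) hu05)
      (fun o => by simp [vB, congOf, Cong.t, V6.get, Fin.sum_univ_six,
        hg 1 0, hg 2 0, hg 3 0, hg 4 0, hg 5 0, hg 2 1, hg 3 1, hg 4 1, hg 5 1, hg 3 2, hg 4 2, hg 5 2, hg 4 3, hg 5 3, hg 5 4]; ring)
      (by simp [ha, colsI, V6.get, Nat.add_eq]; ring)
  have hb22 : Cen k n (congI C ones code R).m22 (fun o => vB (congOf code) g 2 2 o)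
      (C * (a.get 2 * a.get 2)) :=
    cen_of (hu22.dot3 (hKq 2) hu02 hu12)
      (fun o => by simp [vB, congOf, Cong.t, V6.get, Fin.sum_univ_six,
        hg 1 0, hg 2 0, hg 3 0, hg 4 0, hg 5 0, hg 2 1, hg 3 1, hg 4 1, hg 5 1, hg 3 2, hg 4 2, hg 5 2, hg 4 3, hg 5 3, hg 5 4]; ring)
      (by simp [ha, colsI, V6.get, Nat.add_eq]; ring)
  have hb23 : Cen k n (congI C ones code R).m23 (fun o => vB (congOf code) g 2 3 o)
      (C * (a.get 2 * a.get 3)) :=
    cen_of (hu23.dot3 (hKq 3) hu03 hu13)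
      (fun o => by simp [vB, congOf, Cong.t, V6.get, Fin.sum_univ_six,
        hg 1 0, hg 2 0, hg 3 0, hg 4 0, hg 5 0, hg 2 1, hg 3 1, hg 4 1, hg 5 1, hg 3 2, hg 4 2, hg 5 2, hg 4 3, hg 5 3, hg 5 4]; ring)
      (by simp [ha, colsI, V6.get, Nat.add_eq]; ring)
  have hb24 : Cen k n (congI C ones code R).m24 (fun o => vB (congOf code) g 2 4 o)
      (C * (a.get 2 * a.get 4)) :=
    cen_of (hu24.dot3 (hKq 4) hu04 hu14)
      (fun o => by simp [vB, congOf, Cong.t, V6.get, Fin.sum_univ_six,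
        hg 1 0, hg 2 0, hg 3 0, hg 4 0, hg 5 0, hg 2 1, hg 3 1, hg 4 1, hg 5 1, hg 3 2, hg 4 2, hg 5 2, hg 4 3, hg 5 3, hg 5 4]; ring)
      (by simp [ha, colsI, V6.get, Nat.add_eq]; ring)
  have hb25 : Cen k n (congI C ones code R).m25 (fun o => vB (congOf code) g 2 5 o)
      (C * (a.get 2 * a.get 5)) :=
    cen_of (hu25.dot3 (hKq 5) hu05 hu15)
      (fun o => by simp [vB, congOf, Cong.t, V6.get, Fin.sum_univ_six,
        hg 1 0, hg 2 0, hg 3 0, hg 4 0, hg 5 0, hg 2 1, hg 3 1, hg 4 1, hg 5 1, hg 3 2, hg 4 2, hg 5 2, hg 4 3, hg 5 3, hg 5 4]; ring)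
      (by simp [ha, colsI, V6.get, Nat.add_eq]; ring)
  have hb33 : Cen k n (congI C ones code R).m33 (fun o => vB (congOf code) g 3 3 o)
      (C * (a.get 3 * a.get 3)) :=
    cen_of (hu33.dot4 (hKq 3) hu03 hu13 hu23)
      (fun o => by simp [vB, congOf, Cong.t, V6.get, Fin.sum_univ_six,
        hg 1 0, hg 2 0, hg 3 0, hg 4 0, hg 5 0, hg 2 1, hg 3 1, hg 4 1, hg 5 1, hg 3 2, hg 4 2, hg 5 2, hg 4 3, hg 5 3, hg 5 4]; ring)
      (by simp [ha, colsI, V6.get, Nat.add_eq]; ring)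
  have hb34 : Cen k n (congI C ones code R).m34 (fun o => vB (congOf code) g 3 4 o)
      (C * (a.get 3 * a.get 4)) :=
    cen_of (hu34.dot4 (hKq 4) hu04 hu14 hu24)
      (fun o => by simp [vB, congOf, Cong.t, V6.get, Fin.sum_univ_six,
        hg 1 0, hg 2 0, hg 3 0, hg 4 0, hg 5 0, hg 2 1, hg 3 1, hg 4 1, hg 5 1, hg 3 2, hg 4 2, hg 5 2, hg 4 3, hg 5 3, hg 5 4]; ring)
      (by simp [ha, colsI, V6.get, Nat.add_eq]; ring)
  have hb35 : Cen k n (congI C ones code R).m35 (fun o => vB (congOf code) g 3 5 o)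
      (C * (a.get 3 * a.get 5)) :=
    cen_of (hu35.dot4 (hKq 5) hu05 hu15 hu25)
      (fun o => by simp [vB, congOf, Cong.t, V6.get, Fin.sum_univ_six,
        hg 1 0, hg 2 0, hg 3 0, hg 4 0, hg 5 0, hg 2 1, hg 3 1, hg 4 1, hg 5 1, hg 3 2, hg 4 2, hg 5 2, hg 4 3, hg 5 3, hg 5 4]; ring)
      (by simp [ha, colsI, V6.get, Nat.add_eq]; ring)
  have hb44 : Cen k n (congI C ones code R).m44 (fun o => vB (congOf code) g 4 4 o)
      (C * (a.get 4 * a.get 4)) :=
    cen_of (hu44.dot5 (hKq 4) hu04 hu14 hu24 hu34)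
      (fun o => by simp [vB, congOf, Cong.t, V6.get, Fin.sum_univ_six,
        hg 1 0, hg 2 0, hg 3 0, hg 4 0, hg 5 0, hg 2 1, hg 3 1, hg 4 1, hg 5 1, hg 3 2, hg 4 2, hg 5 2, hg 4 3, hg 5 3, hg 5 4]; ring)
      (by simp [ha, colsI, V6.get, Nat.add_eq]; ring)
  have hb45 : Cen k n (congI C ones code R).m45 (fun o => vB (congOf code) g 4 5 o)
      (C * (a.get 4 * a.get 5)) :=
    cen_of (hu45.dot5 (hKq 5) hu05 hu15 hu25 hu35)
      (fun o => by simp [vB, congOf, Cong.t, V6.get, Fin.sum_univ_six,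
        hg 1 0, hg 2 0, hg 3 0, hg 4 0, hg 5 0, hg 2 1, hg 3 1, hg 4 1, hg 5 1, hg 3 2, hg 4 2, hg 5 2, hg 4 3, hg 5 3, hg 5 4]; ring)
      (by simp [ha, colsI, V6.get, Nat.add_eq]; ring)
  have hb55 : Cen k n (congI C ones code R).m55 (fun o => vB (congOf code) g 5 5 o)
      (C * (a.get 5 * a.get 5)) :=
    cen_of (hu55.dot6 (hKq 5) hu05 hu15 hu25 hu35 hu45)
      (fun o => by simp [vB, congOf, Cong.t, V6.get, Fin.sum_univ_six,
        hg 1 0, hg 2 0, hg 3 0, hg 4 0, hg 5 0, hg 2 1, hg 3 1, hg 4 1, hg 5 1, hg 3 2, hg 4 2, hg 5 2, hg 4 3, hg 5 3, hg 5 4]; ring)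
      (by simp [ha, colsI, V6.get, Nat.add_eq]; ring)
  fin_cases i <;> fin_cases j
  · exact hb00
  · exact hb01
  · exact hb02
  · exact hb03
  · exact hb04
  · exact hb05
  · exact cen_of hb01 (fun o => vB_comm _ hg _ _ _) (congrArg _ (mul_comm _ _))
  · exact hb11
  · exact hb12
  · exact hb13
  · exact hb14
  · exact hb15
  · exact cen_of hb02 (fun o => vB_comm _ hg _ _ _) (congrArg _ (mul_comm _ _))
  · exact cen_of hb12 (fun o => vB_comm _ hg _ _ _) (congrArg _ (mul_comm _ _))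
  · exact hb22
  · exact hb23
  · exact hb24
  · exact hb25
  · exact cen_of hb03 (fun o => vB_comm _ hg _ _ _) (congrArg _ (mul_comm _ _))
  · exact cen_of hb13 (fun o => vB_comm _ hg _ _ _) (congrArg _ (mul_comm _ _))
  · exact cen_of hb23 (fun o => vB_comm _ hg _ _ _) (congrArg _ (mul_comm _ _))
  · exact hb33
  · exact hb34
  · exact hb35
  · exact cen_of hb04 (fun o => vB_comm _ hg _ _ _) (congrArg _ (mul_comm _ _))
  · exact cen_of hb14 (fun o => vB_comm _ hg _ _ _) (congrArg _ (mul_comm _ _))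
  · exact cen_of hb24 (fun o => vB_comm _ hg _ _ _) (congrArg _ (mul_comm _ _))
  · exact cen_of hb34 (fun o => vB_comm _ hg _ _ _) (congrArg _ (mul_comm _ _))
  · exact hb44
  · exact hb45
  · exact cen_of hb05 (fun o => vB_comm _ hg _ _ _) (congrArg _ (mul_comm _ _))
  · exact cen_of hb15 (fun o => vB_comm _ hg _ _ _) (congrArg _ (mul_comm _ _))
  · exact cen_of hb25 (fun o => vB_comm _ hg _ _ _) (congrArg _ (mul_comm _ _))
  · exact cen_of hb35 (fun o => vB_comm _ hg _ _ _) (congrArg _ (mul_comm _ _))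
  · exact cen_of hb45 (fun o => vB_comm _ hg _ _ _) (congrArg _ (mul_comm _ _))
  · exact hb55

end Vale.Agent.P098.Check6.Interval
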