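import Vale.Agent.P098.Check6.Tree

/-!
P098, checker for `d = 6`: interval leaves.  A nonnegative form on the cone at every coefficient
lane makes the tensor form nonnegative, so each interval of lanes gets a congruence of its own,
upper triangular in the pivot order `2, 1, 0, 3, 4, 5`, and weights of its own.  An interval is one
number with 28 fields of 20 bits: the length, six diagonal entries, six weights, and the 15 entries
above the diagonal row by row, each as twice its absolute value plus one if negative.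
-/

namespace Vale.Agent.P098.Check6.Interval

/-- A symmetric table in the pivot order. -/
structure U21 where
  m00 : ℕ
  m01 : ℕ
  m02 : ℕ
  m03 : ℕ
  m04 : ℕ
  m05 : ℕ
  m11 : ℕ
  m12 : ℕ
  m13 : ℕ
  m14 : ℕ
  m15 : ℕ
  m22 : ℕ
  m23 : ℕ
  m24 : ℕ
  m25 : ℕ
  m33 : ℕ
  m34 : ℕ
  m35 : ℕ
  m44 : ℕ
  m45 : ℕ
  m55 : ℕ

/-- All values mapped. -/
def U21.map (f : ℕ → ℕ) (x : U21) : U21 :=
  ⟨f x.m00, f x.m01, f x.m02, f x.m03, f x.m04, f x.m05, f x.m11,
    f x.m12, f x.m13, f x.m14, f x.m15, f x.m22, f x.m23, f x.m24,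
    f x.m25, f x.m33, f x.m34, f x.m35, f x.m44, f x.m45, f x.m55⟩

/-- The entries of a state in the pivot order. -/
def ofList : List ℕ → U21
  | [e0, e1, e2, e3, e4, e5, e6, e7, e8, e9, e10,
      e11, e12, e13, e14, e15, e16, e17, e18, e19, e20] =>
    ⟨e11, e7, e2, e12, e13, e14, e6, e1, e8, e9, e10,
      e0, e3, e4, e5, e15, e16, e17, e18, e19, e20⟩
  | _ => ⟨0, 0, 0, 0, 0, 0, 0, 0, 0, 0, 0, 0, 0, 0, 0, 0, 0, 0, 0, 0, 0⟩

/-- Six values mapped. -/
def map6 (f : ℕ → ℕ) (x : V6 ℕ) : V6 ℕ := ⟨f x.a0, f x.a1, f x.a2, f x.a3, f x.a4, f x.a5⟩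

/-- A field of an interval, given by its first bit. -/
def fld (code b : ℕ) : ℕ := Nat.land (Nat.shiftRight code b) 1048575

/-- The absolute value in a signed field. -/
def mag (f : ℕ) : ℕ := Nat.shiftRight f 1

/-- A multiple of a centred vector by a signed field; `K` is twice the centre. -/
noncomputable def term (f K X : ℕ) : ℕ :=
  Nat.mul (mag f) (Bool.rec X (Nat.sub K X) (Nat.beq (Nat.land f 1) 1))

/-- A combination with the diagonal entry `d`. -/
noncomputable def dot1 (d X : ℕ) : ℕ := Nat.mul d X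

/-- A combination of two. -/
noncomputable def dot2 (K d X f₁ X₁ : ℕ) : ℕ := Nat.add (dot1 d X) (term f₁ K X₁)

/-- A combination of three. -/
noncomputable def dot3 (K d X f₁ X₁ f₂ X₂ : ℕ) : ℕ := Nat.add (dot2 K d X f₁ X₁) (term f₂ K X₂)

/-- A combination of four. -/
noncomputable def dot4 (K d X f₁ X₁ f₂ X₂ f₃ X₃ : ℕ) : ℕ :=
  Nat.add (dot3 K d X f₁ X₁ f₂ X₂) (term f₃ K X₃)

/-- A combination of five. -/
noncomputable def dot5 (K d X f₁ X₁ f₂ X₂ f₃ X₃ f₄ X₄ : ℕ) : ℕ :=
  Nat.add (dot4 K d X f₁ X₁ f₂ X₂ f₃ X₃) (term f₄ K X₄)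

/-- A combination of six. -/
noncomputable def dot6 (K d X f₁ X₁ f₂ X₂ f₃ X₃ f₄ X₄ f₅ X₅ : ℕ) : ℕ :=
  Nat.add (dot5 K d X f₁ X₁ f₂ X₂ f₃ X₃ f₄ X₄) (term f₅ K X₅)

/-- The column sums of absolute values. -/
def colsI (code : ℕ) : V6 ℕ :=
  ⟨(fld code 20),
    (Nat.add (fld code 40) (mag (fld code 260))),
    (Nat.add (Nat.add (fld code 60) (mag (fld code 280))) (mag (fld code 360))),
    (Nat.add (Nat.add (Nat.add (fld code 80) (mag (fld code 300))) (mag (fld code 380))) (mag (fld code 440))),
    (Nat.add (Nat.add (Nat.add (Nat.add (fld code 100) (mag (fld code 320))) (mag (fld code 400))) (mag (fld code 460))) (mag (fld code 500))),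
    (Nat.add (Nat.add (Nat.add (Nat.add (Nat.add (fld code 120) (mag (fld code 340))) (mag (fld code 420))) (mag (fld code 480))) (mag (fld code 520))) (mag (fld code 540)))⟩

/-- The congruent table in centred form: `ones` has a one in every lane. -/
noncomputable def congI (C ones code : ℕ) (m : U21) : U21 :=
  let a := colsI code
  let K := Nat.mul (Nat.mul 2 C) ones
  let K0 := Nat.mul (Nat.mul (Nat.mul 2 C) a.a0) ones
  let K1 := Nat.mul (Nat.mul (Nat.mul 2 C) a.a1) ones
  let K2 := Nat.mul (Nat.mul (Nat.mul 2 C) a.a2) ones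
  let K3 := Nat.mul (Nat.mul (Nat.mul 2 C) a.a3) ones
  let K4 := Nat.mul (Nat.mul (Nat.mul 2 C) a.a4) ones
  let K5 := Nat.mul (Nat.mul (Nat.mul 2 C) a.a5) ones
  let u00 := dot1 (fld code 20) m.m00
  let u01 := dot2 K (fld code 40) m.m01 (fld code 260) m.m00
  let u02 := dot3 K (fld code 60) m.m02 (fld code 280) m.m00 (fld code 360) m.m01
  let u03 := dot4 K (fld code 80) m.m03 (fld code 300) m.m00 (fld code 380) m.m01 (fld code 440) m.m02
  let u04 := dot5 K (fld code 100) m.m04 (fld code 320) m.m00 (fld code 400) m.m01 (fld code 460) m.m02 (fld code 500) m.m03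
  let u05 := dot6 K (fld code 120) m.m05 (fld code 340) m.m00 (fld code 420) m.m01 (fld code 480) m.m02 (fld code 520) m.m03 (fld code 540) m.m04
  let u11 := dot2 K (fld code 40) m.m11 (fld code 260) m.m01
  let u12 := dot3 K (fld code 60) m.m12 (fld code 280) m.m01 (fld code 360) m.m11
  let u13 := dot4 K (fld code 80) m.m13 (fld code 300) m.m01 (fld code 380) m.m11 (fld code 440) m.m12
  let u14 := dot5 K (fld code 100) m.m14 (fld code 320) m.m01 (fld code 400) m.m11 (fld code 460) m.m12 (fld code 500) m.m13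
  let u15 := dot6 K (fld code 120) m.m15 (fld code 340) m.m01 (fld code 420) m.m11 (fld code 480) m.m12 (fld code 520) m.m13 (fld code 540) m.m14
  let u22 := dot3 K (fld code 60) m.m22 (fld code 280) m.m02 (fld code 360) m.m12
  let u23 := dot4 K (fld code 80) m.m23 (fld code 300) m.m02 (fld code 380) m.m12 (fld code 440) m.m22
  let u24 := dot5 K (fld code 100) m.m24 (fld code 320) m.m02 (fld code 400) m.m12 (fld code 460) m.m22 (fld code 500) m.m23
  let u25 := dot6 K (fld code 120) m.m25 (fld code 340) m.m02 (fld code 420) m.m12 (fld code 480) m.m22 (fld code 520) m.m23 (fld code 540) m.m24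
  let u33 := dot4 K (fld code 80) m.m33 (fld code 300) m.m03 (fld code 380) m.m13 (fld code 440) m.m23
  let u34 := dot5 K (fld code 100) m.m34 (fld code 320) m.m03 (fld code 400) m.m13 (fld code 460) m.m23 (fld code 500) m.m33
  let u35 := dot6 K (fld code 120) m.m35 (fld code 340) m.m03 (fld code 420) m.m13 (fld code 480) m.m23 (fld code 520) m.m33 (fld code 540) m.m34
  let u44 := dot5 K (fld code 100) m.m44 (fld code 320) m.m04 (fld code 400) m.m14 (fld code 460) m.m24 (fld code 500) m.m34
  let u45 := dot6 K (fld code 120) m.m45 (fld code 340) m.m04 (fld code 420) m.m14 (fld code 480) m.m24 (fld code 520) m.m34 (fld code 540) m.m44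
  let u55 := dot6 K (fld code 120) m.m55 (fld code 340) m.m05 (fld code 420) m.m15 (fld code 480) m.m25 (fld code 520) m.m35 (fld code 540) m.m45
  U21.mk
    (dot1 (fld code 20) u00)
    (dot1 (fld code 20) u01)
    (dot1 (fld code 20) u02)
    (dot1 (fld code 20) u03)
    (dot1 (fld code 20) u04)
    (dot1 (fld code 20) u05)
    (dot2 K1 (fld code 40) u11 (fld code 260) u01)
    (dot2 K2 (fld code 40) u12 (fld code 260) u02)
    (dot2 K3 (fld code 40) u13 (fld code 260) u03)
    (dot2 K4 (fld code 40) u14 (fld code 260) u04)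
    (dot2 K5 (fld code 40) u15 (fld code 260) u05)
    (dot3 K2 (fld code 60) u22 (fld code 280) u02 (fld code 360) u12)
    (dot3 K3 (fld code 60) u23 (fld code 280) u03 (fld code 360) u13)
    (dot3 K4 (fld code 60) u24 (fld code 280) u04 (fld code 360) u14)
    (dot3 K5 (fld code 60) u25 (fld code 280) u05 (fld code 360) u15)
    (dot4 K3 (fld code 80) u33 (fld code 300) u03 (fld code 380) u13 (fld code 440) u23)
    (dot4 K4 (fld code 80) u34 (fld code 300) u04 (fld code 380) u14 (fld code 440) u24)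
    (dot4 K5 (fld code 80) u35 (fld code 300) u05 (fld code 380) u15 (fld code 440) u25)
    (dot5 K4 (fld code 100) u44 (fld code 320) u04 (fld code 400) u14 (fld code 460) u24 (fld code 500) u34)
    (dot5 K5 (fld code 100) u45 (fld code 320) u05 (fld code 400) u15 (fld code 460) u25 (fld code 500) u35)
    (dot6 K5 (fld code 120) u55 (fld code 340) u05 (fld code 420) u15 (fld code 480) u25 (fld code 520) u35 (fld code 540) u45)

/-- The positive lanes of a biased number; `top` has the top bit in every lane. -/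
def posI (k top L : ℕ) : ℕ :=
  let S := Nat.land L top
  Nat.sub (Nat.land L (Nat.mul (Nat.shiftRight S (Nat.sub k 1)) (Nat.sub (Nat.pow 2 k) 1))) S

/-- The absolute values of a biased number. -/
def absI (k top L : ℕ) : ℕ :=
  let p := posI k top L
  Nat.sub (Nat.add (Nat.add p p) top) L

/-- The negative parts, or else the absolute values, of a biased number. -/
noncomputable def costI (k top : ℕ) (both : Bool) (L : ℕ) : ℕ :=
  Bool.rec (absI k top L) (Nat.sub (Nat.add (posI k top L) top) L) both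

/-- One biased row: weight, diagonal, column sum and the weighted costs of the others. -/
def rowI (C E H ones W w b a cost : ℕ) : ℕ :=
  Nat.sub (Nat.add (Nat.mul w b) (Nat.mul (Nat.sub H
    (Nat.add (Nat.mul (Nat.mul C w) (Nat.mul a a)) (Nat.mul (Nat.mul E a) W))) ones)) cost

/-- The weighted total of the column sums. -/
def totalI (code : ℕ) : ℕ :=
  let a := colsI code
  V6.total ⟨Nat.mul (fld code 140) a.a0, Nat.mul (fld code 160) a.a1, Nat.mul (fld code 180) a.a2, Nat.mul (fld code 200) a.a3, Nat.mul (fld code 220) a.a4, Nat.mul (fld code 240) a.a5⟩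

/-- The test that diagonal and weights are positive and the lanes stay apart. -/
def shapeOk (k C E code : ℕ) : Bool :=
  let a := colsI code
  let W := totalI code
  let H := Nat.pow 2 (Nat.sub k 1)
  let t := Nat.add C E
  Nat.blt 0 (fld code 20) &&
    Nat.blt 0 (fld code 40) &&
    Nat.blt 0 (fld code 60) &&
    Nat.blt 0 (fld code 80) &&
    Nat.blt 0 (fld code 100) &&
    Nat.blt 0 (fld code 120) &&
    Nat.blt 0 (fld code 140) &&
    Nat.blt 0 (fld code 160) &&
    Nat.blt 0 (fld code 180) &&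
    Nat.blt 0 (fld code 200) &&
    Nat.blt 0 (fld code 220) &&
    Nat.blt 0 (fld code 240) &&
    Nat.blt (Nat.mul (Nat.mul t a.a0) W) H &&
    Nat.blt (Nat.mul (Nat.mul t a.a1) W) H &&
    Nat.blt (Nat.mul (Nat.mul t a.a2) W) H &&
    Nat.blt (Nat.mul (Nat.mul t a.a3) W) H &&
    Nat.blt (Nat.mul (Nat.mul t a.a4) W) H &&
    Nat.blt (Nat.mul (Nat.mul t a.a5) W) H

/-- The rows of one interval; `sel` holds the top bits of the lanes each row must test. -/
noncomputable def rowsI (k C E ones code : ℕ) (m : U21) (sel : V6 ℕ) : Bool :=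
  let a := colsI code
  let W := totalI code
  let H := Nat.pow 2 (Nat.sub k 1)
  let top := Nat.mul H ones
  let B := congI C ones code m
  let L := fun (b p q : ℕ) => Nat.add b (Nat.mul (Nat.sub H (Nat.mul C (Nat.mul p q))) ones)
  let both := Nat.beq (Nat.land (fld code 540) 1) 1 || Nat.beq (mag (fld code 540)) 0
  let c01 := absI k top (L B.m01 a.a0 a.a1)
  let c02 := absI k top (L B.m02 a.a0 a.a2)
  let c03 := absI k top (L B.m03 a.a0 a.a3)
  let c04 := absI k top (L B.m04 a.a0 a.a4)
  let c05 := absI k top (L B.m05 a.a0 a.a5)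
  let c12 := absI k top (L B.m12 a.a1 a.a2)
  let c13 := absI k top (L B.m13 a.a1 a.a3)
  let c14 := absI k top (L B.m14 a.a1 a.a4)
  let c15 := absI k top (L B.m15 a.a1 a.a5)
  let c23 := absI k top (L B.m23 a.a2 a.a3)
  let c24 := absI k top (L B.m24 a.a2 a.a4)
  let c25 := absI k top (L B.m25 a.a2 a.a5)
  let c34 := absI k top (L B.m34 a.a3 a.a4)
  let c35 := absI k top (L B.m35 a.a3 a.a5)
  let c45 := costI k top both (L B.m45 a.a4 a.a5)
  (
    Nat.beq (Nat.land (rowI C E H ones W (fld code 140) B.m00 a.a0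
      (Nat.add (Nat.add (Nat.add (Nat.add (Nat.mul (fld code 160) c01) (Nat.mul (fld code 180) c02)) (Nat.mul (fld code 200) c03)) (Nat.mul (fld code 220) c04)) (Nat.mul (fld code 240) c05))) sel.a0) sel.a0 &&
    Nat.beq (Nat.land (rowI C E H ones W (fld code 160) B.m11 a.a1
      (Nat.add (Nat.add (Nat.add (Nat.add (Nat.mul (fld code 140) c01) (Nat.mul (fld code 180) c12)) (Nat.mul (fld code 200) c13)) (Nat.mul (fld code 220) c14)) (Nat.mul (fld code 240) c15))) sel.a1) sel.a1 &&
    Nat.beq (Nat.land (rowI C E H ones W (fld code 180) B.m22 a.a2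
      (Nat.add (Nat.add (Nat.add (Nat.add (Nat.mul (fld code 140) c02) (Nat.mul (fld code 160) c12)) (Nat.mul (fld code 200) c23)) (Nat.mul (fld code 220) c24)) (Nat.mul (fld code 240) c25))) sel.a2) sel.a2 &&
    Nat.beq (Nat.land (rowI C E H ones W (fld code 200) B.m33 a.a3
      (Nat.add (Nat.add (Nat.add (Nat.add (Nat.mul (fld code 140) c03) (Nat.mul (fld code 160) c13)) (Nat.mul (fld code 180) c23)) (Nat.mul (fld code 220) c34)) (Nat.mul (fld code 240) c35))) sel.a3) sel.a3 &&
    Nat.beq (Nat.land (rowI C E H ones W (fld code 220) B.m44 a.a4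
      (Nat.add (Nat.add (Nat.add (Nat.add (Nat.mul (fld code 140) c04) (Nat.mul (fld code 160) c14)) (Nat.mul (fld code 180) c24)) (Nat.mul (fld code 200) c34)) (Nat.mul (fld code 240) c45))) sel.a4) sel.a4 &&
    Nat.beq (Nat.land (rowI C E H ones W (fld code 240) B.m55 a.a5
      (Nat.add (Nat.add (Nat.add (Nat.add (Nat.mul (fld code 140) c05) (Nat.mul (fld code 160) c15)) (Nat.mul (fld code 180) c25)) (Nat.mul (fld code 200) c35)) (Nat.mul (fld code 220) c45))) sel.a5) sel.a5)

/-- The test of consecutive intervals: `n` lanes are left, `R` holds their entries, `S` their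
selections. -/
noncomputable def ivsOk (k C E : ℕ) : List ℕ → ℕ → U21 → V6 ℕ → Bool
  | [], n, _, _ => Nat.beq n 0
  | code :: cs, n, R, S =>
    let len := fld code 0
    let bits := Nat.mul k len
    let full := Nat.sub (Nat.pow 2 bits) 1
    Nat.ble len n && shapeOk k C E code &&
      rowsI k C E (Nat.div full (Nat.sub (Nat.pow 2 k) 1)) code
        (R.map fun y => Nat.land y full) (map6 (fun y => Nat.land y full) S) &&
      ivsOk k C E cs (Nat.sub n len) (R.map fun y => Nat.shiftRight y bits)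
        (map6 (fun y => Nat.shiftRight y bits) S)

/-- The rows of the congruent matrix which vanish on a face: those of the first pivots. -/
def pfx : V6 (V6 ℤ) :=
  ⟨⟨0, 0, 1, 0, 0, 0⟩, ⟨0, 1, 1, 0, 0, 0⟩, ⟨1, 1, 1, 0, 0, 0⟩, ⟨1, 1, 1, 1, 0, 0⟩,
    ⟨1, 1, 1, 1, 1, 0⟩, ⟨1, 1, 1, 1, 1, 1⟩⟩

/-- The test of a leaf. -/
noncomputable def leafOkI (cf : Cfg) (s : St) (codes : List ℕ) : Bool :=
  Nat.blt 0 cf.k && Nat.beq s.Ys.length 21 &&
    ivsOk cf.k cf.C s.E codes (size cf.ds) (ofList s.Ys)
      ⟨selP cf pfx.a0 s.faces, selP cf pfx.a1 s.faces, selP cf pfx.a2 s.faces,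
        selP cf pfx.a3 s.faces, selP cf pfx.a4 s.faces, selP cf pfx.a5 s.faces⟩

/-- A bisection tree with interval leaves. -/
inductive Tree : Type
  | leaf (codes : List ℕ)
  | node (axis : ℕ) (l r : Tree)

/-- The test of a tree. -/
noncomputable def check (cf : Cfg) : Tree → St → Bool
  | .leaf codes, s => leafOkI cf s codes
  | .node a l r, s =>
    stepOk cf a && check cf l (step cf a false s) && check cf r (step cf a true s)

end Vale.Agent.P098.Check6.Interval
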