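import Vale.Agent.P098.Check6.IntervalCong

/-!
P098, checker for `d = 6`: a passed interval leaf makes the matrix nonnegative on the cone at every
lane, hence all over its box.
-/

namespace Vale.Agent.P098.Check6.Interval

open Finset

/-- The flag of the pair of the two last pivots. -/
def bothI (code : ℕ) : Bool :=
  Nat.beq (Nat.land (fld code 540) 1) 1 || Nat.beq (mag (fld code 540)) 0

/-- The flag of a pair in the stand-in. -/
def pairI (code : ℕ) (i j : Fin 6) : Bool :=
  decide (4 ≤ i.val) && decide (4 ≤ j.val) && bothI code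

lemma posRows_congOf (code : ℕ) (i j : Fin 6) :
    ((posRows (congOf code)).get i && (posRows (congOf code)).get j) = pairI code i j := by
  simp only [pairI, bothI, congOf]
  rcases Bool.eq_false_or_eq_true (Nat.beq (Nat.land (fld code 540) 1) 1 || Nat.beq (mag (fld code 540)) 0) with h | h <;>
    simp only [h, if_true, Bool.false_eq_true, if_false] <;> fin_cases i <;> fin_cases j <;> rfl

lemma shapeOk_spec {k C E code : ℕ} (h : shapeOk k C E code = true) (i : Fin 6) :
    0 < (congOf code).t i i ∧ 0 < (congOf code).w.get i ∧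
      (C + E) * (colAbs (congOf code)).get i * wTotal (congOf code) < 2 ^ (k - 1) := by
  simp only [shapeOk, Bool.and_eq_true, Nat.blt_eq] at h
  rw [← colsI_get, ← totalI_eq]
  fin_cases i <;> refine ⟨Int.natCast_pos.2 ?_, ?_, ?_⟩ <;> simp_all [congOf, V6.get]

lemma costI_eq {k n : ℕ} (hk : 0 < k) {v : ℕ → ℤ}
    (hv : ∀ o < n, |v o| < ((2 ^ (k - 1) : ℕ) : ℤ)) (q : Bool) {top : ℕ}
    (htop : top = pk k n fun _ => 2 ^ (k - 1)) :
    costI k top q (pk k n fun o => (v o + ((2 ^ (k - 1) : ℕ) : ℤ)).toNat) =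
      pk k n fun o => (cost q (v o)).toNat := by
  rcases n with _ | n
  · subst htop
    cases q <;> simp [pk, costI, absI, posI] <;> rfl
  · have hs : size (Cfg.mk k 0 [n]).ds = n + 1 := by simp [size]
    have ht : topP ⟨k, 0, [n]⟩ = top := by rw [topP_eq (cf := ⟨k, 0, [n]⟩) hk, htop, hs]
    have h := costP_spec (cf := ⟨k, 0, [n]⟩) hk (v := v) (by rw [hs]; exact hv) q
    simp only [hs] at h
    rw [← h, ← ht]
    cases q <;> rfl

/-- A row of the test in biased lanes. -/
lemma rowI_spec {k n C E code ones : ℕ} {g : Fin 6 → Fin 6 → ℕ → ℤ} {i : Fin 6} {b cs : ℕ}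
    (hones : (ones : ℤ) = pkZ k n fun _ => 1)
    (hb : Cen k n b (fun o => vB (congOf code) g i i o)
      (C * ((colsI code).get i * (colsI code).get i)))
    (hcs : (cs : ℤ) = pkZ k n fun o => ∑ j, if i = j then 0 else
      ((congOf code).w.get j : ℤ) * cost (pairI code i j) (vB (congOf code) g i j o))
    (hK : C * (congOf code).w.get i * ((colsI code).get i * (colsI code).get i) +
      E * (colsI code).get i * totalI code ≤ 2 ^ (k - 1))
    (hR : ∀ o < n, |vR (congOf code) E g i o| < ((2 ^ (k - 1) : ℕ) : ℤ)) :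
    rowI C E (2 ^ (k - 1)) ones (totalI code) ((congOf code).w.get i) b ((colsI code).get i) cs =
      pk k n fun o => (vR (congOf code) E g i o + ((2 ^ (k - 1) : ℕ) : ℤ)).toNat := by
  simp only [rowI, Nat.sub_eq, Nat.add_eq, Nat.mul_eq]
  refine sub_eq_pk ?_ fun o ho => by have := abs_lt.1 (hR o ho); omega
  simp only [Nat.cast_add, Nat.cast_mul, Nat.cast_sub hK, hb.2, hones, hcs, mul_pkZ, pkZ_add,
    pkZ_sub]
  refine pkZ_congr fun o _ => ?_
  simp only [vR, posRows_congOf, ← colsI_get, ← totalI_eq]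
  push_cast
  ring

lemma top_test {k n : ℕ} (hk : 0 < k) {r : ℕ → ℤ} {live : ℕ → Bool}
    (hr : ∀ o < n, |r o| < ((2 ^ (k - 1) : ℕ) : ℤ))
    (h : (pk k n fun o => (r o + ((2 ^ (k - 1) : ℕ) : ℤ)).toNat) &&&
        (pk k n fun o => if live o then 2 ^ (k - 1) else 0) =
      pk k n fun o => if live o then 2 ^ (k - 1) else 0)
    {o : ℕ} (ho : o < n) (hl : live o = true) : 0 ≤ r o := by
  have e : 2 ^ k = 2 ^ (k - 1) * 2 := by rw [← pow_succ]; congr 1; omega
  have hp := Nat.two_pow_pos (k - 1)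
  have hH : ∀ o, (if live o then 2 ^ (k - 1) else 0) < 2 ^ k := fun o => by split <;> omega
  have hb : ∀ o < n, (r o + ((2 ^ (k - 1) : ℕ) : ℤ)).toNat < 2 ^ k := fun o ho => by
    have := abs_lt.1 (hr o ho); omega
  rw [pk_land k hb fun o _ => hH o] at h
  have := pk_inj (fun o ho => Nat.and_le_left.trans_lt (hb o ho)) (fun o _ => hH o) h o ho
  simp only [hl, if_true] at this
  rw [land_top hk (hb o ho)] at this
  by_contra hneg
  split at this <;> omega

/-- The weighted costs of a row, as the test adds them up. -/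
def costSum (code : ℕ) (i : Fin 6) (C : Fin 6 → Fin 6 → ℕ) : ℕ :=
  match i with
  | 0 => (Nat.add (Nat.add (Nat.add (Nat.add (Nat.mul (fld code 160) (C 0 1)) (Nat.mul (fld code 180) (C 0 2))) (Nat.mul (fld code 200) (C 0 3))) (Nat.mul (fld code 220) (C 0 4))) (Nat.mul (fld code 240) (C 0 5)))
  | 1 => (Nat.add (Nat.add (Nat.add (Nat.add (Nat.mul (fld code 140) (C 1 0)) (Nat.mul (fld code 180) (C 1 2))) (Nat.mul (fld code 200) (C 1 3))) (Nat.mul (fld code 220) (C 1 4))) (Nat.mul (fld code 240) (C 1 5)))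
  | 2 => (Nat.add (Nat.add (Nat.add (Nat.add (Nat.mul (fld code 140) (C 2 0)) (Nat.mul (fld code 160) (C 2 1))) (Nat.mul (fld code 200) (C 2 3))) (Nat.mul (fld code 220) (C 2 4))) (Nat.mul (fld code 240) (C 2 5)))
  | 3 => (Nat.add (Nat.add (Nat.add (Nat.add (Nat.mul (fld code 140) (C 3 0)) (Nat.mul (fld code 160) (C 3 1))) (Nat.mul (fld code 180) (C 3 2))) (Nat.mul (fld code 220) (C 3 4))) (Nat.mul (fld code 240) (C 3 5)))
  | 4 => (Nat.add (Nat.add (Nat.add (Nat.add (Nat.mul (fld code 140) (C 4 0)) (Nat.mul (fld code 160) (C 4 1))) (Nat.mul (fld code 180) (C 4 2))) (Nat.mul (fld code 200) (C 4 3))) (Nat.mul (fld code 240) (C 4 5)))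
  | 5 => (Nat.add (Nat.add (Nat.add (Nat.add (Nat.mul (fld code 140) (C 5 0)) (Nat.mul (fld code 160) (C 5 1))) (Nat.mul (fld code 180) (C 5 2))) (Nat.mul (fld code 200) (C 5 3))) (Nat.mul (fld code 220) (C 5 4)))

/-- A passed interval has nonnegative rows on its live lanes. -/
lemma rowsI_spec {k n C E code ones : ℕ} {m : U21} {sel : V6 ℕ} {g : Fin 6 → Fin 6 → ℕ → ℤ}
    {live : Fin 6 → ℕ → Bool} (hk : 0 < k) (hones : ones = pk k n fun _ => 1)
    (hg : ∀ u v o, g u v o = g v u o) (hm : ∀ u v, Cen k n ((m.mat.get u).get v) (g u v) C)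
    (hsel : ∀ i, sel.get i = pk k n fun o => if live i o then 2 ^ (k - 1) else 0)
    (hshape : shapeOk k C E code = true) (h : rowsI k C E ones code m sel = true)
    (i : Fin 6) {o : ℕ} (ho : o < n) (hl : live i o = true) :
    0 ≤ vR (congOf code) E g i o := by
  have hoZ : (ones : ℤ) = pkZ k n fun _ => 1 := by
    rw [hones, cast_pk]; exact pkZ_congr fun o _ => rfl
  have htop : Nat.mul (2 ^ (k - 1)) ones = pk k n fun _ => 2 ^ (k - 1) := by
    rw [Nat.mul_eq, hones, mul_pk, mul_one]
  have hB := congI_spec (code := code) hoZ hg hm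
  have hbd := fun i => (shapeOk_spec hshape i).2.2
  set a := colsI code with ha
  have hW : ∀ j, a.get j ≤ totalI code := fun j => by
    rw [ha, colsI_get, totalI_eq, wTotal_eq]
    exact le_trans (Nat.le_mul_of_pos_right _ (shapeOk_spec hshape j).2.1)
      (single_le_sum (f := fun j => (colAbs (congOf code)).get j * (congOf code).w.get j)
        (fun _ _ => Nat.zero_le _) (mem_univ j))
  have hCA : ∀ i j, C * (a.get i * a.get j) < 2 ^ (k - 1) := fun i j => by
    refine lt_of_le_of_lt ?_ (hbd i)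
    rw [← colsI_get, ← totalI_eq, ← ha, ← mul_assoc]
    exact Nat.mul_le_mul (Nat.mul_le_mul (Nat.le_add_right _ _) le_rfl) (hW j)
  have hv : ∀ i j, ∀ o < n, |vB (congOf code) g i j o| < ((2 ^ (k - 1) : ℕ) : ℤ) :=
    fun i j o ho => ((hB i j).1 o ho).trans_lt (Int.ofNat_lt.2 (hCA i j))
  have hR : ∀ i, ∀ o < n, |vR (congOf code) E g i o| < ((2 ^ (k - 1) : ℕ) : ℤ) := fun i o ho =>
    (vR_abs_le (congOf code) E (fun u v => (hm u v).1 o ho) i).trans_lt
      (by exact_mod_cast hbd i)
  have hKi : ∀ i, C * (congOf code).w.get i * (a.get i * a.get i) +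
      E * a.get i * totalI code ≤ 2 ^ (k - 1) := fun i => by
    refine le_trans ?_ (hbd i).le
    rw [← colsI_get, ← totalI_eq, ← ha, add_mul, add_mul, ← mul_assoc]
    refine Nat.add_le_add_right ?_ _
    rw [show C * (congOf code).w.get i * a.get i * a.get i =
      C * a.get i * (a.get i * (congOf code).w.get i) by ring]
    refine Nat.mul_le_mul_left _ ?_
    rw [ha, colsI_get, totalI_eq, wTotal_eq]
    exact single_le_sum (f := fun j => (colAbs (congOf code)).get j * (congOf code).w.get j)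
      (fun _ _ => Nat.zero_le _) (mem_univ i)
  have hLc : ∀ i j (q : Bool), ((costI k (Nat.mul (2 ^ (k - 1)) ones) q
      (Nat.add (((congI C ones code m).mat.get i).get j)
        (Nat.mul (Nat.sub (2 ^ (k - 1)) (Nat.mul C (Nat.mul (a.get i) (a.get j)))) ones)) : ℕ) : ℤ)
      = pkZ k n fun o => cost q (vB (congOf code) g i j o) := by
    intro i j q
    have e : Nat.add (((congI C ones code m).mat.get i).get j)
        (Nat.mul (Nat.sub (2 ^ (k - 1)) (Nat.mul C (Nat.mul (a.get i) (a.get j)))) ones) =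
        pk k n fun o => (vB (congOf code) g i j o + ((2 ^ (k - 1) : ℕ) : ℤ)).toNat := by
      have := sub_eq_pk (k := k) (n := n)
        (a := Nat.add (((congI C ones code m).mat.get i).get j)
          (Nat.mul (Nat.sub (2 ^ (k - 1)) (Nat.mul C (Nat.mul (a.get i) (a.get j)))) ones))
        (b := 0) (v := fun o => vB (congOf code) g i j o + ((2 ^ (k - 1) : ℕ) : ℤ)) ?_
        fun o ho => by have := abs_lt.1 (hv i j o ho); omega
      · simpa using this
      · simp only [Nat.add_eq, Nat.mul_eq, Nat.sub_eq, Nat.cast_add, Nat.cast_mul,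
          Nat.cast_sub (hCA i j).le, (hB i j).2, hoZ, mul_pkZ, pkZ_add, Nat.cast_zero, sub_zero]
        exact pkZ_congr fun o _ => by push_cast; ring
    rw [e, costI_eq hk (hv i j) q htop, cast_pk]
    exact pkZ_congr fun o _ => Int.toNat_of_nonneg (cost_le _ _).1
  have hcost : ∀ i, ((costSum code i fun i j => costI k (Nat.mul (2 ^ (k - 1)) ones) (pairI code i j)
      (Nat.add (((congI C ones code m).mat.get i).get j)
        (Nat.mul (Nat.sub (2 ^ (k - 1)) (Nat.mul C (Nat.mul (a.get i) (a.get j)))) ones))) : ℤ) =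
      pkZ k n fun o => ∑ j, if i = j then 0 else
        ((congOf code).w.get j : ℤ) * cost (pairI code i j) (vB (congOf code) g i j o) := by
    intro i
    fin_cases i <;>
      simp only [costSum, Nat.add_eq, Nat.mul_eq, Nat.cast_add, Nat.cast_mul] <;>
      (simp only [Nat.mul_eq, Nat.add_eq] at hLc; simp only [hLc, mul_pkZ, pkZ_add]) <;>
      exact pkZ_congr fun o _ => by simp [Fin.sum_univ_six, congOf, V6.get]
  have hrow := fun i => rowI_spec hoZ (hB i i) (hcost i) (hKi i) (hR i)
  have key : Nat.beq (Nat.land (rowI C E (2 ^ (k - 1)) ones (totalI code) ((congOf code).w.get i)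
      (((congI C ones code m).mat.get i).get i) (a.get i)
      (costSum code i fun i j => costI k (Nat.mul (2 ^ (k - 1)) ones) (pairI code i j)
        (Nat.add (((congI C ones code m).mat.get i).get j)
          (Nat.mul (Nat.sub (2 ^ (k - 1)) (Nat.mul C (Nat.mul (a.get i) (a.get j)))) ones))))
      (sel.get i)) (sel.get i) = true := by
    have hsymm : ∀ p q : ℕ, Nat.mul p q = Nat.mul q p := fun p q => mul_comm p q
    simp only [rowsI, Bool.and_eq_true] at h
    obtain ⟨⟨⟨⟨⟨h0, h1⟩, h2⟩, h3⟩, h4⟩, h5⟩ := h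
    fin_cases i
    · refine Eq.trans ?_ h0
      rfl
    · refine Eq.trans ?_ h1
      simp only [costSum, hsymm (a.get 1) (a.get 0)]
      rfl
    · refine Eq.trans ?_ h2
      simp only [costSum, hsymm (a.get 2) (a.get 0), hsymm (a.get 2) (a.get 1)]
      rfl
    · refine Eq.trans ?_ h3
      simp only [costSum, hsymm (a.get 3) (a.get 0), hsymm (a.get 3) (a.get 1), hsymm (a.get 3) (a.get 2)]
      rfl
    · refine Eq.trans ?_ h4
      simp only [costSum, hsymm (a.get 4) (a.get 0), hsymm (a.get 4) (a.get 1), hsymm (a.get 4) (a.get 2), hsymm (a.get 4) (a.get 3)]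
      rfl
    · refine Eq.trans ?_ h5
      simp only [costSum, hsymm (a.get 5) (a.get 0), hsymm (a.get 5) (a.get 1), hsymm (a.get 5) (a.get 2), hsymm (a.get 5) (a.get 3), hsymm (a.get 5) (a.get 4)]
      rfl
  rw [hrow i, hsel i, Nat.beq_eq] at key
  exact top_test hk (hR i) key ho hl

end Vale.Agent.P098.Check6.Interval
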