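import Vale.Agent.P098.Check6.Masks

/-!
P098, checker for `d = 6`: signed lanes.  A signed vector is a difference of two packed numbers; in
biased form its top bits are its signs.
-/

namespace Vale.Agent.P098.Check6

open Finset

/-- A signed vector in lanes of `k` bits. -/
def pkZ (k n : ℕ) (v : ℕ → ℤ) : ℤ := ∑ o ∈ range n, v o * 2 ^ (k * o)

lemma cast_pk (k : ℕ) : ∀ (n : ℕ) (f : ℕ → ℕ), (pk k n f : ℤ) = pkZ k n fun o => (f o : ℤ)
  | 0, _ => by simp [pk, pkZ]
  | n + 1, f => by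
    simp only [pk, pkZ, sum_range_succ', Nat.cast_add, Nat.cast_mul, Nat.cast_pow, Nat.cast_ofNat,
      cast_pk k n fun o => f (o + 1)]
    rw [add_comm, Finset.mul_sum]
    congr 1
    · exact sum_congr rfl fun o _ => by rw [mul_add k o 1, pow_add, mul_one]; ring
    · simp

lemma pkZ_congr {k n : ℕ} {v w : ℕ → ℤ} (h : ∀ o < n, v o = w o) : pkZ k n v = pkZ k n w :=
  sum_congr rfl fun o ho => by rw [h o (mem_range.1 ho)]

lemma pkZ_add (k n : ℕ) (v w : ℕ → ℤ) : pkZ k n v + pkZ k n w = pkZ k n fun o => v o + w o := by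
  simp only [pkZ, add_mul, sum_add_distrib]

lemma pkZ_sub (k n : ℕ) (v w : ℕ → ℤ) : pkZ k n v - pkZ k n w = pkZ k n fun o => v o - w o := by
  simp only [pkZ, sub_mul, sum_sub_distrib]

lemma mul_pkZ (k n : ℕ) (t : ℤ) (v : ℕ → ℤ) : t * pkZ k n v = pkZ k n fun o => t * v o := by
  simp only [pkZ, mul_assoc, mul_sum]

lemma pk_const (k n c : ℕ) (hk : 0 < k) : c * rep k 1 n = pk k n fun _ => c := by
  have h := pk_repeat (k := k) (P := 1) (by omega) (fun _ => 1) n
  rw [mul_one] at h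
  simp only [pk, mul_zero, add_zero, one_mul] at h
  rw [← h, mul_pk, mul_one]

/-- A difference with lanes `v + H` in range is the packed number of those lanes. -/
lemma sub_eq_pk {k n : ℕ} {a b : ℕ} {v : ℕ → ℤ} (h : (a : ℤ) - b = pkZ k n v)
    (hv : ∀ o < n, 0 ≤ v o) : a - b = pk k n fun o => (v o).toNat := by
  have e : (pk k n fun o => (v o).toNat : ℤ) = (a : ℤ) - b := by
    rw [cast_pk, h]
    exact pkZ_congr fun o ho => Int.toNat_of_nonneg (hv o ho)
  omega

lemma pk_inj {k : ℕ} : ∀ {n : ℕ} {f g : ℕ → ℕ}, (∀ o < n, f o < 2 ^ k) → (∀ o < n, g o < 2 ^ k) →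
    pk k n f = pk k n g → ∀ o < n, f o = g o
  | 0, _, _, _, _, _, o, ho => absurd ho (by omega)
  | n + 1, f, g, hf, hg, h, o, ho => by
    simp only [pk] at h
    have h0 : f 0 = g 0 := by
      have := congrArg (· % 2 ^ k) h
      simpa [Nat.add_mul_mod_self_left, Nat.mod_eq_of_lt (hf 0 n.succ_pos),
        Nat.mod_eq_of_lt (hg 0 n.succ_pos)] using this
    rw [h0, Nat.add_left_cancel_iff] at h
    cases o with
    | zero => exact h0
    | succ o =>
      exact pk_inj (fun o ho => hf (o + 1) (by omega)) (fun o ho => hg (o + 1) (by omega))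
        (Nat.eq_of_mul_eq_mul_left (Nat.two_pow_pos k) h) o (by omega)

lemma land_top {k g : ℕ} (hk : 0 < k) (hg : g < 2 ^ k) :
    g &&& 2 ^ (k - 1) = if 2 ^ (k - 1) ≤ g then 2 ^ (k - 1) else 0 := by
  rw [Nat.and_two_pow]
  have e : 2 ^ k = 2 ^ (k - 1) * 2 := by rw [← pow_succ]; congr 1; omega
  by_cases h : 2 ^ (k - 1) ≤ g
  · have : g.testBit (k - 1) = true := by
      rw [Nat.testBit_eq_decide_div_mod_eq, show g / 2 ^ (k - 1) = 1 from
        Nat.div_eq_of_lt_le (by omega) (by omega)]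
      simp
    simp [h, this]
  · simp [h, Nat.testBit_lt_two_pow (not_le.1 h)]

lemma pk_land_top {k n : ℕ} (hk : 0 < k) {g : ℕ → ℕ} (hg : ∀ o < n, g o < 2 ^ k) :
    pk k n g &&& pk k n (fun _ => 2 ^ (k - 1)) =
      pk k n fun o => if 2 ^ (k - 1) ≤ g o then 2 ^ (k - 1) else 0 := by
  rw [pk_land k hg fun _ _ => Nat.pow_lt_pow_right (by omega) (by omega)]
  exact pk_congr k n fun o ho => land_top hk (hg o ho)

/-- The lanes selected by a vector of top bits. -/
lemma land_spread {k n : ℕ} {g : ℕ → ℕ} (hg : ∀ o < n, g o < 2 ^ k) (sel : ℕ → Bool) :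
    Nat.land (pk k n g)
        (Nat.mul (Nat.shiftRight (pk k n fun o => if sel o then 2 ^ (k - 1) else 0) (k - 1))
          (2 ^ k - 1)) =
      pk k n fun o => if sel o then g o else 0 := by
  change pk k n g &&& ((_ >>> (k - 1)) * (2 ^ k - 1)) = _
  have e : (pk k n fun o => if sel o then 2 ^ (k - 1) else 0) =
      2 ^ (k - 1) * pk k n fun o => if sel o then 1 else 0 := by
    rw [mul_pk]
    exact pk_congr k n fun o _ => by split <;> simp
  rw [e, Nat.shiftRight_eq_div_pow, Nat.mul_div_cancel_left _ (Nat.two_pow_pos _), mul_comm,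
    mul_pk, show (pk k n fun o => (2 ^ k - 1) * if sel o then 1 else 0) = maskOf k n sel from
      pk_congr k n fun o _ => by split <;> simp,
    pk_land_maskOf hg]

end Vale.Agent.P098.Check6
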