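import Vale.Agent.P098.Check6.Defs
import Vale.Agent.P098.Check6.Dominant
import Vale.Agent.P098.Check6.Signed

/-!
P098, checker for `d = 6`: a leaf which passes proves that the matrix is nonnegative on the cone
`x₄, x₅ ≥ 0` at every point of its box.
-/

namespace Vale.Agent.P098.Check6

open Finset

namespace V6

variable {α β : Type}

lemma get_map (f : α → β) (v : V6 α) (i : Fin 6) : (v.map f).get i = f (v.get i) := by
  fin_cases i <;> rfl

lemma get_cols (m : V6 (V6 α)) (i j : Fin 6) : (m.cols.get i).get j = (m.get j).get i := by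
  fin_cases i <;> fin_cases j <;> rfl

lemma of_all {v : V6 Bool} (h : v.all = true) (i : Fin 6) : v.get i = true := by
  simp only [all, Bool.and_eq_true] at h
  fin_cases i <;> simp [get, h]

lemma total_eq (v : V6 ℕ) : v.total = ∑ i, v.get i := by
  rw [Fin.sum_univ_six]; rfl

end V6

lemma isZ_iff (t : ℤ) : isZ t = true ↔ t = 0 := by
  rcases t with (_ | n) | n
  · exact ⟨fun _ => rfl, fun _ => rfl⟩
  · exact ⟨fun h => Bool.noConfusion h, fun h => Int.noConfusion h fun h => Nat.noConfusion h⟩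
  · exact ⟨fun h => Bool.noConfusion h, fun h => Int.noConfusion h⟩

lemma acc_eq (t : ℤ) (x r : Pr) : ((acc t x r).1 : ℤ) - (acc t x r).2 =
    ((r.1 : ℤ) - r.2) + t * ((x.1 : ℤ) - x.2) := by
  cases t with
  | ofNat n =>
    rcases n with _ | _ | n
    · simp [acc]
    · rw [show acc (Int.ofNat 1) x r = (r.1 + x.1, r.2 + x.2) from rfl]
      push_cast; simp; ring
    · rw [show acc (Int.ofNat (n + 2)) x r = (r.1 + (n + 2) * x.1, r.2 + (n + 2) * x.2) from rfl,
        Int.ofNat_eq_natCast]
      push_cast; ring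
  | negSucc n =>
    rw [show acc (Int.negSucc n) x r = (r.1 + (n + 1) * x.2, r.2 + (n + 1) * x.1) from rfl,
      Int.negSucc_eq]
    push_cast; ring

lemma signP_eq (t : ℤ) :
    ((signP t).1 : ℤ) - (signP t).2 = t ∧ (signP t).1 + (signP t).2 = t.natAbs := by
  cases t with
  | ofNat n => simp [signP]
  | negSucc n => simp [signP, Int.negSucc_eq]; omega

lemma nonnegZ_iff (t : ℤ) : nonnegZ t = true ↔ 0 ≤ t := by
  cases t with
  | ofNat n => exact ⟨fun _ => Int.natCast_nonneg n, fun _ => rfl⟩
  | negSucc n => exact ⟨fun h => Bool.noConfusion h, fun h => absurd h (by simp)⟩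

lemma dotP_eq (t : V6 ℤ) (x : V6 Pr) : ((dotP t x).1 : ℤ) - (dotP t x).2 =
    ∑ i, t.get i * (((x.get i).1 : ℤ) - (x.get i).2) := by
  simp [dotP, acc_eq, Fin.sum_univ_six, V6.get]

lemma tri_min_max (i j : Fin 6) : tri (min i j) (max i j) = tri i j := by
  fin_cases i <;> fin_cases j <;> rfl

lemma matP_get {Ys : List ℕ} (h : Ys.length = 21) (u v : Fin 6) :
    ((matP Ys).get u).get v = (Ys.getD (tri u v) 0, 0) := by
  rcases Ys with _ | ⟨x00, _ | ⟨x01, _ | ⟨x02, _ | ⟨x03, _ | ⟨x04, _ | ⟨x05, _ | ⟨x11, _ |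
    ⟨x12, _ | ⟨x13, _ | ⟨x14, _ | ⟨x15, _ | ⟨x22, _ | ⟨x23, _ | ⟨x24, _ | ⟨x25, _ |
    ⟨x33, _ | ⟨x34, _ | ⟨x35, _ | ⟨x44, _ | ⟨x45, _ | ⟨x55, _ | ⟨y, ys⟩⟩⟩⟩⟩⟩⟩⟩⟩⟩⟩⟩⟩⟩⟩⟩⟩⟩⟩⟩⟩⟩ <;>
    simp at h
  fin_cases u <;> fin_cases v <;> rfl

lemma congP_get (cf : Cfg) (s : St) (d : Cong) (i j : Fin 6) :
    ((congP cf s d).get i).get j =
      biasP cf (d.T.cols.get (min i j))
        ((d.T.cols.map fun t => (matP s.Ys).map (dotP t)).get (max i j))
        ((colP d).get (min i j)) ((colP d).get (max i j)) := by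
  fin_cases i <;> fin_cases j <;> rfl

lemma rowsOk_get {cf : Cfg} {s : St} {d : Cong} (h : rowsOk cf s d = true) (i : Fin 6) :
    rowOk cf s d ((congP cf s d).get i) ((posRows d).get i) ((colAbs d).get i) i.val
      (((congP cf s d).get i).get i) (d.w.get i) (d.T.cols.get i) = true := by
  simp only [rowsOk, Bool.and_eq_true] at h
  obtain ⟨⟨⟨⟨⟨h0, h1⟩, h2⟩, h3⟩, h4⟩, h5⟩ := h
  fin_cases i
  exacts [h0, h1, h2, h3, h4, h5]

/-- An entry of the congruence. -/
def Cong.t (d : Cong) (u i : Fin 6) : ℤ := (d.T.get u).get i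

lemma cols_t (d : Cong) (i u : Fin 6) : (d.T.cols.get i).get u = d.t u i := V6.get_cols _ _ _

lemma colP_get (d : Cong) (i : Fin 6) :
    (((colP d).get i).1 : ℤ) - ((colP d).get i).2 = ∑ u, d.t u i ∧
      ((colP d).get i).1 + ((colP d).get i).2 = ∑ u, (d.t u i).natAbs := by
  simp only [colP, sumP, V6.get_map, V6.total_eq, cols_t, Nat.cast_sum, ← sum_sub_distrib,
    ← sum_add_distrib]
  exact ⟨sum_congr rfl fun u _ => (signP_eq _).1, sum_congr rfl fun u _ => (signP_eq _).2⟩

lemma colAbs_get (d : Cong) (i : Fin 6) : (colAbs d).get i = ∑ u, (d.t u i).natAbs := by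
  rw [colAbs, V6.get_map]
  exact (colP_get d i).2

lemma wTotal_eq (d : Cong) : wTotal d = ∑ j, (colAbs d).get j * d.w.get j := by
  rw [wTotal, V6.total_eq]
  exact sum_congr rfl fun j _ => by fin_cases j <;> rfl

/-- The congruent lanes. -/
def vB (d : Cong) (g : Fin 6 → Fin 6 → ℕ → ℤ) (i j : Fin 6) (o : ℕ) : ℤ :=
  ∑ u, ∑ v, d.t u i * g u v o * d.t v j

lemma vB_comm (d : Cong) {g : Fin 6 → Fin 6 → ℕ → ℤ} (hg : ∀ u v o, g u v o = g v u o)
    (i j : Fin 6) (o : ℕ) : vB d g i j o = vB d g j i o := by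
  rw [vB, sum_comm]
  exact sum_congr rfl fun u _ => sum_congr rfl fun v _ => by rw [hg u v]; ring

lemma vB_abs_le (d : Cong) {g : Fin 6 → Fin 6 → ℕ → ℤ} {C : ℕ} {o : ℕ}
    (hg : ∀ u v, |g u v o| ≤ (C : ℤ)) (i j : Fin 6) :
    |vB d g i j o| ≤ (C : ℤ) * (colAbs d).get i * (colAbs d).get j := by
  simp only [colAbs_get, Nat.cast_sum, Int.natCast_natAbs, Finset.mul_sum, Finset.sum_mul, vB]
  refine (abs_sum_le_sum_abs _ _).trans ?_
  refine (sum_le_sum fun u _ => abs_sum_le_sum_abs _ _).trans (sum_comm.trans_le ?_)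
  refine sum_le_sum fun v _ => sum_le_sum fun u _ => ?_
  rw [abs_mul, abs_mul]
  have := mul_le_mul_of_nonneg_left (hg u v) (abs_nonneg (d.t u i))
  nlinarith [abs_nonneg (d.t v j), mul_le_mul_of_nonneg_right this (abs_nonneg (d.t v j))]

lemma onesP_eq {cf : Cfg} (hk : 0 < cf.k) (c : ℕ) :
    c * onesP cf = pk cf.k (size cf.ds) fun _ => c := pk_const _ _ _ hk

lemma topP_eq {cf : Cfg} (hk : 0 < cf.k) :
    topP cf = pk cf.k (size cf.ds) fun _ => 2 ^ (cf.k - 1) := onesP_eq hk _

/-- The biased congruent entry. -/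
lemma congP_spec {cf : Cfg} {s : St} {d : Cong} (hk : 0 < cf.k) (hlen : s.Ys.length = 21)
    {f : Fin 6 → Fin 6 → ℕ → ℕ} (hf : ∀ u v, s.Ys.getD (tri u v) 0 = pk cf.k (size cf.ds) (f u v))
    (hfs : ∀ u v o, f u v o = f v u o) (i j : Fin 6)
    (hv : ∀ o < size cf.ds,
      0 ≤ vB d (fun u v o => (f u v o : ℤ) - cf.C) i j o + ((2 ^ (cf.k - 1) : ℕ) : ℤ)) :
    ((congP cf s d).get i).get j = pk cf.k (size cf.ds) fun o =>
      (vB d (fun u v o => (f u v o : ℤ) - cf.C) i j o + ((2 ^ (cf.k - 1) : ℕ) : ℤ)).toNat := by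
  have hmin : ∀ o, vB d (fun u v o => (f u v o : ℤ) - cf.C) i j o =
      vB d (fun u v o => (f u v o : ℤ) - cf.C) (min i j) (max i j) o := fun o => by
    rcases le_total i j with h | h
    · rw [min_eq_left h, max_eq_right h]
    · rw [min_eq_right h, max_eq_left h, vB_comm d fun u v o => by rw [hfs u v o]]
  rw [congP_get]
  simp only [hmin] at hv ⊢
  generalize min i j = a at hv ⊢
  generalize max i j = b at hv ⊢
  simp only [biasP, Nat.add_eq, Nat.mul_eq, Nat.sub_eq]
  refine sub_eq_pk ?_ hv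
  set w : ℕ → ℤ := fun o => ∑ u, d.t u a * ∑ v, d.t v b * (f u v o : ℤ)
  set P := dotP (d.T.cols.get a) ((d.T.cols.map fun t => (matP s.Ys).map (dotP t)).get b) with hP
  have hb : (P.1 : ℤ) - P.2 = pkZ cf.k (size cf.ds) w := by
    simp only [hP, dotP_eq, cols_t, V6.get_map, matP_get hlen, hf, cast_pk, Nat.cast_zero,
      sub_zero, pkZ, w, Finset.mul_sum, Finset.sum_mul]
    rw [sum_comm (s := Finset.range _)]
    refine sum_congr rfl fun u _ => ?_
    rw [sum_comm (s := Finset.range _)]
    exact sum_congr rfl fun v _ => sum_congr rfl fun o _ => by ring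
  set z : ℤ := (cf.C : ℤ) * ((∑ u, d.t u a) * ∑ u, d.t u b) with hz
  simp only [Nat.cast_add, onesP_eq hk, cast_pk]
  change ((P.1 : ℤ) + _) - ((P.2 : ℤ) + _) = _
  rw [add_sub_add_comm, hb, pkZ_sub, pkZ_add]
  refine pkZ_congr fun o _ => ?_
  have e : vB d (fun u v o => (f u v o : ℤ) - cf.C) a b o = w o - z := by
    simp only [vB, hz, w, Finset.mul_sum, Finset.sum_mul, mul_sub, sub_mul, sum_sub_distrib]
    congr 1
    · exact sum_congr rfl fun u _ => sum_congr rfl fun v _ => by ring
    · rw [sum_comm]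
      exact sum_congr rfl fun v _ => sum_congr rfl fun u _ => by ring
  rw [e]
  rw [hz, ← (colP_get d a).1, ← (colP_get d b).1]
  push_cast
  ring

/-- What an off-diagonal lane costs. -/
def cost (both : Bool) (v : ℤ) : ℤ := if both then max (-v) 0 else |v|

lemma cost_le (both : Bool) (v : ℤ) : 0 ≤ cost both v ∧ cost both v ≤ |v| := by
  cases both <;> simp [cost, neg_le_abs]

/-- The cost of all lanes of a biased vector at once. -/
lemma costP_spec {cf : Cfg} (hk : 0 < cf.k) {v : ℕ → ℤ}
    (hv : ∀ o < size cf.ds, |v o| < ((2 ^ (cf.k - 1) : ℕ) : ℤ)) (both : Bool) :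
    costP cf both (pk cf.k (size cf.ds) fun o => (v o + ((2 ^ (cf.k - 1) : ℕ) : ℤ)).toNat) =
      pk cf.k (size cf.ds) fun o => (cost both (v o)).toNat := by
  set H := 2 ^ (cf.k - 1) with hH
  have e : 2 ^ cf.k = H * 2 := by rw [hH, ← pow_succ]; congr 1; omega
  set g : ℕ → ℕ := fun o => (v o + (H : ℤ)).toNat
  have hg : ∀ o < size cf.ds, g o < 2 ^ cf.k := fun o ho => by
    have := abs_lt.1 (hv o ho); simp only [g]; omega
  have hs : Nat.land (pk cf.k (size cf.ds) g) (topP cf) =
      pk cf.k (size cf.ds) fun o => if decide (H ≤ g o) = true then H else 0 := by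
    rw [topP_eq hk]
    exact (pk_land_top hk hg).trans (pk_congr _ _ fun o _ => by simp [hH])
  have hpos : posP cf (pk cf.k (size cf.ds) g) =
      pk cf.k (size cf.ds) fun o => (max (v o) 0).toNat := by
    simp only [posP, Nat.sub_eq]
    rw [hs, land_spread hg]
    refine (sub_eq_pk (v := fun o => max (v o) 0) ?_ fun o _ => le_max_right _ _)
    rw [cast_pk, cast_pk, pkZ_sub]
    refine pkZ_congr fun o ho => ?_
    have := abs_lt.1 (hv o ho)
    simp only [g, decide_eq_true_eq]
    split <;> omega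
  cases both
  · simp only [costP, cond_false, cost, Bool.false_eq_true, if_false, Nat.add_eq, Nat.sub_eq]
    rw [hpos, topP_eq hk]
    refine (sub_eq_pk (v := fun o => |v o|) ?_ fun o _ => abs_nonneg _)
    simp only [Nat.cast_add, cast_pk, pkZ_add, pkZ_sub]
    refine pkZ_congr fun o ho => ?_
    have := abs_lt.1 (hv o ho)
    simp only [g, abs_eq_max_neg]
    omega
  · simp only [costP, cond_true, cost, if_true, Nat.add_eq, Nat.sub_eq]
    rw [hpos, topP_eq hk]
    refine (sub_eq_pk (v := fun o => max (-v o) 0) ?_ fun o _ => le_max_right _ _)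
    simp only [Nat.cast_add, cast_pk, pkZ_add, pkZ_sub]
    refine pkZ_congr fun o ho => ?_
    have := abs_lt.1 (hv o ho)
    simp only [g]
    omega

/-- The lanes which a row must test. -/
def live (cf : Cfg) (t : V6 ℤ) (Fs : List Face) (o : ℕ) : Bool :=
  Fs.all fun F => !deadFor cf t F ||
    if F.top then decide (axisIdx (stride cf.ds F.axis) (cf.ds.getD F.axis 0) o < cf.ds.getD F.axis 0)
    else decide (1 ≤ axisIdx (stride cf.ds F.axis) (cf.ds.getD F.axis 0) o)

lemma selP_spec {cf : Cfg} (hk : 0 < cf.k) (t : V6 ℤ) : ∀ Fs : List Face,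
    selP cf t Fs = pk cf.k (size cf.ds) fun o => if live cf t Fs o then 2 ^ (cf.k - 1) else 0
  | [] => by simp [selP, live, topP_eq hk]
  | F :: Fs => by
    have hb : ∀ o < size cf.ds, (if live cf t Fs o then 2 ^ (cf.k - 1) else 0) < 2 ^ cf.k :=
      fun o _ => by
        have := Nat.pow_lt_pow_right (show 1 < 2 by omega) (show cf.k - 1 < cf.k by omega)
        have := Nat.two_pow_pos cf.k
        split
        · assumption
        · assumption
    rcases Bool.eq_false_or_eq_true (deadFor cf t F) with hd | hd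
    · have ha : F.axis < cf.ds.length := by
        simp only [deadFor, Bool.and_eq_true, Nat.blt_eq] at hd
        exact hd.1
      have key : offFace cf F = maskOf cf.k (size cf.ds) fun o => if F.top then
          decide (axisIdx (stride cf.ds F.axis) (cf.ds.getD F.axis 0) o < cf.ds.getD F.axis 0)
          else decide (1 ≤ axisIdx (stride cf.ds F.axis) (cf.ds.getD F.axis 0) o) := by
        simp only [offFace]
        cases F.top
        · rw [size_split ha]
          exact ((maskOf_axis hk (size_pos _) (by omega) _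
            (lt := fun o => decide (axisIdx (stride cf.ds F.axis) (cf.ds.getD F.axis 0) o < 1))
            (fun o => decide_eq_true_iff) fun o => decide_eq_true_iff).2).symm
        · rw [size_split ha]
          exact ((maskOf_axis hk (size_pos _) (by omega) _
            (ge := fun o => decide (cf.ds.getD F.axis 0 ≤
              axisIdx (stride cf.ds F.axis) (cf.ds.getD F.axis 0) o))
            (fun o => decide_eq_true_iff) fun o => decide_eq_true_iff).1).symm
      rw [selP, hd, cond_true, selP_spec hk t Fs]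
      rw [show ∀ a b : ℕ, Nat.land a b = a &&& b from fun _ _ => rfl, key, pk_land_maskOf hb]
      refine pk_congr _ _ fun o _ => ?_
      simp only [live, List.all_cons, hd, Bool.not_true, Bool.false_or, Bool.and_eq_true]
      split <;> split <;> simp_all
    · rw [selP, hd, cond_false, selP_spec hk t Fs]
      simp [live, hd]

lemma of_live_false {cf : Cfg} {t : V6 ℤ} {Fs : List Face} {r : List ℕ} (hr : InRange cf.ds r)
    (h : live cf t Fs (flat cf.ds r) = false) :
    ∃ F ∈ Fs, deadFor cf t F = true ∧ OnFace cf.ds F.axis F.top r := by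
  simp only [live, List.all_eq_false] at h
  obtain ⟨F, hF, h⟩ := h
  simp only [Bool.or_eq_true, Bool.not_eq_true', not_or, Bool.not_eq_false] at h
  obtain ⟨hd, h⟩ := h
  have ha : F.axis < cf.ds.length := by
    simp only [deadFor, Bool.and_eq_true, Nat.blt_eq] at hd
    exact hd.1
  refine ⟨F, hF, hd, ?_⟩
  rw [axisIdx_flat hr ha] at h
  have := getD_le (a := F.axis) hr
  simp only [OnFace]
  rcases hT : F.top <;> rw [hT] at h <;>
    simp only [if_true, if_false, Bool.false_eq_true] at h ⊢ <;>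
    have := of_decide_eq_false (Bool.eq_false_iff.2 h) <;> omega

lemma deadFor_rows {cf : Cfg} {d : Cong} {i : Fin 6} {F : Face}
    (h : deadFor cf (d.T.cols.get i) F = true) (u : Fin 6) :
    F.rows.get u = true ∨ d.t u i = 0 := by
  simp only [deadFor, Bool.and_eq_true] at h
  have := V6.of_all h.2 u
  rw [← cols_t]
  fin_cases u <;> exact (Bool.or_eq_true _ _ ▸ this).imp id (isZ_iff _).1

/-- One row of the test on signed lanes. -/
noncomputable def vR (d : Cong) (E : ℕ) (g : Fin 6 → Fin 6 → ℕ → ℤ) (i : Fin 6) (o : ℕ) : ℤ :=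
  (d.w.get i : ℤ) * vB d g i i o -
    ((∑ j, if i = j then 0 else
      (d.w.get j : ℤ) * cost ((posRows d).get i && (posRows d).get j) (vB d g i j o)) +
      (E : ℤ) * (colAbs d).get i * wTotal d)

lemma vR_abs_le (d : Cong) (E : ℕ) {g : Fin 6 → Fin 6 → ℕ → ℤ} {C o : ℕ}
    (hg : ∀ u v, |g u v o| ≤ (C : ℤ)) (i : Fin 6) :
    |vR d E g i o| ≤ ((C : ℤ) + E) * (colAbs d).get i * wTotal d := by
  have h1 : |(d.w.get i : ℤ) * vB d g i i o| ≤
      ∑ j, if i = j then (C : ℤ) * (colAbs d).get i * ((colAbs d).get j * d.w.get j) else 0 := by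
    rw [Finset.sum_ite_eq, if_pos (Finset.mem_univ _), abs_mul, Nat.abs_cast]
    nlinarith [vB_abs_le d hg i i, Int.natCast_nonneg (d.w.get i)]
  have h2 : ∀ j, (if i = j then 0 else
      (d.w.get j : ℤ) * cost ((posRows d).get i && (posRows d).get j) (vB d g i j o)) ≤
      if i = j then 0 else (C : ℤ) * (colAbs d).get i * ((colAbs d).get j * d.w.get j) := fun j => by
    split
    · exact le_rfl
    · nlinarith [vB_abs_le d hg i j, Int.natCast_nonneg (d.w.get j),
        (cost_le ((posRows d).get i && (posRows d).get j) (vB d g i j o)).2]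
  have h3 : 0 ≤ ∑ j, if i = j then 0 else
      (d.w.get j : ℤ) * cost ((posRows d).get i && (posRows d).get j) (vB d g i j o) :=
    sum_nonneg fun j _ => by
      split
      · exact le_rfl
      · exact mul_nonneg (by positivity) (cost_le _ _).1
  have h4 : (∑ j, if i = j then (C : ℤ) * (colAbs d).get i * ((colAbs d).get j * d.w.get j) else 0) +
      (∑ j, if i = j then 0 else (C : ℤ) * (colAbs d).get i * ((colAbs d).get j * d.w.get j)) =
      (C : ℤ) * (colAbs d).get i * wTotal d := by
    rw [← sum_add_distrib, wTotal_eq, Nat.cast_sum, Finset.mul_sum]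
    exact sum_congr rfl fun j _ => by split <;> push_cast <;> ring
  have h5 := sum_le_sum (s := univ) fun j _ => h2 j
  have h6 : (0 : ℤ) ≤ (E : ℤ) * (colAbs d).get i * wTotal d := by positivity
  have h7 := abs_le.1 h1
  simp only [vR, abs_le, add_mul]
  have h8 : 0 ≤ ∑ j, if i = j then 0 else
      (C : ℤ) * (colAbs d).get i * ((colAbs d).get j * d.w.get j) :=
    sum_nonneg fun j _ => by split <;> positivity
  constructor <;> linarith

/-- The biased row. -/
lemma rowP_spec {cf : Cfg} {s : St} {d : Cong} (hk : 0 < cf.k) {g : Fin 6 → Fin 6 → ℕ → ℤ}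
    (i : Fin 6)
    (hB : ∀ j, ((congP cf s d).get i).get j = pk cf.k (size cf.ds) fun o =>
      (vB d g i j o + ((2 ^ (cf.k - 1) : ℕ) : ℤ)).toNat)
    (hv : ∀ j, ∀ o < size cf.ds, |vB d g i j o| < ((2 ^ (cf.k - 1) : ℕ) : ℤ))
    (hR : ∀ o < size cf.ds, |vR d s.E g i o| < ((2 ^ (cf.k - 1) : ℕ) : ℤ)) :
    rowP cf s d ((congP cf s d).get i) ((posRows d).get i) ((colAbs d).get i) i.val
        (((congP cf s d).get i).get i) (d.w.get i) =
      pk cf.k (size cf.ds) fun o => (vR d s.E g i o + ((2 ^ (cf.k - 1) : ℕ) : ℤ)).toNat := by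
  have hB' : ∀ j, (((congP cf s d).get i).get j : ℤ) = pkZ cf.k (size cf.ds) fun o =>
      vB d g i j o + ((2 ^ (cf.k - 1) : ℕ) : ℤ) := fun j => by
    rw [hB, cast_pk]
    exact pkZ_congr fun o ho => Int.toNat_of_nonneg (by have := abs_lt.1 (hv j o ho); omega)
  have hc : ∀ (j : Fin 6) (q : Bool), (costP cf q (((congP cf s d).get i).get j) : ℤ) =
      pkZ cf.k (size cf.ds) fun o => cost q (vB d g i j o) := fun j q => by
    rw [hB, costP_spec hk (hv j), cast_pk]
    exact pkZ_congr fun o ho => Int.toNat_of_nonneg (cost_le _ _).1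
  have hne : ∀ j : Fin 6, Nat.beq i.val j.val = decide (i = j) := fun j => by
    rw [Bool.eq_iff_iff, Nat.beq_eq, decide_eq_true_iff, Fin.val_inj]
  have hsum : (V6.total ⟨
      bif Nat.beq i.val 0 then 0 else Nat.mul d.w.a0
        (costP cf ((posRows d).get i && (posRows d).a0) ((congP cf s d).get i).a0),
      bif Nat.beq i.val 1 then 0 else Nat.mul d.w.a1
        (costP cf ((posRows d).get i && (posRows d).a1) ((congP cf s d).get i).a1),
      bif Nat.beq i.val 2 then 0 else Nat.mul d.w.a2
        (costP cf ((posRows d).get i && (posRows d).a2) ((congP cf s d).get i).a2),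
      bif Nat.beq i.val 3 then 0 else Nat.mul d.w.a3
        (costP cf ((posRows d).get i && (posRows d).a3) ((congP cf s d).get i).a3),
      bif Nat.beq i.val 4 then 0 else Nat.mul d.w.a4
        (costP cf ((posRows d).get i && (posRows d).a4) ((congP cf s d).get i).a4),
      bif Nat.beq i.val 5 then 0 else Nat.mul d.w.a5
        (costP cf ((posRows d).get i && (posRows d).a5) ((congP cf s d).get i).a5)⟩ : ℤ) =
      pkZ cf.k (size cf.ds) fun o => ∑ j, if i = j then 0 else
        (d.w.get j : ℤ) * cost ((posRows d).get i && (posRows d).get j) (vB d g i j o) := by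
    have one : ∀ j : Fin 6, ((bif Nat.beq i.val j.val then 0 else Nat.mul (d.w.get j)
        (costP cf ((posRows d).get i && (posRows d).get j) (((congP cf s d).get i).get j)) : ℕ) : ℤ) =
        pkZ cf.k (size cf.ds) fun o => if i = j then 0 else
          (d.w.get j : ℤ) * cost ((posRows d).get i && (posRows d).get j) (vB d g i j o) := fun j => by
      rw [hne]
      by_cases hij : i = j
      · simp [hij, pkZ]
      · simp [hij, hc, mul_pkZ]
    simp only [V6.total, Nat.add_eq, Nat.cast_add, Fin.sum_univ_six, ← pkZ_add, ← one]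
    rfl
  simp only [rowP, Nat.sub_eq]
  refine sub_eq_pk ?_ fun o ho => ?_
  · simp only [Nat.add_eq, Nat.cast_add, hsum]
    simp only [Nat.mul_eq, onesP_eq hk, topP_eq hk, Nat.cast_mul, hB', cast_pk, mul_pkZ, pkZ_add,
      pkZ_sub]
    exact pkZ_congr fun o _ => by simp only [vR]; push_cast; ring
  · have := abs_lt.1 (hR o ho)
    omega

/-- A passed row is nonnegative on its live lanes. -/
lemma rowOk_spec {cf : Cfg} {s : St} {d : Cong} (hk : 0 < cf.k) {t : V6 ℤ} {r : ℕ → ℤ}
    {B : V6 ℕ} {p : Bool} {a i diag w : ℕ}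
    (h : rowOk cf s d B p a i diag w t = true)
    (hrow : rowP cf s d B p a i diag w =
      pk cf.k (size cf.ds) fun o => (r o + ((2 ^ (cf.k - 1) : ℕ) : ℤ)).toNat)
    (hr : ∀ o < size cf.ds, |r o| < ((2 ^ (cf.k - 1) : ℕ) : ℤ))
    {o : ℕ} (ho : o < size cf.ds) (hl : live cf t s.faces o = true) : 0 ≤ r o := by
  have e : 2 ^ cf.k = 2 ^ (cf.k - 1) * 2 := by rw [← pow_succ]; congr 1; omega
  have hH : ∀ o, (if live cf t s.faces o then 2 ^ (cf.k - 1) else 0) < 2 ^ cf.k := fun o => by
    have := Nat.two_pow_pos (cf.k - 1)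
    split <;> omega
  have hb : ∀ o < size cf.ds,
      (r o + ((2 ^ (cf.k - 1) : ℕ) : ℤ)).toNat < 2 ^ cf.k := fun o ho => by
    have := abs_lt.1 (hr o ho); omega
  simp only [rowOk, Nat.beq_eq] at h
  rw [hrow, selP_spec hk] at h
  rw [show ∀ a b : ℕ, Nat.land a b = a &&& b from fun _ _ => rfl] at h
  rw [pk_land cf.k hb fun o _ => hH o] at h
  have := pk_inj (fun o ho => Nat.and_le_left.trans_lt (hb o ho)) (fun o _ => hH o) h o ho
  simp only [hl, if_true] at this
  rw [land_top hk (hb o ho)] at this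
  by_contra hneg
  have hp := Nat.two_pow_pos (cf.k - 1)
  split at this <;> omega

noncomputable section

/-- What a state stands for: symmetric tensors within its error, vanishing on its faces. -/
structure Repr (cf : Cfg) (s : St) (b : Fin 6 → Fin 6 → List ℕ → ℝ) : Prop where
  symm : ∀ i j r, b i j r = b j i r
  rep : ∀ i j, Rep cf.k cf.C s.E cf.ds (s.Ys.getD (tri i j) 0) (b i j)
  face : ∀ F ∈ s.faces, ∀ i, F.rows.get i = true → ∀ j r, InRange cf.ds r →
    OnFace cf.ds F.axis F.top r → b i j r = 0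

/-- The matrix is nonnegative on the cone all over the box of a state. -/
def Good (cf : Cfg) (s : St) : Prop :=
  ∀ b, Repr cf s b → ∀ xs : List ℝ, xs.length = cf.ds.length → InUnit xs →
    ∀ x : Fin 6 → ℝ, 0 ≤ x 4 → 0 ≤ x 5 →
      0 ≤ quadForm (fun i j => evalB cf.ds xs (b i j)) x

lemma evalB_mono (ds : List ℕ) {xs : List ℝ} (hx : InUnit xs) {b c : List ℕ → ℝ}
    (h : ∀ r, InRange ds r → b r ≤ c r) : evalB ds xs b ≤ evalB ds xs c := by
  have h0 := evalB_nonneg ds hx (b := fun r => c r + -1 * b r) fun r hr => by linarith [h r hr]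
  rw [evalB_add, evalB_smul] at h0
  linarith

lemma evalB_abs_le (ds : List ℕ) {xs : List ℝ} (hx : InUnit xs) (b : List ℕ → ℝ) :
    |evalB ds xs b| ≤ evalB ds xs fun r => |b r| := by
  have h1 := evalB_mono ds hx (b := b) (c := fun r => |b r|) fun r _ => le_abs_self _
  have h2 := evalB_mono ds hx (b := fun r => -1 * b r) (c := fun r => |b r|) fun r _ => by
    linarith [neg_abs_le (b r)]
  rw [evalB_smul] at h2
  exact abs_le.2 ⟨by linarith, h1⟩

lemma congrMat_symm {M : Fin 6 → Fin 6 → ℝ} (T : Fin 6 → Fin 6 → ℝ) (h : ∀ i j, M i j = M j i)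
    (i j : Fin 6) : congrMat T M i j = congrMat T M j i := by
  rw [congrMat, sum_comm]
  exact sum_congr rfl fun u _ => sum_congr rfl fun v _ => by rw [h v u]; ring

/-- A passed leaf. -/
theorem leaf_sound {cf : Cfg} {s : St} {d : Cong} (h : leafOk cf s d = true) : Good cf s := by
  simp only [leafOk, Bool.and_eq_true, Nat.blt_eq, Nat.beq_eq] at h
  obtain ⟨⟨⟨⟨⟨⟨hk, hc⟩, hw⟩, hlen⟩, hinv⟩, hbd⟩, hrows⟩ := h
  intro b hb xs _ hxs x hx4 hx5
  have hw' : ∀ i, 0 < d.w.get i := fun i => by
    simpa [V6.get_map] using V6.of_all hw i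
  have hbd' : ∀ i, (cf.C + s.E) * (colAbs d).get i * wTotal d < 2 ^ (cf.k - 1) := fun i => by
    simp only [boundOk] at hbd
    simpa [V6.get_map] using V6.of_all hbd i
  choose f0 hf0 hfC0 hfE0 using hb.rep
  set f : Fin 6 → Fin 6 → ℕ → ℕ := fun u v => f0 (min u v) (max u v) with hfdef
  have hf : ∀ u v, s.Ys.getD (tri u v) 0 = pk cf.k (size cf.ds) (f u v) := fun u v => by
    rw [← tri_min_max, hf0]
  have hfs : ∀ u v o, f u v o = f v u o := fun u v o => by simp [f, min_comm, max_comm]
  have hbm : ∀ u v r, b (min u v) (max u v) r = b u v r := fun u v r => by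
    rcases le_total u v with hle | hle
    · rw [min_eq_left hle, max_eq_right hle]
    · rw [min_eq_right hle, max_eq_left hle, hb.symm]
  set g : Fin 6 → Fin 6 → ℕ → ℤ := fun u v o => (f u v o : ℤ) - cf.C with hg
  have hgC : ∀ o < size cf.ds, ∀ u v, |g u v o| ≤ (cf.C : ℤ) := fun o ho u v => by
    have := hfC0 (min u v) (max u v) o ho
    simp only [g, f, abs_le]
    omega
  have hW : ∀ j, (colAbs d).get j ≤ wTotal d := fun j => by
    rw [wTotal_eq]
    exact le_trans (Nat.le_mul_of_pos_right _ (hw' j))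
      (single_le_sum (f := fun j => (colAbs d).get j * d.w.get j) (fun _ _ => Nat.zero_le _)
        (mem_univ j))
  have hbdZ : ∀ i, ((cf.C : ℤ) + s.E) * (colAbs d).get i * wTotal d <
      ((2 ^ (cf.k - 1) : ℕ) : ℤ) := fun i => by exact_mod_cast hbd' i
  have hv : ∀ i j, ∀ o < size cf.ds, |vB d g i j o| < ((2 ^ (cf.k - 1) : ℕ) : ℤ) := by
    intro i j o ho
    refine ((vB_abs_le d (hgC o ho) i j).trans ?_).trans_lt (hbdZ i)
    have h1 : ((colAbs d).get j : ℤ) ≤ wTotal d := by exact_mod_cast hW j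
    have h2 : (0 : ℤ) ≤ cf.C * (colAbs d).get i := by positivity
    have h3 : (0 : ℤ) ≤ (s.E : ℤ) * (colAbs d).get i * wTotal d := by positivity
    nlinarith [mul_le_mul_of_nonneg_left h1 h2]
  have hR : ∀ i, ∀ o < size cf.ds, |vR d s.E g i o| < ((2 ^ (cf.k - 1) : ℕ) : ℤ) :=
    fun i o ho => (vR_abs_le d s.E (hgC o ho) i).trans_lt (hbdZ i)
  have hB : ∀ i j, ((congP cf s d).get i).get j = pk cf.k (size cf.ds) fun o =>
      (vB d g i j o + ((2 ^ (cf.k - 1) : ℕ) : ℤ)).toNat := fun i j =>
    congP_spec hk hlen hf hfs i j fun o ho => by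
      have := abs_lt.1 (hv i j o ho); linarith
  have hrow : ∀ i o, o < size cf.ds → live cf (d.T.cols.get i) s.faces o = true →
      0 ≤ vR d s.E g i o := fun i o ho hl =>
    rowOk_spec hk (rowsOk_get hrows i) (rowP_spec hk i (hB i) (hv i) (hR i)) (hR i) ho hl
  -- the real congruent tensors
  set T : Fin 6 → Fin 6 → ℝ := fun u i => (d.t u i : ℝ) with hT
  set bR : Fin 6 → Fin 6 → List ℕ → ℝ := fun i j r => congrMat T (fun u v => b u v r) i j with hbR
  set both : Fin 6 → Fin 6 → Bool := fun i j => (posRows d).get i && (posRows d).get j with hboth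
  set φ : Bool → ℝ → ℝ := fun q v => if q then max (-v) 0 else |v| with hφ
  have hclose : ∀ i j r, InRange cf.ds r → |bR i j r - (vB d g i j (flat cf.ds r) : ℝ)| ≤
      (s.E : ℝ) * (colAbs d).get i * (colAbs d).get j := by
    intro i j r hr
    simp only [hbR, congrMat, vB, hT, Int.cast_sum, Int.cast_mul, colAbs_get, Nat.cast_sum,
      ← sum_sub_distrib, Finset.mul_sum, Finset.sum_mul]
    refine (abs_sum_le_sum_abs _ _).trans ((sum_le_sum fun u _ => abs_sum_le_sum_abs _ _).trans
      (le_of_le_of_eq (sum_le_sum fun u _ => sum_le_sum fun v _ => ?_) sum_comm))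
    have h1 := hfE0 (min u v) (max u v) r hr
    rw [hbm] at h1
    have e : (g u v (flat cf.ds r) : ℝ) = (f0 (min u v) (max u v) (flat cf.ds r) : ℝ) - cf.C := by
      simp [g, f]
    rw [← e] at h1
    rw [← sub_mul, ← mul_sub, abs_mul, abs_mul, Nat.cast_natAbs, Nat.cast_natAbs, Int.cast_abs,
      Int.cast_abs]
    nlinarith [abs_nonneg (d.t u i : ℝ), abs_nonneg (d.t v j : ℝ),
      mul_le_mul_of_nonneg_left h1 (mul_nonneg (abs_nonneg (d.t u i : ℝ)) (abs_nonneg (d.t v j : ℝ)))]
  have hpoint : ∀ i r, InRange cf.ds r →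
      (∑ j ∈ univ.erase i, (d.w.get j : ℝ) * φ (both i j) (bR i j r)) ≤ d.w.get i * bR i i r := by
    intro i r hr
    rcases Bool.eq_false_or_eq_true (live cf (d.T.cols.get i) s.faces (flat cf.ds r)) with hl | hl
    · have h0 : (0 : ℝ) ≤ (vR d s.E g i (flat cf.ds r) : ℤ) := by
        exact_mod_cast hrow i _ (flat_lt hr) hl
      have hsum : (∑ j ∈ univ.erase i, (d.w.get j : ℝ) * φ (both i j) (bR i j r)) ≤
          ∑ j ∈ univ.erase i, ((d.w.get j : ℝ) * (cost (both i j) (vB d g i j (flat cf.ds r)) : ℤ) +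
            (d.w.get j : ℝ) * ((s.E : ℝ) * (colAbs d).get i * (colAbs d).get j)) := by
        refine sum_le_sum fun j _ => ?_
        rw [← mul_add]
        refine mul_le_mul_of_nonneg_left ?_ (Nat.cast_nonneg _)
        have := abs_le.1 (hclose i j r hr)
        simp only [φ, cost]
        cases both i j
        · simp only [Bool.false_eq_true, if_false, Int.cast_abs, abs_le]
          constructor <;>
            linarith [le_abs_self (vB d g i j (flat cf.ds r) : ℝ),
              neg_abs_le (vB d g i j (flat cf.ds r) : ℝ)]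
        · simp only [if_true, Int.cast_max, Int.cast_neg, Int.cast_zero]
          refine max_le ?_ ?_
          · linarith [le_max_left (-(vB d g i j (flat cf.ds r) : ℝ)) 0]
          · linarith [le_max_right (-(vB d g i j (flat cf.ds r) : ℝ)) 0, abs_le.2 this,
              abs_nonneg (bR i j r - (vB d g i j (flat cf.ds r) : ℝ))]
      refine hsum.trans ?_
      have h1 := abs_le.1 (hclose i i r hr)
      have h2 : (∑ j, if i = j then (0 : ℝ) else
          (d.w.get j : ℝ) * (cost (both i j) (vB d g i j (flat cf.ds r)) : ℤ)) =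
          ∑ j ∈ univ.erase i, (d.w.get j : ℝ) * (cost (both i j) (vB d g i j (flat cf.ds r)) : ℤ) := by
        rw [← Finset.add_sum_erase univ _ (mem_univ i), if_pos rfl, zero_add]
        exact sum_congr rfl fun j hj => if_neg (ne_of_mem_erase hj).symm
      have h3 : (s.E : ℝ) * (colAbs d).get i * wTotal d =
          d.w.get i * ((s.E : ℝ) * (colAbs d).get i * (colAbs d).get i) +
          ∑ j ∈ univ.erase i,
            (d.w.get j : ℝ) * ((s.E : ℝ) * (colAbs d).get i * (colAbs d).get j) := by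
        rw [Finset.add_sum_erase univ (fun j => (d.w.get j : ℝ) *
          ((s.E : ℝ) * (colAbs d).get i * (colAbs d).get j)) (mem_univ i), wTotal_eq, Nat.cast_sum,
          Finset.mul_sum]
        exact sum_congr rfl fun j _ => by push_cast; ring
      simp only [vR, Int.cast_sub, Int.cast_add, Int.cast_mul, Int.cast_natCast, Int.cast_sum,
        apply_ite (fun z : ℤ => (z : ℝ)), Int.cast_zero] at h0
      simp only [hboth] at h2
      rw [h2, h3] at h0
      rw [sum_add_distrib]
      have h4 := mul_le_mul_of_nonneg_left h1.1 (Nat.cast_nonneg (α := ℝ) (d.w.get i))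
      simp only [hboth]
      nlinarith
    · obtain ⟨F, hF, hdead, hon⟩ := of_live_false hr hl
      have hz : ∀ j, bR i j r = 0 := fun j => by
        simp only [hbR, congrMat]
        refine sum_eq_zero fun u _ => sum_eq_zero fun v _ => ?_
        rcases deadFor_rows hdead u with hu | hu
        · rw [hb.face F hF u hu v r hr hon]; ring
        · simp [hT, hu]
      simp only [hz, mul_zero]
      exact le_of_eq (sum_eq_zero fun j _ => by simp [φ])
  -- the matrix at the point
  set M : Fin 6 → Fin 6 → ℝ := fun i j => evalB cf.ds xs (b i j) with hM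
  have hMs : ∀ i j, M i j = M j i := fun i j =>
    evalB_congr _ _ fun r _ => hb.symm i j r
  have hev : ∀ i j, congrMat T M i j = evalB cf.ds xs (bR i j) := fun i j => by
    simp only [hbR, congrMat, evalB_sum]
    refine sum_congr rfl fun u _ => sum_congr rfl fun v _ => ?_
    rw [mul_right_comm, ← evalB_smul]
    exact evalB_congr _ _ fun r _ => by ring
  set y : Fin 6 → ℝ := fun i => (∑ v, (((d.Tinv.get i).get v : ℤ) : ℝ) * x v) / d.c with hy
  have hcpos : (0 : ℝ) < d.c := by exact_mod_cast hc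
  have hTy : (fun i => ∑ u, T i u * y u) = x := by
    have e : ∀ i v, ∑ u, d.t i u * (d.Tinv.get u).get v = if i = v then (d.c : ℤ) else 0 := by
      intro i v
      simp only [invOk] at hinv
      have h1 := V6.of_all hinv i
      have key : ∀ (r : V6 ℤ) (w : Fin 6) (m : ℕ),
          Nat.beq (dotP r ((d.Tinv.cols.map fun v => v.map signP).get w)).1
            (Nat.add (dotP r ((d.Tinv.cols.map fun v => v.map signP).get w)).2 m) = true →
          ∑ u, r.get u * (d.Tinv.get u).get w = (m : ℤ) := fun r w m h => by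
        rw [Nat.beq_eq, Nat.add_eq] at h
        have := dotP_eq r ((d.Tinv.cols.map fun v => v.map signP).get w)
        simp only [V6.get_map, (signP_eq _).1, V6.get_cols] at this h
        rw [← this, h]
        push_cast
        ring
      fin_cases i <;>
        (have h2 := V6.of_all h1 v
         fin_cases v <;> exact key _ _ _ h2)
    funext i
    simp only [hy, mul_div_assoc', Finset.mul_sum, ← Finset.sum_div]
    rw [sum_comm, div_eq_iff hcpos.ne']
    simp only [← mul_assoc, ← Finset.sum_mul, hT, ← Int.cast_mul, ← Int.cast_sum, e]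
    simp [apply_ite (fun z : ℤ => (z : ℝ)), mul_comm]
  have hpos : ∀ i, (posRows d).get i = true → 0 ≤ y i := fun i hi => by
    simp only [posRows, V6.get_map, Bool.and_eq_true, isZ_iff, nonnegZ_iff] at hi
    obtain ⟨⟨⟨⟨⟨h0, h1⟩, h2⟩, h3⟩, h4⟩, h5⟩ := hi
    have e0 : (d.Tinv.get i).get 0 = 0 := h0
    have e1 : (d.Tinv.get i).get 1 = 0 := h1
    have e2 : (d.Tinv.get i).get 2 = 0 := h2
    have e3 : (d.Tinv.get i).get 3 = 0 := h3
    simp only [hy, Fin.sum_univ_six, e0, e1, e2, e3, Int.cast_zero, zero_mul, zero_add]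
    have h4' : (0 : ℝ) ≤ ((d.Tinv.get i).a4 : ℤ) := by exact_mod_cast h4
    have h5' : (0 : ℝ) ≤ ((d.Tinv.get i).a5 : ℤ) := by exact_mod_cast h5
    exact div_nonneg (add_nonneg (mul_nonneg h4' hx4) (mul_nonneg h5' hx5)) hcpos.le
  set Cm : Fin 6 → Fin 6 → ℝ := fun i j =>
    if i ≠ j ∧ both i j = true then max (congrMat T M i j) 0 else 0 with hCm
  have hC : 0 ≤ quadForm Cm y := by
    refine sum_nonneg fun i _ => sum_nonneg fun j _ => ?_
    simp only [hCm]
    split
    · rename_i hij
      simp only [hboth, Bool.and_eq_true] at hij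
      exact mul_nonneg (mul_nonneg (le_max_right _ _) (hpos i hij.2.1)) (hpos j hij.2.2)
    · simp
  have hCs : ∀ i j, Cm i j = Cm j i := fun i j => by
    simp only [hCm, hboth]
    rw [congrMat_symm T hMs j i, Bool.and_comm ((posRows d).get j)]
    by_cases hij : i = j
    · simp [hij]
    · simp [hij, Ne.symm hij]
  have hmain := quadForm_nonneg_of_dominant (B := congrMat T M) (C := Cm)
    (w := fun i => (d.w.get i : ℝ)) (fun i => by exact_mod_cast hw' i)
    (fun i j => by rw [congrMat_symm T hMs i j, hCs i j]) (fun i => ?_) hC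
  · rw [quadForm_congrMat, hTy] at hmain
    exact hmain
  have hdiag : Cm i i = 0 := by simp [hCm]
  rw [hdiag, sub_zero]
  calc ∑ j ∈ univ.erase i, |congrMat T M i j - Cm i j| * (d.w.get j : ℝ)
      ≤ ∑ j ∈ univ.erase i, evalB cf.ds xs fun r => (d.w.get j : ℝ) * φ (both i j) (bR i j r) := by
        refine sum_le_sum fun j hj => ?_
        rw [evalB_smul, mul_comm]
        refine mul_le_mul_of_nonneg_left ?_ (Nat.cast_nonneg _)
        have hij : i ≠ j := (ne_of_mem_erase hj).symm
        simp only [hCm, hev, φ]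
        rcases Bool.eq_false_or_eq_true (both i j) with hq | hq
        · simp only [hq, hij, ne_eq, not_false_eq_true, and_self, if_true]
          have h1 := evalB_mono cf.ds hxs (b := fun r => -1 * bR i j r)
            (c := fun r => max (-bR i j r) 0) fun r _ => by
              linarith [le_max_left (-bR i j r) 0]
          have h2 := evalB_nonneg cf.ds hxs (b := fun r => max (-bR i j r) 0)
            fun r _ => le_max_right _ _
          rw [evalB_smul] at h1
          rw [abs_le]
          constructor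
          · rcases le_total (evalB cf.ds xs (bR i j)) 0 with hle | hle
            · rw [max_eq_right hle]; linarith
            · rw [max_eq_left hle]; linarith
          · rcases le_total (evalB cf.ds xs (bR i j)) 0 with hle | hle
            · rw [max_eq_right hle]; linarith
            · rw [max_eq_left hle]; linarith
        · simp only [hq, Bool.false_eq_true, and_false, if_false, sub_zero]
          exact evalB_abs_le cf.ds hxs _
    _ = evalB cf.ds xs fun r => ∑ j ∈ univ.erase i, (d.w.get j : ℝ) * φ (both i j) (bR i j r) :=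
        (evalB_sum _ _ _ _).symm
    _ ≤ evalB cf.ds xs fun r => (d.w.get i : ℝ) * bR i i r :=
        evalB_mono cf.ds hxs fun r hr => hpoint i r hr
    _ = _ := by rw [evalB_smul, hev, mul_comm]

end

end Vale.Agent.P098.Check6
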