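import Vale.Agent.P098.Check6.Halve

/-!
P098, checker for `d = 6`: the masks of an axis in closed form, quick to evaluate in the kernel.
-/

namespace Vale.Agent.P098.Check6

/-- `q` ones with distance `P` lanes. -/
def rep (k P q : ℕ) : ℕ := (2 ^ (k * P * q) - 1) / (2 ^ (k * P) - 1)

/-- In each of `q` periods of `P` lanes, the first `m` lanes. -/
def lowMask (k P q m : ℕ) : ℕ := (2 ^ (k * m) - 1) * rep k P q

/-- In each of `q` periods of `P` lanes, the lanes from `m` on. -/
def highMask (k P q m : ℕ) : ℕ := (2 ^ (k * P) - 2 ^ (k * m)) * rep k P q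

/-- The masks of the rounds towards the lower half: `q` periods along an axis of stride `S`. -/
def lowerFast (k q S d : ℕ) : List (ℕ × ℕ) :=
  (List.range d).map fun r =>
    (lowMask k ((d + 1) * S) q ((r + 1) * S), highMask k ((d + 1) * S) q ((r + 1) * S))

/-- The masks of the rounds towards the upper half. -/
def upperFast (k q S d : ℕ) : List (ℕ × ℕ) :=
  (List.range d).map fun r =>
    (highMask k ((d + 1) * S) q ((d - r) * S), lowMask k ((d + 1) * S) q ((d - r) * S))

/-- The mask of the division, in closed form. -/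
def divFast (k n d : ℕ) : ℕ := (2 ^ (k - d) - 1) * rep k 1 n

lemma pk_periodic (k P : ℕ) (f : ℕ → ℕ) : ∀ q : ℕ,
    pk k (q * P) (fun o => f (o % P)) * (2 ^ (k * P) - 1) = pk k P f * (2 ^ (k * P * q) - 1)
  | 0 => by simp [pk]
  | q + 1 => by
    rw [show (q + 1) * P = P + q * P by ring, pk_append,
      pk_congr k P (g := f) fun o ho => by rw [Nat.mod_eq_of_lt ho],
      pk_congr k (q * P) (g := fun o => f (o % P)) fun o _ => by rw [Nat.add_mod_left],
      add_mul, mul_assoc, pk_periodic k P f q, show k * P * (q + 1) = k * P + k * P * q by ring,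
      Nat.pow_add]
    obtain ⟨a, ha⟩ : ∃ a, 2 ^ (k * P) = a + 1 := ⟨2 ^ (k * P) - 1, by have := Nat.two_pow_pos (k * P); omega⟩
    obtain ⟨b, hb⟩ : ∃ b, 2 ^ (k * P * q) = b + 1 :=
      ⟨2 ^ (k * P * q) - 1, by have := Nat.two_pow_pos (k * P * q); omega⟩
    rw [ha, hb, show (a + 1) * (b + 1) = a * b + a + b + 1 by ring]
    simp only [Nat.add_sub_cancel]
    ring

lemma pk_repeat {k P : ℕ} (hk : 0 < k * P) (f : ℕ → ℕ) (q : ℕ) :
    pk k (q * P) (fun o => f (o % P)) = pk k P f * rep k P q := by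
  have h1 : 0 < 2 ^ (k * P) - 1 := by
    have := Nat.one_lt_two_pow hk.ne'
    omega
  refine Nat.eq_of_mul_eq_mul_right h1 ?_
  rw [pk_periodic, rep, mul_assoc (pk k P f), Nat.div_mul_cancel]
  rw [Nat.pow_mul 2 (k * P) q]
  exact Nat.sub_one_dvd_pow_sub_one (2 ^ (k * P)) q

lemma pk_ones (k : ℕ) : ∀ m, pk k m (fun _ => 2 ^ k - 1) + 1 = 2 ^ (k * m)
  | 0 => by simp [pk]
  | m + 1 => by
    rw [pk, mul_add, mul_one, Nat.pow_add, ← pk_ones k m]
    have h := Nat.two_pow_pos k
    rw [add_mul, one_mul, mul_comm (pk k m _)]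
    omega

lemma maskOf_low {k P m : ℕ} (hk : 0 < k * P) (hm : m ≤ P) (q : ℕ) :
    maskOf k (q * P) (fun o => decide (o % P < m)) = lowMask k P q m ∧
      maskOf k (q * P) (fun o => decide (m ≤ o % P)) = highMask k P q m := by
  obtain ⟨l, rfl⟩ := Nat.exists_eq_add_of_le hm
  have h1 := pk_ones k m
  have h2 := pk_ones k l
  constructor
  · rw [maskOf, pk_repeat hk (fun x => if decide (x < m) then 2 ^ k - 1 else 0), lowMask, pk_append,
      pk_congr k m (g := fun _ => 2 ^ k - 1) fun o ho => by simp [ho],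
      pk_congr k l (g := fun _ => 0) fun o _ => by simp, pk_zero, mul_zero, add_zero]
    congr 1
    omega
  · rw [maskOf, pk_repeat hk (fun x => if decide (m ≤ x) then 2 ^ k - 1 else 0), highMask, pk_append,
      pk_congr k l (g := fun _ => 2 ^ k - 1) fun o _ => by simp,
      pk_congr k m (g := fun _ => 0) fun o ho => by simp [ho], pk_zero, zero_add]
    congr 1
    have h3 : 2 ^ (k * m) * 2 ^ (k * l) = 2 ^ (k * (m + l)) := by rw [← Nat.pow_add, mul_add]
    rw [← h3, ← h2, mul_add, mul_one, Nat.add_sub_cancel]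

lemma axisIdx_lt_iff {S d o m : ℕ} (hS : 0 < S) :
    axisIdx S d o < m ↔ o % ((d + 1) * S) < m * S := by
  rw [axisIdx, ← Nat.mod_mul_right_div_self, Nat.div_lt_iff_lt_mul hS, mul_comm S (d + 1)]

lemma maskOf_axis {k S d m : ℕ} (hk : 0 < k) (hS : 0 < S) (hm : m ≤ d + 1) (q : ℕ)
    {lt ge : ℕ → Bool} (h1 : ∀ o, lt o = true ↔ axisIdx S d o < m)
    (h2 : ∀ o, ge o = true ↔ m ≤ axisIdx S d o) :
    maskOf k (q * ((d + 1) * S)) lt = lowMask k ((d + 1) * S) q (m * S) ∧
      maskOf k (q * ((d + 1) * S)) ge = highMask k ((d + 1) * S) q (m * S) := by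
  obtain ⟨e1, e2⟩ := maskOf_low (k := k) (P := (d + 1) * S) (m := m * S) (by positivity)
    (Nat.mul_le_mul_right S hm) q
  rw [← e1, ← e2]
  constructor <;> congr 1 <;> funext o <;> rw [Bool.eq_iff_iff, decide_eq_true_iff]
  · exact (h1 o).trans (axisIdx_lt_iff hS)
  · rw [h2 o, ← Nat.not_lt, ← Nat.not_lt, axisIdx_lt_iff hS]

lemma lowerMasks_eq {k q S d : ℕ} (hk : 0 < k) (hS : 0 < S) :
    lowerMasks k (q * ((d + 1) * S)) S d = lowerFast k q S d := by
  refine List.map_congr_left fun r hr => ?_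
  obtain ⟨e1, e2⟩ := maskOf_axis (m := r + 1) (d := d) hk hS (by have := List.mem_range.1 hr; omega) q
    (lt := fun o => Nat.ble (axisIdx S d o) r) (ge := fun o => Nat.blt r (axisIdx S d o))
    (fun o => by rw [Nat.ble_eq]; omega)
    (fun o => by simp only [Nat.blt, Nat.ble_eq])
  rw [e1, e2]

lemma upperMasks_eq {k q S d : ℕ} (hk : 0 < k) (hS : 0 < S) :
    upperMasks k (q * ((d + 1) * S)) S d = upperFast k q S d := by
  refine List.map_congr_left fun r hr => ?_
  obtain ⟨e1, e2⟩ := maskOf_axis (m := d - r) (d := d) hk hS (by omega) q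
    (lt := fun o => Nat.ble (axisIdx S d o) (d - (r + 1)))
    (ge := fun o => Nat.blt (d - (r + 1)) (axisIdx S d o))
    (fun o => by have := List.mem_range.1 hr; rw [Nat.ble_eq]; omega)
    (fun o => by have := List.mem_range.1 hr; simp only [Nat.blt, Nat.ble_eq]; omega)
  rw [e1, e2]

lemma divMask_eq {k n d : ℕ} (hk : 0 < k) : divMask k n d = divFast k n d := by
  have h := pk_repeat (k := k) (P := 1) (by omega) (fun _ => 2 ^ (k - d) - 1) n
  rw [mul_one] at h
  rw [divMask, h, divFast]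
  simp [pk]

end Vale.Agent.P098.Check6
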