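import Vale.Agent.P098.Check6.Leaf

/-!
P098, checker for `d = 6`: soundness of a bisection tree.
-/

namespace Vale.Agent.P098.Check6

noncomputable section

lemma rounds_zero {k S : ℕ} : ∀ ms : List (ℕ × ℕ),
    rounds (lowerRound k S) ms 0 = 0 ∧ rounds (upperRound k S) ms 0 = 0
  | [] => ⟨rfl, rfl⟩
  | m :: ms => by simpa [rounds, lowerRound, upperRound] using rounds_zero ms

lemma loRounds_eq (k S : ℕ) : ∀ (ms : List (ℕ × ℕ)) (Y : ℕ),
    loRounds (k * S) ms Y = rounds (lowerRound k S) ms Y
  | [], _ => rfl
  | m :: ms, Y => loRounds_eq k S ms (lowerRound k S m Y)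

lemma hiRounds_eq (k S : ℕ) : ∀ (ms : List (ℕ × ℕ)) (Y : ℕ),
    hiRounds (k * S) ms Y = rounds (upperRound k S) ms Y
  | [], _ => rfl
  | m :: ms, Y => hiRounds_eq k S ms (upperRound k S m Y)

lemma halfFast_eq (k : ℕ) (ds : List ℕ) (a : ℕ) (side : Bool) (Y : ℕ) :
    halfFast k ds a side Y = halfPacked k ds a side Y := by
  cases side
  · exact congrArg (fun y => (y >>> ds.getD a 0) &&& divFast k (size ds) (ds.getD a 0))
      (loRounds_eq k _ _ Y)
  · exact congrArg (fun y => (y >>> ds.getD a 0) &&& divFast k (size ds) (ds.getD a 0))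
      (hiRounds_eq k _ _ Y)

/-- A half of a represented box. -/
lemma Repr.half {cf : Cfg} {s : St} {b : Fin 6 → Fin 6 → List ℕ → ℝ} {a : ℕ}
    (h : stepOk cf a = true) (hb : Repr cf s b) (side : Bool) :
    Repr cf (step cf a side s) fun i j => halfB cf.ds a side (b i j) := by
  simp only [stepOk, Bool.and_eq_true, Nat.blt_eq, Nat.ble_eq] at h
  obtain ⟨⟨⟨hk, ha⟩, hd⟩, hC⟩ := h
  refine ⟨fun i j r => ?_, fun i j => ?_, fun F hF i hi j r hr hon => ?_⟩
  · rw [show b i j = b j i from funext fun r => hb.symm i j r]
  · have e : (s.Ys.map (halfPacked cf.k cf.ds a side)).getD (tri i j) 0 =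
        halfPacked cf.k cf.ds a side (s.Ys.getD (tri i j) 0) := by
      rcases lt_or_ge (tri i j) s.Ys.length with hl | hl
      · simp [List.getD_eq_getElem?_getD, hl]
      · rw [List.getD_eq_default _ _ hl, List.getD_eq_default _ _ (by simpa using hl)]
        cases side <;> simp [halfPacked, halveP, (rounds_zero _).1, (rounds_zero _).2]
    simp only [step, show halfFast cf.k cf.ds a side = halfPacked cf.k cf.ds a side from
      funext fun Y => halfFast_eq _ _ _ _ Y]
    rw [e]
    exact (hb.rep i j).half ha hd hC hk side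
  · simp only [step, List.mem_filter, Bool.not_eq_true', Bool.and_eq_false_iff] at hF
    refine halfB_face ha (fun r hr hon => hb.face F hF.1 i hi j r hr hon) ?_ hr hon
    intro hac
    rcases hF.2 with h1 | h1
    · simp [hac] at h1
    · have := bne_eq_false_iff_eq.1 h1
      exact this.symm

/-- Both halves give the box. -/
theorem good_node {cf : Cfg} {s : St} {a : ℕ} (h : stepOk cf a = true)
    (hl : Good cf (step cf a false s)) (hr : Good cf (step cf a true s)) : Good cf s := by
  intro b hb xs hlen hxs x hx4 hx5
  have ha : a < cf.ds.length := by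
    simp only [stepOk, Bool.and_eq_true, Nat.blt_eq] at h
    exact h.1.1.2
  refine forall_halves (p := fun xs => 0 ≤ quadForm (fun i j => evalB cf.ds xs (b i j)) x) a
    (fun side ys hyl hys => ?_) xs hlen hxs
  have hg : Good cf (step cf a side s) := by cases side <;> assumption
  have := hg _ (hb.half h side) ys hyl hys x hx4 hx5
  simpa only [evalB_halfB cf.ds a side ys _ ha hyl] using this

/-- A passed tree. -/
theorem check_sound {cf : Cfg} : ∀ (t : Tree) {s : St}, check cf t s = true → Good cf s
  | .leaf _, _, h => leaf_sound h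
  | .node a l r, _, h => by
    simp only [check, Bool.and_eq_true] at h
    exact good_node h.1.1 (check_sound l h.1.2) (check_sound r h.2)

/-- A node of a path: the two children reached along the extended paths. -/
theorem good_reach {cf : Cfg} {root : St} {p : List (ℕ × Bool)} {a : ℕ} (h : stepOk cf a = true)
    (hl : Good cf (reach cf root ((a, false) :: p))) (hr : Good cf (reach cf root ((a, true) :: p))) :
    Good cf (reach cf root p) :=
  good_node h hl hr

end

end Vale.Agent.P098.Check6
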